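import Vale.Agent.P073Z.Sk2
import Vale.Agent.P073Z.MAN
import Vale.Agent.P073Z.RCX2
import Vale.Agent.P073Z.A7a.Cvx

/-!
# Flattening all good triangles, one at a time
-/

open Set Metric Topology Filter

namespace P073

namespace FlatInd

section general

variable {E : Type} [NormedAddCommGroup E] [NormedSpace ℝ E] [FiniteDimensional ℝ E]

omit [FiniteDimensional ℝ E] in
theorem exists_coord {ι : Type} [DecidableEq ι] {x : ι → E} (hx : AffineIndependent ℝ x) :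
    ∃ l : ι → E →ᵃ[ℝ] ℝ, ∀ k i, l k (x i) = if k = i then 1 else 0 := by
  classical
  obtain ⟨t, hst, ht, htop⟩ := exists_subset_affineIndependent_affineSpan_eq_top hx.range
  let b : AffineBasis t ℝ E := ⟨(↑), ht, by rw [Subtype.range_coe, htop]⟩
  refine ⟨fun k => b.coord ⟨x k, hst ⟨k, rfl⟩⟩, fun k i => ?_⟩
  have h := b.coord_apply ⟨x k, hst ⟨k, rfl⟩⟩ ⟨x i, hst ⟨i, rfl⟩⟩
  refine h.trans ?_
  simp only [Subtype.mk.injEq, hx.injective.eq_iff]

omit [FiniteDimensional ℝ E] in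
theorem hull_le {s : Set E} (l : E →ᵃ[ℝ] ℝ) {c : ℝ} (h : ∀ x ∈ s, l x ≤ c) :
    ∀ x ∈ convexHull ℝ s, l x ≤ c :=
  convexHull_min h ((convex_Iic c).affine_preimage l)

omit [FiniteDimensional ℝ E] in
theorem hull_ge {s : Set E} (l : E →ᵃ[ℝ] ℝ) {c : ℝ} (h : ∀ x ∈ s, c ≤ l x) :
    ∀ x ∈ convexHull ℝ s, c ≤ l x :=
  convexHull_min h ((convex_Ici c).affine_preimage l)

/-- vertices and edges of a simplex are cells -/
theorem exists_seg {ι : Type} {K : RCx E} (hK : K.Cvx) {τ : K.ι} {x : ι → E}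
    (hx : AffineIndependent ℝ x) (hτ : K.cell τ = convexHull ℝ (range x))
    (hf : ∀ j, K.cell j ⊆ K.cell τ → ∃ J : Set ι, K.cell j = convexHull ℝ (x '' J)) (a b : ι) :
    ∃ m, K.cell m = segment ℝ (x a) (x b) := by
  classical
  obtain ⟨l, hl⟩ := exists_coord hx
  have hp : midpoint ℝ (x a) (x b) ∈ K.cell τ := by
    rw [hτ]
    exact (convex_convexHull ℝ _).segment_subset (subset_convexHull ℝ _ (mem_range_self a))
      (subset_convexHull ℝ _ (mem_range_self b)) (midpoint_mem_segment _ _)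
  obtain ⟨m, hm, hs⟩ := K.exists_face hp
  obtain ⟨J, hJ⟩ := hf m hs
  have hv : ∀ k, l k (midpoint ℝ (x a) (x b)) = (l k (x a) + l k (x b)) / 2 := fun k => by
    rw [AffineMap.map_midpoint, midpoint_eq_smul_add, invOf_eq_inv, smul_eq_mul]
    ring
  have h0 : ∀ k i, 0 ≤ l k (x i) := fun k i => by
    rw [hl]
    split_ifs <;> norm_num
  have h1 : ∀ k, k ∉ J → l k (midpoint ℝ (x a) (x b)) ≤ 0 := fun k hk => by
    refine hull_le (s := x '' J) (l k) ?_ _ (hJ ▸ hm.1)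
    rintro _ ⟨i, hi, rfl⟩
    rw [hl, if_neg fun h : k = i => hk (h ▸ hi)]
  refine ⟨m, ?_⟩
  rw [hJ, ← convexHull_pair, ← image_pair]
  congr 2
  ext k
  constructor
  · intro hk
    by_contra hn
    simp only [mem_insert_iff, mem_singleton_iff, not_or] at hn
    obtain ⟨t, ht, h2⟩ := exists_beyond (s := K.cell m) (x := x k)
      (hJ ▸ subset_convexHull ℝ _ ⟨k, hk, rfl⟩) (hK.ocell_eq m ▸ hm)
    have h3 := hull_ge (s := x '' J) (l k) (c := 0) (by rintro _ ⟨i, -, rfl⟩; exact h0 k i) _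
      (hJ ▸ h2)
    rw [AffineMap.apply_lineMap, hv, hl, hl, hl, if_pos rfl, if_neg hn.1, if_neg hn.2,
      AffineMap.lineMap_apply_ring] at h3
    linarith
  · intro hk
    by_contra hn
    have h2 := h1 k hn
    rw [hv] at h2
    rcases hk with rfl | rfl
    · have h3 := h0 k b
      rw [hl k k, if_pos rfl] at h2
      linarith
    · have h3 := h0 k a
      rw [hl k k, if_pos rfl] at h2
      linarith

omit [FiniteDimensional ℝ E] in
theorem indep_map {x : Fin 3 → E} (hx : AffineIndependent ℝ x) (A : E →ᵃ[ℝ] E)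
    (hA : InjOn A (convexHull ℝ (range x))) : AffineIndependent ℝ fun i => A (x i) := by
  rw [affineIndependent_iff_of_fintype] at hx ⊢
  intro w h0 h1
  refine hx w h0 ?_
  rw [Finset.weightedVSub_eq_linear_combination _ h0] at h1 ⊢
  have hd : A.linear (∑ i, w i • x i) = 0 := by
    have h2 : ∀ i, A.linear (x i) = A (x i) - A 0 := fun i => by
      rw [← vsub_eq_sub, ← A.linearMap_vsub, vsub_eq_sub, sub_zero]
    simp only [map_sum, map_smul, h2, smul_sub, Finset.sum_sub_distrib, h1, ← Finset.sum_smul, h0,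
      zero_smul, sub_zero]
  have hm : ∀ ε : ℝ, (∀ i, 0 ≤ 1 / 3 + ε * w i) →
      ε • ∑ i, w i • x i + ∑ i, (1 / 3 : ℝ) • x i ∈ convexHull ℝ (range x) := by
    intro ε hε
    have h2 := (convex_convexHull ℝ (range x)).sum_mem (t := Finset.univ)
      (w := fun i => 1 / 3 + ε * w i) (z := x) (fun i _ => hε i)
      (by rw [Finset.sum_add_distrib, ← Finset.mul_sum, h0]; simp)
      (fun i _ => subset_convexHull ℝ _ ⟨i, rfl⟩)
    convert h2 using 1
    simp only [add_smul, mul_smul, Finset.sum_add_distrib, Finset.smul_sum]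
    exact add_comm _ _
  have hS : 0 < 1 + ∑ i, |w i| := by positivity
  have hε : ∀ i, 0 ≤ 1 / 3 + (3 * (1 + ∑ i, |w i|))⁻¹ * w i := fun i => by
    have h2 : |w i| ≤ ∑ i, |w i| :=
      Finset.single_le_sum (f := fun i => |w i|) (fun i _ => abs_nonneg _) (Finset.mem_univ i)
    have h3 := neg_abs_le (w i)
    have h4 : 1 / 3 + (3 * (1 + ∑ i, |w i|))⁻¹ * w i =
        (3 * (1 + ∑ i, |w i|))⁻¹ * (1 + ∑ i, |w i| + w i) := by field_simp
    rw [h4]
    exact mul_nonneg (by positivity) (by linarith)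
  have h3 : ∀ (ε : ℝ) (c : E), A (ε • ∑ i, w i • x i + c) = A c := fun ε c => by
    rw [← vadd_eq_add, A.map_vadd, map_smul, hd, smul_zero, zero_vadd]
  have h2 := hA (hm _ hε) (hm 0 fun i => by norm_num) (by rw [h3, h3])
  rw [zero_smul, add_left_inj] at h2
  exact (smul_eq_zero.1 h2).resolve_left (by positivity)

end general

/-- every vertex lies in an edge -/
theorem exists_edge {Q : RCx E3} (ho : IsOpen Q.carrier) {j : Q.ι} (hj : Q.dim j = 0) :
    ∃ e, Q.dim e = 1 ∧ Q.cell j ⊆ Q.cell e := by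
  obtain ⟨a, ha, -, hd⟩ := Man.exists_top Q.sub_carrier (plMan_open ho) (Q.cell_subset_carrier j)
  obtain ⟨b, hb, -, hd'⟩ := Man.exists_top (Q.sub_bd a)
    (ConBall.conSphere (n := 2) (hd ▸ Q.ball a)).plMan (Q.subset_bd_of_dim_lt ha (by omega))
  obtain ⟨c, hc, -, hd''⟩ := Man.exists_top (Q.sub_bd b)
    (ConBall.conSphere (n := 1) (hd' ▸ Q.ball b)).plMan (Q.subset_bd_of_dim_lt hb (by omega))
  exact ⟨c, hd'', hc⟩

variable {Q : RCx E3} {f : E3 → E3} {κ₀ : ℝ → ℝ} {β : ℝ}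

theorem exists_param (γ : Good Q f κ₀ β) (hQ : Q.Cvx) {τ : Q.ι} (hτ : τ ∈ γ.G)
    (hd : Q.dim τ = 2) : ∃ x : Fin 3 → E3, AffineIndependent ℝ x ∧
      Q.cell τ = convexHull ℝ (range x) ∧
      ∀ j, Q.cell j ⊆ Q.cell τ → ∃ J : Set (Fin 3), Q.cell j = convexHull ℝ (x '' J) := by
  obtain ⟨t, h1, h2, h3⟩ := γ.simplex τ hτ
  have hne : t.Nonempty := by
    have := Q.cell_nonempty τ
    rw [h2, convexHull_nonempty_iff] at this
    exact this
  obtain ⟨n, hn⟩ := Nat.exists_eq_succ_of_ne_zero (Finset.card_ne_zero.2 hne)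
  have h4 := h1.finrank_vectorSpan (n := n) (by rw [Fintype.card_coe, hn])
  have h5 := (hQ τ).2.2
  rw [hd, h2, ← direction_affineSpan, affineSpan_convexHull, direction_affineSpan] at h5
  rw [Subtype.range_coe_subtype, Finset.setOfPred_mem, ← h5] at h4
  have h6 : t.card = 3 := by omega
  let e := (t.equivFinOfCardEq h6).symm
  have hr : range (fun i => (e i : E3)) = t := by
    ext z
    exact ⟨fun ⟨i, hi⟩ => hi ▸ (e i).2, fun hz => ⟨e.symm ⟨z, hz⟩, by simp⟩⟩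
  refine ⟨fun i => e i, h1.comp_embedding e.toEmbedding, by rw [hr, h2], fun j hj => ?_⟩
  obtain ⟨t', h7, h8⟩ := h3 j hj
  refine ⟨(fun i => (e i : E3)) ⁻¹' t', ?_⟩
  rw [h8, image_preimage_eq_of_subset (by rw [hr]; exact h7)]

/-- the combinatorial data of a good triangle -/
theorem tri (γ : Good Q f κ₀ β) (hQ : Q.Cvx) {τ : Q.ι} (hτ : τ ∈ γ.G) (hd : Q.dim τ = 2) :
    ∃ (v e : Fin 3 → Q.ι) (y : Fin 3 → E3), AffineIndependent ℝ y ∧
      γ.A τ '' Q.cell τ = convexHull ℝ (range y) ∧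
      (∀ k, v k ∈ γ.G ∧ e k ∈ γ.G ∧ Q.dim (v k) = 0 ∧ Q.dim (e k) = 1 ∧
        γ.A (v k) '' Q.cell (v k) = {y k} ∧
        γ.A (e k) '' Q.cell (e k) = segment ℝ (y (k + 1)) (y (k + 2)) ∧
        Q.cell (v (k + 1)) ⊆ Q.cell (e k) ∧ Q.cell (v (k + 2)) ⊆ Q.cell (e k)) ∧
      Q.bd τ = ⋃ k, Q.cell (e k) ∧ γ.A τ '' Q.bd τ ⊆ ⋃ k, γ.A (e k) '' Q.cell (e k) ∧
      (∀ p ∈ convexHull ℝ (range y), ∀ q ∈ convexHull ℝ (range y), dist p q ≤ β) ∧
      ∀ k ∈ γ.G, Q.dim k = 2 → k ≠ τ → ∃ J : Set (Fin 3), J ≠ univ ∧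
        γ.A k '' Q.cell k ∩ convexHull ℝ (range y) = convexHull ℝ (y '' J) := by
  obtain ⟨x, hx, hc, hf⟩ := exists_param γ hQ hτ hd
  choose m hm using exists_seg hQ hx hc hf
  obtain ⟨l, hl⟩ := exists_coord hx
  have hxm : ∀ i, x i ∈ Q.cell τ := fun i => hc ▸ subset_convexHull ℝ _ ⟨i, rfl⟩
  have hs : ∀ a b, Q.cell (m a b) ⊆ Q.cell τ := fun a b =>
    hm a b ▸ (hQ τ).1.segment_subset (hxm a) (hxm b)
  have hv : ∀ a, Q.cell (m a a) = {x a} := fun a => by rw [hm, segment_same]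
  have hv0 : ∀ a, Q.dim (m a a) = 0 := fun a => by
    rw [(hQ _).2.2, hv, vectorSpan_singleton, finrank_bot]
  have hA : ∀ a b, γ.A (m a b) '' Q.cell (m a b) = segment ℝ (γ.A τ (x a)) (γ.A τ (x b)) :=
    fun a b => by rw [(γ.face τ hτ _ (hs a b)).2.2.2.image_eq, hm, image_segment]
  have hne : ∀ k : Fin 3, m (k + 1) (k + 2) ≠ τ := fun k h => by
    have h1 : x k ∈ convexHull ℝ {x (k + 1), x (k + 2)} := by
      rw [convexHull_pair, ← hm, h]
      exact hxm k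
    have h2 := hull_le (l k) (c := 0) (by
      rintro _ (rfl | rfl)
      · rw [hl, if_neg (by clear * -; revert k; decide)]
      · rw [hl, if_neg (by clear * -; revert k; decide)]) _ h1
    rw [hl, if_pos rfl] at h2
    linarith
  have hl1 : ∀ a b, Q.cell (m a a) ⊆ Q.cell (m a b) := fun a b => by
    rw [hv, hm]
    exact singleton_subset_iff.2 (left_mem_segment _ _ _)
  have hl2 : ∀ a b, Q.cell (m b b) ⊆ Q.cell (m a b) := fun a b => by
    rw [hv, hm]
    exact singleton_subset_iff.2 (right_mem_segment _ _ _)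
  have hd1 : ∀ k : Fin 3, Q.dim (m (k + 1) (k + 2)) = 1 := fun k => by
    have h1 := Q.dim_lt (Q.subset_bd_of_ne (hs (k + 1) (k + 2)) (hne k))
    have h2 := Q.dim_lt (Q.subset_bd_of_ne (hl1 (k + 1) (k + 2)) fun h => by
      have h3 := hl2 (k + 1) (k + 2)
      rw [← h, hv, hv, singleton_subset_singleton] at h3
      exact absurd (hx.injective h3) (by clear * -; revert k; decide))
    omega
  have hbd : Q.bd τ = ⋃ k, Q.cell (m (k + 1) (k + 2)) := by
    refine Subset.antisymm (fun p hp => ?_)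
      (iUnion_subset fun k => Q.subset_bd_of_ne (hs _ _) (hne k))
    obtain ⟨j, h1, h2, -⟩ := Q.exists_face_bd hp
    obtain ⟨J, hJ⟩ := hf j (h2.trans (Q.bd_subset τ))
    obtain ⟨k, hk⟩ : ∃ k, k ∉ J := by
      by_contra hn
      push Not at hn
      rw [eq_univ_of_forall hn, image_univ, ← hc] at hJ
      exact Q.not_cell_subset_bd τ (hJ ▸ h2)
    refine mem_iUnion.2 ⟨k, ?_⟩
    rw [hm, ← convexHull_pair, ← image_pair]
    refine convexHull_mono (image_mono fun i hi => ?_) (hJ ▸ h1.1)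
    have h3 : i ≠ k := fun h => hk (h ▸ hi)
    simp only [mem_insert_iff, mem_singleton_iff]
    clear * - h3
    revert i k
    decide
  have himg : ∀ J : Set (Fin 3), γ.A τ '' convexHull ℝ (x '' J) =
      convexHull ℝ ((fun i => γ.A τ (x i)) '' J) := fun J => by
    rw [AffineMap.image_convexHull, image_image]
  have hall : γ.A τ '' Q.cell τ = convexHull ℝ (range fun i => γ.A τ (x i)) := by
    rw [hc, ← image_univ, himg, image_univ]
  have hfx : ∀ a, f (x a) = γ.A τ (x a) := fun a => by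
    have h1 := γ.face τ hτ _ (hs a a)
    have h2 : x a ∈ Q.cell (m a a) := by rw [hv]; rfl
    exact (γ.vert _ h1.1 (hv0 a) h2).symm.trans (h1.2.2.2 h2)
  have hw : ∀ k : Fin 3, dist (γ.A τ (x (k + 2))) (γ.A τ (x (k + 1))) ≤ β := fun k => by
    have h1 := (γ.face τ hτ _ (hs (k + 1) (k + 1))).1
    have h2 := (γ.wire _ h1 _ _ _ (hd1 k) (hv _) (hm _ _)).2.1
    rw [hfx, hfx, ← dist_eq_norm] at h2
    exact h2.trans (γ.pos _ h1).2.2
  have hβ : 0 ≤ β := dist_nonneg.trans (hw 0)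
  refine ⟨fun k => m k k, fun k => m (k + 1) (k + 2), fun i => γ.A τ (x i),
    indep_map hx _ (hc ▸ γ.inj τ hτ), hall, fun k => ⟨(γ.face τ hτ _ (hs _ _)).1,
      (γ.face τ hτ _ (hs _ _)).1, hv0 k, hd1 k, by rw [hA, segment_same], hA _ _, hl1 _ _,
      hl2 _ _⟩, hbd, ?_, ?_, ?_⟩
  · rw [hbd, image_iUnion]
    exact iUnion_mono fun k => (γ.face τ hτ _ (hs _ _)).2.2.2.image_eq.ge
  · intro p hp q hq
    refine (dist_le_diam_of_mem (isBounded_convexHull.2 (finite_range _).isBounded) hp hq).trans ?_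
    rw [convexHull_diam]
    refine diam_le_of_forall_dist_le hβ ?_
    rintro _ ⟨a, rfl⟩ _ ⟨b, rfl⟩
    obtain h | ⟨k, rfl, rfl⟩ | ⟨k, rfl, rfl⟩ : a = b ∨ (∃ k, a = k + 2 ∧ b = k + 1) ∨
        ∃ k, a = k + 1 ∧ b = k + 2 := by
      clear * -
      revert a b
      decide
    · rw [h, dist_self]
      exact hβ
    · exact hw k
    · rw [dist_comm]
      exact hw k
  · intro k hk hdk hkτ
    have h1 : Q.cell τ ∩ Q.cell k = convexHull ℝ (x '' {i | x i ∈ Q.cell k}) := by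
      refine Subset.antisymm (fun p hp => ?_) (convexHull_min ?_ ((hQ τ).1.inter (hQ k).1))
      · obtain ⟨j, a1, a2, a3⟩ := Q.exists_common_face hp.1 hp.2
        obtain ⟨J, hJ⟩ := hf j a2
        have a4 : p ∈ convexHull ℝ (x '' J) := hJ ▸ a1.1
        have a5 : J ⊆ {i | x i ∈ Q.cell k} := fun i hi =>
          a3 (hJ ▸ subset_convexHull ℝ _ ⟨i, hi, rfl⟩)
        exact convexHull_mono (image_mono a5) a4
      · rintro _ ⟨i, hi, rfl⟩
        exact ⟨hxm i, hi⟩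
    refine ⟨{i | x i ∈ Q.cell k}, fun h => ?_, ?_⟩
    · rw [h, image_univ, ← hc, inter_eq_left] at h1
      exact hkτ (Q.eq_of_subset_of_dim_le h1 (by omega)).symm
    · rw [← himg, ← h1, ← hall, inter_comm]
      refine Subset.antisymm (γ.inter τ hτ k hk) ?_
      rintro _ ⟨p, hp, rfl⟩
      obtain ⟨j, a1, a2, a3⟩ := Q.exists_common_face hp.1 hp.2
      exact ⟨⟨p, hp.1, rfl⟩, p, hp.2,
        ((γ.face k hk j a3).2.2.2 a1.1).symm.trans ((γ.face τ hτ j a2).2.2.2 a1.1)⟩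

/-- the state after some triangles are flattened -/
structure Inv (γ : Good Q f κ₀ β) (R : Q.ι → Set E3) (T : Finset Q.ι) (R' : Q.ι → Set E3) :
    Prop where
  real : Realiz Q 2 R'
  low : ∀ j, Q.dim j ≤ 1 → R' j = R j
  flat : ∀ τ ∈ T, R' τ = γ.A τ '' Q.cell τ
  meet : ∀ φ, Q.dim φ = 2 → ∀ k ∈ γ.G, Q.dim k = 2 → (R' φ ∩ γ.A k '' Q.cell k).Nonempty →
    (R φ ∩ γ.A k '' Q.cell k).Nonempty
  near : ∀ φ, Q.dim φ ≤ 2 → R' φ ⊆ thickening (2 * β) (R φ)
  same : ∀ φ, Q.dim φ = 2 → (∀ k ∈ γ.G, Disjoint (R φ) (γ.A k '' Q.cell k)) → R' φ = R φ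

theorem step (hF : FLAT1) (γ : Good Q f κ₀ β) {R : Q.ι → Set E3} (hβ : 0 < β)
    (ho : IsOpen Q.carrier) (hQ : Q.Cvx) (hR : Realiz Q 2 R)
    (h1 : ∀ i ∈ γ.G, Q.dim i ≤ 1 → R i = γ.A i '' Q.cell i)
    (h2 : ∀ i ∈ γ.G, ∀ e, Q.dim e = 1 → R e ∩ γ.A i '' Q.cell i ⊆ γ.A i '' (Q.cell e ∩ Q.cell i))
    (h3 : ∀ i ∈ γ.G, {j | Q.dim j ≤ 2 ∧
      (R j ∩ thickening (10 * β) (γ.A i '' Q.cell i)).Nonempty}.Finite)
    [DecidableEq Q.ι] {T : Finset Q.ι} (hT : ∀ k ∈ T, k ∈ γ.G ∧ Q.dim k = 2) {R' : Q.ι → Set E3}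
    (I : Inv γ R T R') {τ : Q.ι} (hτ : τ ∈ γ.G) (hd : Q.dim τ = 2) :
    ∃ R'', Inv γ R (insert τ T) R'' := by
  obtain ⟨v, e, y, hy, hΔ, hve, hbd, hAb, hdiam, hJ⟩ := tri γ hQ hτ hd
  have he : ∀ k, R (e k) = γ.A (e k) '' Q.cell (e k) := fun k =>
    h1 _ (hve k).2.1 (hve k).2.2.2.1.le
  have he' : ∀ k, R' (e k) = R (e k) := fun k => I.low _ (hve k).2.2.2.1.le
  have hes : ∀ k, Q.cell (e k) ⊆ Q.cell τ := fun k =>
    (subset_iUnion (fun k => Q.cell (e k)) k).trans (hbd.ge.trans (Q.bd_subset τ))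
  have hb : ∀ j, j ≠ τ → Q.dim j ≤ 2 → γ.A τ '' (Q.cell j ∩ Q.cell τ) ⊆ ⋃ k, R' (e k) := by
    intro j a1 a2
    simp only [he', he]
    refine (image_mono ?_).trans hAb
    rw [inter_comm]
    exact Q.inter_subset_bd a1.symm (by omega)
  have hb' : ∀ k ∈ γ.G, Q.dim k = 2 → k ≠ τ →
      γ.A k '' Q.cell k ∩ convexHull ℝ (range y) ⊆ ⋃ k, R' (e k) := by
    intro k a1 a2 a3
    rw [← hΔ, inter_comm]
    exact (γ.inter τ hτ k a1).trans (inter_comm _ _ ▸ hb k a3 a2.le)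
  have hRτ : (⋃ k, R' (e k)) ⊆ R τ := iUnion_subset fun k => he' k ▸ hR.mono hd.le (hes k)
  have hy1 : y 1 ∈ R τ := hRτ (mem_iUnion.2 ⟨0, by
    rw [he', he, (hve 0).2.2.2.2.2.1]
    exact left_mem_segment _ _ _⟩)
  have hy1' : y 1 ∈ convexHull ℝ (range y) := subset_convexHull ℝ _ ⟨1, rfl⟩
  have hedge : ∀ j, Q.dim j = 1 → R j ∩ convexHull ℝ (range y) ⊆ ⋃ k, R' (e k) := fun j hj => by
    rw [← hΔ]
    exact (h2 τ hτ j hj).trans (hb j (fun h => by rw [h] at hj; omega) (by omega))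
  obtain ⟨R'', a1, a2, a3, a4⟩ := hF Q R' τ v e y (U := thickening β (convexHull ℝ (range y)))
    ((γ.G.filter fun k => Q.dim k = 2).erase τ) (fun k => γ.A k '' Q.cell k) ho hQ I.real hd hy
    (fun k => ⟨(hve k).2.2.1, (hve k).2.2.2.1,
      by rw [I.low _ ((hve k).2.2.1.trans_le zero_le_one),
        h1 _ (hve k).1 ((hve k).2.2.1.trans_le zero_le_one), (hve k).2.2.2.2.1],
      by rw [he', he, (hve k).2.2.2.2.2.1], (hve k).2.2.2.2.2.2⟩) hbd
    (fun j hj => by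
      rw [I.low j hj]
      rcases Nat.le_one_iff_eq_zero_or_eq_one.1 hj with h | h
      · obtain ⟨c, c1, c2⟩ := exists_edge ho h
        exact (inter_subset_inter_left _ (hR.mono (by omega) c2)).trans (hedge c c1)
      · exact hedge j h)
    isOpen_thickening (self_subset_thickening hβ _)
    ((h3 τ hτ).subset fun i hi => by
      obtain ⟨hi, p, p1, p2⟩ := hi
      obtain ⟨z, z1, z2⟩ := mem_thickening_iff.1 (I.near i hi p1)
      obtain ⟨q, q1, q2⟩ := mem_thickening_iff.1 p2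
      refine ⟨hi, z, z1, mem_thickening_iff.2 ⟨q, hΔ ▸ q1, ?_⟩⟩
      linarith [dist_triangle_left z q p])
    (fun k hk => by
      obtain ⟨b1, b2⟩ := Finset.mem_erase.1 hk
      obtain ⟨b2, b3⟩ := Finset.mem_filter.1 b2
      exact ⟨((Q.isCompact_cell k).image (γ.A k).continuous_of_finiteDimensional).isClosed,
        hJ k b2 b3 b1⟩)
  refine ⟨R'', a1, fun j hj => (a2 j hj).trans (I.low j hj), ?_, ?_, ?_, ?_⟩
  · intro k hk
    by_cases hkτ : k = τ
    · rw [hkτ, a3, hΔ]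
    · have b1 := (Finset.mem_insert.1 hk).resolve_left hkτ
      have b2 := I.flat k b1
      rw [(a4 k (hT k b1).2 hkτ).2.2.1 (b2 ▸ ((hQ k).1.affine_image _))
        (b2 ▸ hb' k (hT k b1).1 (hT k b1).2 hkτ), b2]
  · intro φ hφ k hk hdk hne
    by_cases hφτ : φ = τ
    · rw [hφτ, a3] at hne
      rw [hφτ]
      by_cases hkτ : k = τ
      · exact ⟨y 1, hy1, by rw [hkτ, hΔ]; exact hy1'⟩
      · obtain ⟨p, p1, p2⟩ := hne
        exact ⟨p, hRτ (hb' k hk hdk hkτ ⟨p2, p1⟩), p2⟩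
    · refine I.meet φ hφ k hk hdk ?_
      by_cases hkτ : k = τ
      · rw [hkτ, hΔ] at hne ⊢
        by_contra hn
        rw [(a4 φ hφ hφτ).2.1 (disjoint_iff_inter_eq_empty.2 (not_nonempty_iff_eq_empty.1 hn))]
          at hne
        exact hn hne
      · exact (a4 φ hφ hφτ).2.2.2 k (Finset.mem_erase.2 ⟨hkτ, Finset.mem_filter.2 ⟨hk, hdk⟩⟩) hne
  · intro φ hφ
    rcases Nat.le_succ_iff.1 hφ with h | h
    · rw [a2 φ h]
      exact I.near φ hφ
    by_cases hφτ : φ = τ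
    · rw [hφτ, a3]
      exact fun p hp => mem_thickening_iff.2 ⟨y 1, hy1, by linarith [hdiam p hp _ hy1']⟩
    by_cases hn : Disjoint (R' φ) (convexHull ℝ (range y))
    · rw [(a4 φ h hφτ).2.1 hn]
      exact I.near φ hφ
    · obtain ⟨z, z1, z2⟩ := I.meet φ h τ hτ hd (hΔ ▸ not_disjoint_iff_nonempty_inter.1 hn)
      refine (a4 φ h hφτ).1.trans (union_subset (I.near φ hφ) fun p hp => ?_)
      obtain ⟨q, q1, q2⟩ := mem_thickening_iff.1 hp
      refine mem_thickening_iff.2 ⟨z, z1, ?_⟩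
      linarith [dist_triangle p q z, hdiam q q1 z (hΔ ▸ z2)]
  · intro φ hφ hdis
    have b1 := hdis τ hτ
    rw [hΔ] at b1
    have hφτ : φ ≠ τ := fun h => Set.disjoint_left.1 b1 (h ▸ hy1) hy1'
    have b2 := I.same φ hφ hdis
    rw [(a4 φ hφ hφτ).2.1 (b2 ▸ b1), b2]

end FlatInd

theorem flat_of (hF : FLAT1) : FLAT := by
  classical
  intro Q f κ₀ β γ R hβ ho hQ hR h1 h2 h3
  have main : ∀ T : Finset Q.ι, (∀ k ∈ T, k ∈ γ.G ∧ Q.dim k = 2) →
      ∃ R', FlatInd.Inv γ R T R' := by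
    intro T
    induction T using Finset.induction_on with
    | empty =>
      exact fun _ => ⟨R, hR, fun _ _ => rfl, by simp, fun _ _ _ _ _ h => h,
        fun _ _ => self_subset_thickening (by linarith) _, fun _ _ _ => rfl⟩
    | insert τ T _ ih =>
      intro hT
      have hT' : ∀ k ∈ T, k ∈ γ.G ∧ Q.dim k = 2 := fun k hk => hT k (Finset.mem_insert_of_mem hk)
      obtain ⟨R', I⟩ := ih hT'
      obtain ⟨b1, b2⟩ := hT τ (Finset.mem_insert_self τ T)
      exact FlatInd.step hF γ hβ ho hQ hR h1 h2 h3 hT' I b1 b2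
  obtain ⟨R', I⟩ := main (γ.G.filter fun k => Q.dim k = 2) fun k hk => Finset.mem_filter.1 hk
  refine ⟨R', I.real, I.low, fun i hi hd => ?_, fun i hd => ⟨?_, fun hdis => ?_⟩⟩
  · rcases Nat.le_succ_iff.1 hd with h | h
    · rw [I.low i h, h1 i hi h]
    · exact I.flat i (Finset.mem_filter.2 ⟨hi, h⟩)
  · exact (I.near i hd).trans (thickening_mono (by linarith) _)
  · rcases Nat.le_succ_iff.1 hd with h | h
    · exact I.low i h
    · refine I.same i h fun k hk => hdis.mono_right ?_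
      exact (subset_iUnion₂ (s := fun j (_ : j ∈ γ.G) => γ.A j '' Q.cell j) k hk).trans
        (self_subset_thickening (by linarith) _)

end P073
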