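import Vale.Agent.P073Z.FLAT.Sk
import Vale.Agent.P073Z.APX2

/-!
# Flattening of a triangle: reduction to the statement without the complex
-/

open Set Metric Topology Filter

namespace P073

namespace FlRed

/-- the faces of an edge with two given vertices -/
theorem edge {K : RCx E3} (hK : K.Cvx) {e a b : K.ι} (he : K.dim e = 1) (ha : K.dim a = 0)
    (hb : K.dim b = 0) (hab : a ≠ b) (h1 : K.cell a ⊆ K.cell e) (h2 : K.cell b ⊆ K.cell e) :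
    (∀ m, K.cell m ⊆ K.cell e → m = e ∨ m = a ∨ m = b) ∧
      ∀ C : Set E3, Convex ℝ C → K.cell a ⊆ C → K.cell b ⊆ C → K.cell e ⊆ C := by
  obtain ⟨p, q, -, -, -, hs, hbd, -⟩ := hK.exists_segment he
  obtain ⟨x, hx⟩ := K.exists_vertex ha
  obtain ⟨z, hz⟩ := K.exists_vertex hb
  have hxz : x ≠ z := fun h => hab (K.cell_injective (by rw [hx, hz, h]))
  have k1 : x ∈ ({p, q} : Set E3) := by
    rw [← hbd, ← singleton_subset_iff, ← hx]
    exact K.subset_bd_of_dim_lt h1 (by omega)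
  have k2 : z ∈ ({p, q} : Set E3) := by
    rw [← hbd, ← singleton_subset_iff, ← hz]
    exact K.subset_bd_of_dim_lt h2 (by omega)
  have k3 : ∀ w ∈ ({p, q} : Set E3), w = x ∨ w = z := by
    intro w hw
    rcases k1 with rfl | rfl <;> rcases k2 with rfl | rfl
    · exact absurd rfl hxz
    · exact hw
    · exact Or.symm hw
    · exact absurd rfl hxz
  constructor
  · intro m hm
    rcases K.eq_or_subset_bd hm with h | h
    · exact Or.inl h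
    · have h0 : K.dim m = 0 := by have := K.dim_lt h; omega
      obtain ⟨w, hw⟩ := K.exists_vertex h0
      rw [hw, hbd, singleton_subset_iff] at h
      refine Or.inr ((k3 w h).imp (fun h3 => K.cell_injective ?_) fun h3 => K.cell_injective ?_)
      · rw [hw, hx, h3]
      · rw [hw, hz, h3]
  · intro C hC h3 h4
    rw [hx, singleton_subset_iff] at h3
    rw [hz, singleton_subset_iff] at h4
    have k4 : ∀ w ∈ ({p, q} : Set E3), w ∈ C := fun w hw => by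
      rcases k3 w hw with rfl | rfl
      exacts [h3, h4]
    rw [hs]
    exact hC.segment_subset (k4 p (Or.inl rfl)) (k4 q (Or.inr rfl))

/-- the data of the statement -/
structure Dat (Q : RCx E3) (R : Q.ι → Set E3) (τ : Q.ι) (v e : Fin 3 → Q.ι) (y : Fin 3 → E3) :
    Prop where
  cvx : Q.Cvx
  real : Realiz Q 2 R
  dim : Q.dim τ = 2
  ind : AffineIndependent ℝ y
  ve : ∀ k, Q.dim (v k) = 0 ∧ Q.dim (e k) = 1 ∧ R (v k) = {y k} ∧
    R (e k) = segment ℝ (y (k + 1)) (y (k + 2)) ∧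
    Q.cell (v (k + 1)) ⊆ Q.cell (e k) ∧ Q.cell (v (k + 2)) ⊆ Q.cell (e k)
  bd : Q.bd τ = ⋃ k, Q.cell (e k)
  wire : ∀ j, Q.dim j ≤ 1 → R j ∩ convexHull ℝ (range y) ⊆ ⋃ k, R (e k)

namespace Dat

variable {Q : RCx E3} {R : Q.ι → Set E3} {τ : Q.ι} {v e : Fin 3 → Q.ι} {y : Fin 3 → E3}
  (h : Dat Q R τ v e y)
include h

theorem sides_eq : sides y = ⋃ k, R (e k) := iUnion_congr fun k => (h.ve k).2.2.2.1.symm

theorem sub_sides (k : Fin 3) : R (e k) ⊆ sides y := by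
  rw [h.sides_eq]
  exact subset_iUnion (fun k => R (e k)) k

theorem de (k : Fin 3) : Q.dim (e k) ≤ 2 := by rw [(h.ve k).2.1]; omega

theorem rbd_eq : Q.rbd R τ = sides y := by
  apply Subset.antisymm
  · intro z hz
    obtain ⟨j, hj, hz⟩ := Q.mem_rbd.1 hz
    obtain ⟨x, hx⟩ := Q.ocell_nonempty j
    have h1 := hj hx.1
    rw [h.bd] at h1
    obtain ⟨k, hk⟩ := mem_iUnion.1 h1
    exact h.sub_sides k (h.real.mono (h.de k) (Q.cell_subset_of_mem hx hk) hz)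
  · rw [h.sides_eq]
    refine iUnion_subset fun k => Q.subset_rbd R ?_
    rw [h.bd]
    exact subset_iUnion (fun k => Q.cell (e k)) k

theorem edge' (k : Fin 3) :
    (∀ m, Q.cell m ⊆ Q.cell (e k) → m = e k ∨ m = v (k + 1) ∨ m = v (k + 2)) ∧
      ∀ C : Set E3, Convex ℝ C → Q.cell (v (k + 1)) ⊆ C → Q.cell (v (k + 2)) ⊆ C →
        Q.cell (e k) ⊆ C := by
  refine edge h.cvx (h.ve k).2.1 (h.ve _).1 (h.ve _).1 (fun h1 => ?_) (h.ve k).2.2.2.2.1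
    (h.ve k).2.2.2.2.2
  have h2 := (h.ve (k + 1)).2.2.1
  rw [h1, (h.ve (k + 2)).2.2.1] at h2
  have h3 := h.ind.injective (singleton_injective h2)
  revert h3
  have : ∀ k : Fin 3, ¬ k + 2 = k + 1 := by decide
  exact this k

theorem wire' {j : Q.ι} (hj : Q.dim j ≤ 1) (hne : ∀ k, j ≠ e k) :
    R j ∩ convexHull ℝ (range y) ⊆ range y := by
  intro z hz
  obtain ⟨k, hk⟩ := mem_iUnion.1 (h.wire j hj hz)
  obtain ⟨m, h1, h2, h3⟩ := h.real.exists_common_face (by omega) (h.de k) hz.1 hk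
  rcases (h.edge' k).1 m h2 with rfl | rfl | rfl
  · exact absurd (Q.eq_of_subset_of_dim_le h1 (by rw [(h.ve k).2.1]; exact hj)).symm (hne k)
  · exact ⟨k + 1, ((h.ve _).2.2.1 ▸ h3.1 : z ∈ ({y (k + 1)} : Set E3)).symm⟩
  · exact ⟨k + 2, ((h.ve _).2.2.1 ▸ h3.1 : z ∈ ({y (k + 2)} : Set E3)).symm⟩

theorem ne_univ {φ : Q.ι} (hφ : Q.dim φ = 2) (hne : φ ≠ τ) :
    {k | Q.cell (v k) ⊆ Q.cell φ} ≠ univ := by
  intro hJ
  have h1 : ∀ k, Q.cell (v k) ⊆ Q.cell φ := fun k => eq_univ_iff_forall.1 hJ k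
  refine Apx2.bd_not_subset h.cvx h.dim hφ hne.symm ?_
  rw [h.bd]
  exact iUnion_subset fun k => (h.edge' k).2 _ (h.cvx φ).1 (h1 _) (h1 _)

theorem inter_sides {φ : Q.ι} (hφ : Q.dim φ = 2) (hne : φ ≠ τ) :
    R φ ∩ sides y = convexHull ℝ (y '' {k | Q.cell (v k) ⊆ Q.cell φ}) := by
  apply Subset.antisymm
  · rintro z ⟨hz, hs⟩
    rw [h.sides_eq] at hs
    obtain ⟨k, hk⟩ := mem_iUnion.1 hs
    obtain ⟨m, h1, h2, h3⟩ := h.real.exists_common_face hφ.le (h.de k) hz hk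
    rcases (h.edge' k).1 m h2 with rfl | rfl | rfl
    · rw [(h.ve k).2.2.2.1] at hk
      exact segment_subset_convexHull (mem_image_of_mem y ((h.ve k).2.2.2.2.1.trans h1))
        (mem_image_of_mem y ((h.ve k).2.2.2.2.2.trans h1)) hk
    · exact subset_convexHull ℝ _
        ⟨k + 1, h1, ((h.ve _).2.2.1 ▸ h3.1 : z ∈ ({y (k + 1)} : Set E3)).symm⟩
    · exact subset_convexHull ℝ _
        ⟨k + 2, h1, ((h.ve _).2.2.1 ▸ h3.1 : z ∈ ({y (k + 2)} : Set E3)).symm⟩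
  · by_cases hs : {k | Q.cell (v k) ⊆ Q.cell φ}.Subsingleton
    · rw [(hs.image y).convex.convexHull_eq]
      rintro _ ⟨a, ha, rfl⟩
      have h1 : y a ∈ R (v a) := by rw [(h.ve a).2.2.1]; rfl
      refine ⟨h.real.mono hφ.le ha h1, mem_iUnion.2 ⟨a + 2, ?_⟩⟩
      have h2 : ∀ a : Fin 3, a + 2 + 1 = a := by decide
      rw [h2]
      exact left_mem_segment _ _ _
    · obtain ⟨a, ha, b, hb, hab⟩ := not_subsingleton_iff.1 hs
      obtain ⟨k, hk⟩ := (ne_univ_iff_exists_notMem _).1 (h.ne_univ hφ hne)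
      have h1 : ∀ c k : Fin 3, c ≠ k → c = k + 1 ∨ c = k + 2 := by decide
      have h2 : ∀ c ∈ {k | Q.cell (v k) ⊆ Q.cell φ}, c = k + 1 ∨ c = k + 2 := fun c hc =>
        h1 c k fun h3 => hk (h3 ▸ hc)
      have h3 : Q.cell (v (k + 1)) ⊆ Q.cell φ ∧ Q.cell (v (k + 2)) ⊆ Q.cell φ := by
        rcases h2 a ha with rfl | rfl <;> rcases h2 b hb with rfl | rfl
        · exact absurd rfl hab
        · exact ⟨ha, hb⟩
        · exact ⟨hb, ha⟩
        · exact absurd rfl hab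
      refine Subset.trans (convexHull_min ?_ (convex_segment (y (k + 1)) (y (k + 2)))) ?_
      · rintro _ ⟨c, hc, rfl⟩
        rcases h2 c hc with rfl | rfl
        exacts [left_mem_segment _ _ _, right_mem_segment _ _ _]
      · rw [← (h.ve k).2.2.2.1]
        exact subset_inter (h.real.mono hφ.le ((h.edge' k).2 _ (h.cvx φ).1 h3.1 h3.2))
          (h.sub_sides k)

end Dat

end FlRed

theorem flat1_of (h : FLCORE) : FLAT1 := by
  classical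
  intro Q R τ v e y U κ t X _ hQ hR hτ hy hve hbd hw hU hTU hfin hX
  have hD : FlRed.Dat Q R τ v e y := ⟨hQ, hR, hτ, hy, hve, hbd, hw⟩
  have hs : {φ | Q.dim φ = 2 ∧ φ ≠ τ ∧ (R φ ∩ U).Nonempty}.Finite :=
    hfin.subset fun φ hφ => ⟨hφ.1.le, hφ.2.2⟩
  obtain ⟨s, hs'⟩ : ∃ s : Finset Q.ι, ∀ φ, φ ∈ s ↔ Q.dim φ = 2 ∧ φ ≠ τ ∧ (R φ ∩ U).Nonempty :=
    ⟨hs.toFinset, fun φ => hs.mem_toFinset⟩
  let P : Set Q.ι := {j | Q.dim j ≤ 1 ∧ (∀ k, j ≠ e k) ∧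
    ((R j ∩ U).Nonempty ∨ ∃ φ ∈ s, Q.cell j ⊆ Q.bd φ)}
  have hP : P.Finite := by
    refine (hfin.union (s.finite_toSet.biUnion fun φ _ => Q.finite_bd_faces φ)).subset ?_
    rintro j ⟨h1, -, h2 | ⟨φ, h2, h3⟩⟩
    · exact Or.inl ⟨by omega, h2⟩
    · exact Or.inr (mem_biUnion h2 h3)
  have hP2 : ∀ j, j ∈ P → Q.dim j ≤ 2 := fun j hj => hj.1.trans one_le_two
  have hYc : IsCompact (⋃ j ∈ P, R j) := hP.isCompact_biUnion fun j hj => hR.isCompact (hP2 j hj)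
  have hlow : ∀ j, Q.dim j ≤ 1 → ((R j ∩ U).Nonempty ∨ ∃ φ ∈ s, Q.cell j ⊆ Q.bd φ) →
      R j ⊆ sides y ∪ ⋃ j ∈ P, R j := fun j h1 h2 => by
    by_cases h3 : ∃ k, j = e k
    · obtain ⟨k, rfl⟩ := h3
      exact (hD.sub_sides k).trans subset_union_left
    · exact (subset_biUnion_of_mem (u := R) (show j ∈ P from ⟨h1, not_exists.1 h3, h2⟩)).trans
        subset_union_right
  have hB : ∀ φ ∈ s, Q.rbd R φ ⊆ sides y ∪ ⋃ j ∈ P, R j := fun φ hφ z hz => by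
    obtain ⟨j, hj, hz⟩ := Q.mem_rbd.1 hz
    have h1 := Q.dim_lt hj
    rw [((hs' φ).1 hφ).1] at h1
    exact hlow j (by omega) (Or.inr ⟨φ, hφ, hj⟩) hz
  obtain ⟨hT, D', hD', hDD⟩ := h y s R (Q.rbd R) (fun φ => {k | Q.cell (v k) ⊆ Q.cell φ})
    (Y := ⋃ j ∈ P, R j) (U := U) t X hy hYc ((hR.toRCx_sub hP2).locCone_of_isCompact hYc)
    (by
      rintro z ⟨hz, hz'⟩
      obtain ⟨j, hj, hz⟩ := mem_iUnion₂.1 hz
      exact hD.wire' hj.1 hj.2.1 ⟨hz, hz'⟩) hU hTU hX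
    (fun φ hφ => by
      obtain ⟨h1, h2, -⟩ := (hs' φ).1 hφ
      refine ⟨h1 ▸ hR.ball φ h1.le, hB φ hφ, ?_, hD.ne_univ h1 h2, hD.inter_sides h1 h2⟩
      have h3 : ∀ j, Q.dim j ≤ 1 → R φ ∩ R j ⊆ Q.rbd R φ := fun j hj =>
        hR.inter_subset_rbd h1.le (fun h4 => by rw [← h4] at hj; omega) (by omega)
      rintro z ⟨hz, hz' | hz'⟩
      · rw [hD.sides_eq] at hz'
        obtain ⟨k, hk⟩ := mem_iUnion.1 hz'
        exact h3 _ (hve k).2.1.le ⟨hz, hk⟩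
      · obtain ⟨j, hj, hz'⟩ := mem_iUnion₂.1 hz'
        exact h3 j hj.1 ⟨hz, hz'⟩)
    fun φ hφ φ' hφ' hne => (hR.inter_subset_rbd ((hs' φ).1 hφ).1.le hne
      (by rw [((hs' φ).1 hφ).1, ((hs' φ').1 hφ').1])).trans (hB φ hφ)
  obtain ⟨R', hτ', hs1, hs2⟩ : ∃ R' : Q.ι → Set E3, R' τ = convexHull ℝ (range y) ∧
      (∀ φ ∈ s, R' φ = D' φ) ∧ ∀ i, i ≠ τ → i ∉ s → R' i = R i :=
    ⟨fun i => if i = τ then convexHull ℝ (range y) else if i ∈ s then D' i else R i, if_pos rfl,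
      fun φ hφ => (if_neg ((hs' φ).1 hφ).2.1).trans (if_pos hφ),
      fun i h1 h2 => (if_neg h1).trans (if_neg h2)⟩
  have hl : ∀ j, Q.dim j ≤ 1 → R' j = R j := fun j hj =>
    hs2 j (fun h1 => by rw [h1] at hj; omega) fun h1 => by have := ((hs' j).1 h1).1; omega
  have hb : ∀ i, Q.dim i ≤ 2 → Q.rbd R' i = Q.rbd R i := fun i hi =>
    iUnion₂_congr fun j hj => hl j (by have := Q.dim_lt hj; omega)
  have hoth : ∀ j, Q.dim j ≤ 2 → j ≠ τ → j ∉ s → (R j ∩ U).Nonempty → Q.dim j ≤ 1 :=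
    fun j h1 h2 h3 h4 => by_contra fun h5 => h3 ((hs' j).2 ⟨by omega, h2, h4⟩)
  have d1 : ∀ j, Q.dim j ≤ 2 → j ≠ τ → Disjoint (R' τ \ Q.rbd R τ) (R' j \ Q.rbd R j) := by
    intro j hj hne
    rw [hτ', hD.rbd_eq, Set.disjoint_left]
    rintro z ⟨h1, h2⟩ ⟨h3, -⟩
    by_cases h4 : j ∈ s
    · rw [hs1 j h4] at h3
      exact h2 ((hD' j h4).2.2.1 ⟨h3, h1⟩)
    · rw [hs2 j hne h4] at h3
      rw [hD.sides_eq] at h2
      exact h2 (hw j (hoth j hj hne h4 ⟨z, h3, hTU h1⟩) ⟨h3, h1⟩)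
  have d2 : ∀ φ ∈ s, ∀ j, Q.dim j ≤ 2 → j ≠ τ → φ ≠ j →
      Disjoint (R' φ \ Q.rbd R φ) (R' j \ Q.rbd R j) := by
    intro φ hφ j hj hne hne'
    rw [hs1 φ hφ, Set.disjoint_left]
    rintro z ⟨h1, h2⟩ ⟨h3, h3'⟩
    by_cases h4 : j ∈ s
    · rw [hs1 j h4] at h3
      exact h2 ((hD' φ hφ).2.1 ⟨h1, hDD φ hφ j h4 hne' ⟨h1, h3⟩⟩)
    · rw [hs2 j hne h4] at h3
      rcases (hD' φ hφ).2.2.2.1 h1 with h5 | h5
      · exact hne' (hR.open_unique ((hs' φ).1 hφ).1.le hj ⟨h5, h2⟩ ⟨h3, h3'⟩)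
      · exact h2 ((hD' φ hφ).2.1
          ⟨h1, hlow j (hoth j hj hne h4 ⟨z, h3, h5⟩) (Or.inl ⟨z, h3, h5⟩) h3⟩)
  refine ⟨R', ⟨fun i hi => ?_, fun i j hi hj hne => ?_, fun z hz => ?_⟩, hl, hτ',
    fun φ hφ hne => ?_⟩
  · rw [hb i hi]
    by_cases h1 : i = τ
    · rw [h1, hτ, hτ', hD.rbd_eq]
      exact hT
    · by_cases h2 : i ∈ s
      · rw [((hs' i).1 h2).1, hs1 i h2]
        exact (hD' i h2).1
      · rw [hs2 i h1 h2]
        exact hR.ball i hi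
  · rw [hb i hi, hb j hj]
    by_cases h1 : i = τ
    · rw [h1]
      exact d1 j hj fun h2 => hne (h1.trans h2.symm)
    · by_cases h2 : j = τ
      · rw [h2]
        exact (d1 i hi h1).symm
      · by_cases h3 : i ∈ s
        · exact d2 i h3 j hj h2 hne
        · by_cases h4 : j ∈ s
          · exact (d2 j h4 i hi h1 hne.symm).symm
          · rw [hs2 i h1 h3, hs2 j h2 h4]
            exact hR.disj i j hi hj hne
  · obtain ⟨W, hW, hf⟩ : ∃ W ∈ 𝓝 z, {i | Q.dim i ≤ 2 ∧ (R i ∩ W).Nonempty}.Finite := by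
      by_cases h1 : z ∈ U
      · exact ⟨U, hU.mem_nhds h1, hfin⟩
      · obtain ⟨i, hi, hz⟩ := Q.mem_rskel.1 hz
        refine hR.lf z (Q.subset_rskel R hi ?_)
        by_cases h2 : i = τ
        · rw [h2, hτ'] at hz
          exact absurd (hTU hz) h1
        · by_cases h3 : i ∈ s
          · rw [hs1 i h3] at hz
            exact ((hD' i h3).2.2.2.1 hz).resolve_right h1
          · rwa [hs2 i h2 h3] at hz
    refine ⟨W, hW, ((hf.union s.finite_toSet).insert τ).subset fun i hi => ?_⟩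
    by_cases h2 : i = τ
    · exact Or.inl h2
    · by_cases h3 : i ∈ s
      · exact Or.inr (Or.inr h3)
      · exact Or.inr (Or.inl ⟨hi.1, hs2 i h2 h3 ▸ hi.2⟩)
  · by_cases h1 : φ ∈ s
    · rw [hs1 φ h1, ← hD.sides_eq]
      exact (hD' φ h1).2.2.2
    · rw [hs2 φ hne h1]
      exact ⟨subset_union_left, fun _ => rfl, fun _ _ => rfl, fun _ _ h2 => h2⟩

end P073
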