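import Vale.Agent.P073Z.FLAT.Sk
import Vale.Agent.P073Z.Lam

/-!
# Pieces of a disc cut off by curves, surgery in one face
-/

open Set Metric Topology Filter

namespace P073

namespace FlFace

variable {E : Type} [NormedAddCommGroup E] [NormedSpace ℝ E] {D B A A' Γ Δ Δ' J J' : Set E}

/-- the two kinds of pieces -/
def Kind (B A Δ J : Set E) : Prop := (IsCircle A ∧ J = A ∧ Disjoint Δ B) ∨
  ∃ p q, IsArc A p q ∧ A ∩ B = {p, q} ∧ IsArc (Δ ∩ B) p q ∧ J = A ∪ (Δ ∩ B)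

theorem Kind.sub (h : Kind B A Δ J) : A ⊆ J := by
  rcases h with ⟨-, rfl, -⟩ | ⟨p, q, -, -, -, rfl⟩
  · exact subset_rfl
  · exact subset_union_left

theorem Kind.conn (h : Kind B A Δ J) : IsConnected A := by
  rcases h with ⟨h, -⟩ | ⟨p, q, h, -⟩
  · exact A12.circle_isConnected h
  · exact h.isConnected

theorem Kind.pre (h : Kind B A Δ J) : IsPreconnected (Δ ∩ B) := by
  rcases h with ⟨-, -, h⟩ | ⟨p, q, -, -, h, -⟩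
  · rw [h.inter_eq]; exact isPreconnected_empty
  · exact h.isConnected.isPreconnected

theorem Kind.sdiff (h : Kind B A Δ J) : (Δ ∩ B) \ A = J \ A := by
  rcases h with ⟨-, rfl, h⟩ | ⟨p, q, -, -, -, rfl⟩
  · rw [h.inter_eq, empty_sdiff, sdiff_self]
  · rw [union_sdiff_left]

theorem Kind.repl (h : Kind B A Δ J) (hΔ : ConBall 2 Δ J) : (A = J ∧ Disjoint J B) ∨
    ∃ p q, IsArc A p q ∧ A ⊆ J ∧ A ∩ B = {p, q} ∧ J ⊆ A ∪ B := by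
  rcases h with ⟨-, h1, h2⟩ | ⟨p, q, h1, h2, -, h3⟩
  · exact Or.inl ⟨h1.symm, h2.mono_left hΔ.1⟩
  · exact Or.inr ⟨p, q, h1, h3 ▸ subset_union_left, h2,
      h3 ▸ union_subset_union_right _ inter_subset_right⟩

theorem Kind.subd (h : Kind B A Δ J) (hD : ConBall 2 D B) (hΔ : ConBall 2 Δ J) (s : Δ ⊆ D) :
    Subd D Δ A := by
  rcases h.repl hΔ with ⟨rfl, h1⟩ | ⟨p, q, h1, h2, h3, h4⟩
  · exact subd_circle mod_thm cid hD hΔ s h1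
  · exact subd_arc mod_thm arcs cid xc hD hΔ s h1 h2 h3 h4

/-- the rest of the disc is connected -/
theorem Kind.rest (h : Kind B A Δ J) (hD : ConBall 2 D B) (hΔ : ConBall 2 Δ J) (s : Δ ⊆ D) :
    IsPreconnected (D \ (Δ \ A)) := by
  obtain ⟨h1, h2, -⟩ := P073.repl ({()} : Finset Unit) (fun _ => Δ) (fun _ => J) (fun _ => A) hD
    (fun _ _ => ⟨hΔ, s, h.repl hΔ⟩) fun _ _ _ _ hne => absurd rfl hne
  simp only [Finset.mem_singleton, iUnion_const] at h1 h2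
  exact h1.subset_closure (sdiff_subset_sdiff_right sdiff_subset) h2

theorem Kind.into (h : Kind B A Δ J) (hD : ConBall 2 D B) (hΔ : ConBall 2 Δ J) (s : Δ ⊆ D)
    {T : Set E} (hT : IsPreconnected T) (hTD : T ⊆ D \ A) (hne : (T ∩ Δ).Nonempty) : T ⊆ Δ :=
  subset_of_clopen hΔ.isClosed (h.subd hD hΔ s).nhds hT hTD hne

theorem nest (hD : ConBall 2 D B) (h : Kind B A Δ J) (h' : Kind B A' Δ' J')
    (hΔ : ConBall 2 Δ J) (hΔ' : ConBall 2 Δ' J') (s : Δ ⊆ D) (s' : Δ' ⊆ D) (hd : Disjoint A A')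
    {q : E} (hq : q ∈ D) (h1 : q ∉ Δ) (h2 : q ∉ Δ') (hne : (A' ∩ Δ).Nonempty) : Δ' ⊆ Δ \ A := by
  have h3 : A' ⊆ Δ := h.into hD hΔ s h'.conn.isPreconnected
    (fun x hx => ⟨s' (hΔ'.1 (h'.sub hx)), fun h4 => disjoint_left.1 hd h4 hx⟩) hne
  intro x hx
  by_contra h4
  refine h2 (h'.into hD hΔ' s' (h.rest hD hΔ s) (fun y hy => ⟨hy.1, fun h5 => hy.2 ⟨h3 h5,
    fun h6 => disjoint_left.1 hd h6 h5⟩⟩) ⟨x, ⟨s' hx, h4⟩, hx⟩ ⟨hq, fun h5 => h1 h5.1⟩)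

theorem laminar (hD : ConBall 2 D B) (h : Kind B A Δ J) (h' : Kind B A' Δ' J')
    (hΔ : ConBall 2 Δ J) (hΔ' : ConBall 2 Δ' J') (s : Δ ⊆ D) (s' : Δ' ⊆ D) (hd : Disjoint A A')
    {q : E} (hq : q ∈ D) (h1 : q ∉ Δ) (h2 : q ∉ Δ') :
    Δ ⊆ Δ' \ A' ∨ Δ' ⊆ Δ \ A ∨ Disjoint Δ Δ' := by
  by_cases h3 : (A ∩ Δ').Nonempty
  · exact Or.inl (nest hD h' h hΔ' hΔ s' s hd.symm hq h2 h1 h3)
  by_cases h4 : (A' ∩ Δ).Nonempty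
  · exact Or.inr (Or.inl (nest hD h h' hΔ hΔ' s s' hd hq h1 h2 h4))
  refine Or.inr (Or.inr (not_not.1 fun h5 => h3 ?_))
  have h6 := h'.into hD hΔ' s' hΔ.isConnected.isPreconnected
    (fun x hx => ⟨s hx, fun h7 => h4 ⟨x, h7, hx⟩⟩) (not_disjoint_iff_nonempty_inter.1 h5)
  obtain ⟨x, hx⟩ := h.conn.nonempty
  exact ⟨x, hx, h6 (hΔ.1 (h.sub hx))⟩

theorem half {B₁ B₂ : Set E} {p q : E} (hD : ConBall 2 D B) (hA : IsArc A p q) (hAD : A ⊆ D)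
    (hAB : A ∩ B = {p, q}) (b₁ : IsArc B₁ p q) (b₂ : IsArc B₂ p q) (hu : B₁ ∪ B₂ = B)
    (hi : B₁ ∩ B₂ = {p, q}) (hΓ : Γ ⊆ B₂) (hd : Disjoint A Γ) :
    ∃ Δ J, ConBall 2 Δ J ∧ Δ ⊆ D ∧ Disjoint Δ Γ ∧ Kind B A Δ J := by
  obtain ⟨D₁, D₂, h1, -, h2, -, h3, -⟩ := xc hD hA hAD hAB b₁ b₂ hu hi
  refine ⟨D₁, _, h1, h2 ▸ subset_union_left, disjoint_left.2 fun x hx hx' => ?_,
    Or.inr ⟨p, q, hA, hAB, h3 ▸ b₁, by rw [h3]⟩⟩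
  have h4 : x ∈ B₁ := h3 ▸ ⟨hx, hu ▸ Or.inr (hΓ hx')⟩
  have h5 : x ∈ A ∩ B := hAB ▸ hi ▸ ⟨h4, hΓ hx'⟩
  exact disjoint_left.1 hd h5.1 hx'

theorem exists_piece (hD : ConBall 2 D B) (hAD : A ⊆ D) (hΓ : Γ ⊆ B) (hc : IsPreconnected Γ)
    (hd : Disjoint A Γ)
    (hk : (IsCircle A ∧ Disjoint A B) ∨ ∃ p q, IsArc A p q ∧ A ∩ B = {p, q}) :
    ∃ Δ J, ConBall 2 Δ J ∧ Δ ⊆ D ∧ Disjoint Δ Γ ∧ Kind B A Δ J := by
  rcases hk with ⟨h1, h2⟩ | ⟨p, q, h1, h2⟩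
  · obtain ⟨Δ, h3, h4, -, h5, -⟩ := cid hD h1 hAD
    have h6 : Disjoint Δ B := disjoint_left.2 fun x hx hx' => by
      by_cases h7 : x ∈ A
      · exact disjoint_left.1 h2 h7 hx'
      · exact disjoint_left.1 h5 ⟨hx, h7⟩ hx'
    exact ⟨Δ, A, h4, h3, h6.mono_right hΓ, Or.inl ⟨h1, rfl, h6⟩⟩
  · have hp : p ∈ A ∩ B := h2 ▸ mem_insert _ _
    have hq : q ∈ A ∩ B := h2 ▸ mem_insert_of_mem _ rfl
    obtain ⟨B₁, B₂, b₁, b₂, hu, hi⟩ := A12.circle_arcs hD.isCircleD hp.2 hq.2 h1.ne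
    rcases isPreconnected_iff_subset_of_disjoint_closed.1 hc B₁ B₂ b₁.isClosed b₂.isClosed
      (hu ▸ hΓ) (by
        rw [hi, ← h2]
        exact (hd.symm.mono_right inter_subset_left).inter_eq) with h3 | h3
    · exact half hD h1 hAD h2 b₂ b₁ (union_comm B₁ B₂ ▸ hu) (inter_comm B₁ B₂ ▸ hi) h3 hd
    · exact half hD h1 hAD h2 b₁ b₂ hu hi h3 hd

end FlFace

open FlFace

theorem flpc : FLPC := by
  intro E _ _ ι s D B A Γ hD h hd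
  have h1 : ∀ i, ∃ Δ J : Set E, i ∈ s →
      ConBall 2 Δ J ∧ Δ ⊆ D ∧ Disjoint Δ (Γ i) ∧ Kind B (A i) Δ J := fun i => by
    by_cases hi : i ∈ s
    · obtain ⟨h2, h3, h4, h5, h6⟩ := h i hi
      obtain ⟨Δ, J, h7⟩ := exists_piece hD h2 h3 h4 h5 h6
      exact ⟨Δ, J, fun _ => h7⟩
    · exact ⟨∅, ∅, fun h2 => absurd h2 hi⟩
  choose Δ J hΔ using h1
  refine ⟨Δ, J, hΔ, fun i hi j hj hij => ?_⟩
  obtain ⟨h2, q, q1, q2⟩ := hd i hi j hj hij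
  obtain ⟨a1, a2, a3, a4⟩ := hΔ i hi
  obtain ⟨b1, b2, b3, b4⟩ := hΔ j hj
  exact laminar hD a4 b4 a1 b1 a2 b2 h2 (hD.1 ((h i hi).2.1 q1)) (disjoint_right.1 a3 q1)
    (disjoint_right.1 b3 q2)

/-- the outermost members of a laminar family -/
theorem FlFace.exists_outer {E ι : Type} (s : Finset ι) (Δ A : ι → Set E)
    (h : ∀ i ∈ s, (A i).Nonempty ∧ A i ⊆ Δ i) (hl : ∀ i ∈ s, ∀ j ∈ s, i ≠ j →
      Δ i ⊆ Δ j \ A j ∨ Δ j ⊆ Δ i \ A i ∨ Disjoint (Δ i) (Δ j)) :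
    ∃ s' ⊆ s, (∀ i ∈ s', ∀ j ∈ s', i ≠ j → Disjoint (Δ i) (Δ j)) ∧
      ∀ i ∈ s, ∃ j ∈ s', Δ i ⊆ Δ j := by
  classical
  refine ⟨s.filter fun i => ∀ j ∈ s, ¬ Δ i ⊆ Δ j \ A j, Finset.filter_subset _ _,
    fun i hi j hj hij => ?_, fun i hi => ?_⟩
  · rw [Finset.mem_filter] at hi hj
    rcases hl i hi.1 j hj.1 hij with h1 | h1 | h1
    · exact absurd h1 (hi.2 j hj.1)
    · exact absurd h1 (hj.2 i hi.1)
    · exact h1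
  · obtain ⟨j, hj, h1⟩ := ((s.filter fun j => Δ i ⊆ Δ j).finite_toSet).exists_maximalFor Δ _
      ⟨i, Finset.mem_coe.2 (Finset.mem_filter.2 ⟨hi, subset_rfl⟩)⟩
    have hj' := Finset.mem_filter.1 (Finset.mem_coe.1 hj)
    refine ⟨j, Finset.mem_filter.2 ⟨hj'.1, fun k hk h2 => ?_⟩, hj'.2⟩
    have h3 : Δ j ⊆ Δ k := h2.trans sdiff_subset
    have h4 : Δ k ⊆ Δ j :=
      h1 (Finset.mem_coe.2 (Finset.mem_filter.2 ⟨hk, hj'.2.trans h3⟩)) h3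
    obtain ⟨⟨x, hx⟩, h5⟩ := h k hk
    exact (h2 (h4 (h5 hx))).2 hx

theorem flface : FLFACE := by
  intro E _ _ D B Γ G t 𝒞 C L hD hG hl hd hC hΓ hΓc hΓn hΓt hk
  have hc : ∀ c ∈ 𝒞, ∀ x ∈ c, x ∈ D ∧ G x = t := fun c hc x hx => by
    have h1 : x ∈ ⋃ c ∈ 𝒞, c := mem_biUnion (Finset.mem_coe.2 hc) hx
    rwa [← hl] at h1
  obtain ⟨Δ, J, h1, h2⟩ := flpc 𝒞 (fun c => c) (fun _ => Γ) hD
    (fun c h => ⟨fun x hx => (hc c h x hx).1, hΓ, hΓc,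
      disjoint_left.2 fun x hx hx' => (hΓt x hx').ne' (hc c h x hx).2,
      (hk c h).imp (fun h1 => ⟨h1.1, h1.2.1⟩) id⟩)
    fun c h c' h' hne => ⟨(hd c h c' h' hne).1, by rwa [inter_self]⟩
  have hK : ∀ c ∈ 𝒞, Kind B c (Δ c) (J c) := fun c h => (h1 c h).2.2.2
  have hs : ∀ c ∈ 𝒞, c ⊆ Δ c := fun c h => (hK c h).sub.trans (h1 c h).1.1
  obtain ⟨𝒪, o1, o2, o3⟩ := FlFace.exists_outer 𝒞 Δ (fun c => c)
    (fun c h => ⟨(hK c h).conn.nonempty, hs c h⟩) h2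
  obtain ⟨r1, r2, -, r3⟩ := repl 𝒪 Δ J (fun c => c) hD
    (fun c h => ⟨(h1 c (o1 h)).1, (h1 c (o1 h)).2.1, (hK c (o1 h)).repl (h1 c (o1 h)).1⟩) o2
  have hΓW : Γ ⊆ D \ ⋃ c ∈ 𝒪, Δ c := fun x hx => ⟨hD.1 (hΓ hx), fun h3 => by
    obtain ⟨c, h4, h5⟩ := mem_iUnion₂.1 h3
    exact disjoint_left.1 (h1 c (o1 h4)).2.2.1 h5 hx⟩
  have hW : ∀ x ∈ D \ ⋃ c ∈ 𝒪, Δ c, t < G x := fun x hx => by
    obtain ⟨z, hz⟩ := hΓn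
    refine r1.lt_of_ne (hG.mono sdiff_subset) (fun y hy h3 => ?_) ⟨z, hΓW hz, hΓt z hz⟩ hx
    have h4 : y ∈ ⋃ c ∈ 𝒞, c := hl ▸ ⟨hy.1, h3⟩
    obtain ⟨c, h5, h6⟩ := mem_iUnion₂.1 h4
    obtain ⟨c', h7, h8⟩ := o3 c h5
    exact hy.2 (mem_iUnion₂.2 ⟨c', h7, h8 (hs c h5 h6)⟩)
  have hR : ∀ x ∈ D \ ⋃ c ∈ 𝒪, (Δ c \ c), t ≤ G x := fun x hx =>
    ContinuousWithinAt.closure_le (r2 hx) continuousWithinAt_const
      ((hG x hx.1).mono sdiff_subset) fun y hy => (hW y hy).le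
  obtain ⟨Φ, f1, f2⟩ := r3 C L (fun c h => ⟨(hC c (o1 h)).1, (hC c (o1 h)).2.1, fun y hy =>
    ((hC c (o1 h)).2.2 y hy.1).2 (le_antisymm ((hC c (o1 h)).2.2 y hy.1).1 (hR y hy.2))⟩)
    fun c h c' h' hne => (hd c (o1 h) c' (o1 h') hne).2
  have hcR : ∀ c ∈ 𝒪, ∀ x ∈ c, Φ.toFun x = x := fun c h x hx =>
    f1 x ⟨(hc c (o1 h) x hx).1, fun h3 => by
      obtain ⟨c', h4, h5⟩ := mem_iUnion₂.1 h3
      by_cases h6 : c = c'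
      · exact h5.2 (h6 ▸ hx)
      · exact disjoint_left.1 (o2 c h c' h4 h6) (hs c (o1 h) hx) h5.1⟩
  refine ⟨𝒪, fun c => Δ c ∩ B, _, Φ, o1, fun y hy => ?_, fun h3 => ?_, fun x hx => ?_,
    fun c h => ⟨hcR c h, fun x hx => ⟨hx.2, disjoint_left.1 (h1 c (o1 h)).2.2.1 hx.1⟩,
      (hK c (o1 h)).pre, inter_subset_inter_left _ (hs c (o1 h)), ?_⟩,
    fun c h c' h' hne => (o2 c h c' h' hne).mono inter_subset_left inter_subset_left,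
    fun x hx h3 => f1 x ⟨hD.1 hx, fun h4 => ?_⟩⟩
  · rcases hy with hy | hy
    · exact Or.inl ⟨hy.1, hR y hy, f1 y hy⟩
    · obtain ⟨c, h3, h4⟩ := mem_iUnion₂.1 hy
      exact Or.inr ⟨c, h3, h4⟩
  · have h4 : 𝒪 = ∅ := Finset.subset_empty.1 (h3 ▸ o1)
    simp [h4]
  · exact f1 x ⟨(hΓW hx).1, fun h3 => (hΓW hx).2 (iUnion₂_mono (fun _ _ => sdiff_subset) h3)⟩
  · have h3 : Φ.toFun '' c = c := (image_congr (hcR c h)).trans (image_id' c)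
    rw [(hK c (o1 h)).sdiff, A12.img_sdiff Φ ((h1 c (o1 h)).1.1.trans (h1 c (o1 h)).2.1)
      ((hs c (o1 h)).trans (h1 c (o1 h)).2.1), (f2 c h).2, h3]
  · obtain ⟨c, h5, h6⟩ := mem_iUnion₂.1 h4
    exact h3 c h5 ⟨⟨h6.1, hx⟩, h6.2⟩

end P073
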