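import Vale.Agent.P073Z.FLAT.Fr
import Vale.Agent.P073Z.FLAT.Face
import Vale.Agent.P073Z.A2
import Vale.Agent.P073Z.A12

/-!
# Disjoint caps over curves in two parallel triangles
-/

open Set Metric Topology Filter

namespace P073

namespace FCap

variable (F : Fr)

theorem third {a b : Fin 3} (h : a ≠ b) :
    ∃ k, k ≠ a ∧ k ≠ b ∧ (∀ i, i = a ∨ i = b ∨ i = k) ∧
      ∀ v : Fin 3 → ℝ, v a + v b + v k = v 0 + v 1 + v 2 := by
  have h3 : ∀ a b : Fin 3, a ≠ b → ∃ k, k ≠ a ∧ k ≠ b ∧ ∀ i, i = a ∨ i = b ∨ i = k := by decide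
  obtain ⟨k, h1, h2, h4⟩ := h3 a b h
  refine ⟨k, h1, h2, h4, fun v => ?_⟩
  fin_cases a <;> fin_cases b <;> fin_cases k <;> simp at h h1 h2 ⊢ <;> ring

theorem aff_comb (A : E3 →ᵃ[ℝ] ℝ) (α : Fin 3 → ℝ) (σ : ℝ) (h : α 0 + α 1 + α 2 = 1) :
    A (α 0 • F.y 0 + α 1 • F.y 1 + α 2 • F.y 2 + σ • F.ν) =
      α 0 * A (F.y 0) + α 1 * A (F.y 1) + α 2 * A (F.y 2) + σ * A.linear F.ν := by
  have hd : ∀ x, A x = A.linear x + A 0 := fun x => congrFun A.decomp x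
  rw [hd, hd (F.y 0), hd (F.y 1), hd (F.y 2)]
  simp only [map_add, map_smul, smul_eq_mul]
  linear_combination (-A 0) * h

theorem exists_pt (α : Fin 3 → ℝ) (σ : ℝ) (h : α 0 + α 1 + α 2 = 1) :
    ∃ x, (∀ j, F.l j x = α j) ∧ F.s x = σ := by
  refine ⟨α 0 • F.y 0 + α 1 • F.y 1 + α 2 • F.y 2 + σ • F.ν, fun j => ?_, ?_⟩
  · rw [aff_comb F _ α σ h, F.l_y, F.l_y, F.l_y, F.l_ν]
    fin_cases j <;> simp
  · rw [aff_comb F _ α σ h, F.s_y, F.s_y, F.s_y, F.s_ν]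
    simp

theorem ext_pt {x x' : E3} (hl : ∀ j, F.l j x = F.l j x') (hs : F.s x = F.s x') : x = x' := by
  rw [F.rep x, F.rep x', hl 0, hl 1, hl 2, hs]

theorem aff_sub (A : E3 →ᵃ[ℝ] ℝ) (u : E3) (c : ℝ) :
    A (u - c • F.ν) = A u - c * A.linear F.ν := by
  have hd : ∀ x, A x = A.linear x + A 0 := fun x => congrFun A.decomp x
  rw [hd, hd u, map_sub, map_smul, smul_eq_mul]
  ring

theorem le_m {τ : ℝ} {x : E3} : τ ≤ F.m x ↔ ∀ i, τ ≤ F.l i x := by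
  simp only [Fr.m, le_min_iff, Fin.forall_fin_succ, Fin.succ_zero_eq_one, Fin.succ_one_eq_two,
    IsEmpty.forall_iff, and_true]

theorem m_eq (x : E3) : ∃ k, F.m x = F.l k x := by
  unfold Fr.m
  rcases min_choice (F.l 0 x) (min (F.l 1 x) (F.l 2 x)) with h | h
  · exact ⟨0, h⟩
  · rcases min_choice (F.l 1 x) (F.l 2 x) with h' | h'
    · exact ⟨1, h.trans h'⟩
    · exact ⟨2, h.trans h'⟩

theorem m_eq_iff {τ : ℝ} {x : E3} : F.m x = τ ↔ (∀ i, τ ≤ F.l i x) ∧ ∃ k, F.l k x = τ := by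
  constructor
  · intro h
    obtain ⟨k, hk⟩ := m_eq F x
    exact ⟨(le_m F).1 h.ge, k, hk.symm.trans h⟩
  · rintro ⟨h, k, hk⟩
    exact le_antisymm (hk ▸ (le_m F).1 le_rfl k) ((le_m F).2 h)

theorem sec_ge {a : Fin 3} {x : E3} (h0 : ∀ i, 0 ≤ F.l i x) (h : x ∈ F.S a) :
    1 / 5 ≤ F.l a x := by
  have h1 : ∀ i, F.l i x ≤ 2 * F.l a x := fun i => by
    have h2 := h i
    have h3 := mul_le_mul_of_nonneg_right (F.w_mem i).1 (h0 i)
    have h4 := mul_le_mul_of_nonneg_right (F.w_mem a).2 (h0 a)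
    linarith
  have h2 := F.sum x
  have h3 := h1 0
  have h4 := h1 1
  have h5 := h1 2
  fin_cases a <;> simp only [Fin.zero_eta, Fin.mk_one, Fin.reduceFinMk] at h3 h4 h5 ⊢ <;> linarith

theorem mem_T {τ : ℝ} {x : E3} (h0 : 0 ≤ τ) (hm : τ ≤ F.m x) (hs : |F.s x| < τ) :
    x ∈ F.T τ ↔ F.m x = τ := by
  show max |F.m x| |F.s x| = τ ↔ _
  rw [abs_of_nonneg (h0.trans hm), max_eq_left (hs.le.trans hm)]

/-- the boundary of the inner triangle at height `σ` -/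
def Bd (τ σ : ℝ) : Set E3 := {x | F.m x = τ ∧ F.s x = σ}

theorem corner {τ : ℝ} (h0 : 0 < τ) (hτ : τ ≤ 1 / 20) (σ : ℝ) (a : Fin 3) :
    ∃ c ∈ F.S a, F.s c = σ ∧ (∀ i, τ ≤ F.l i c) ∧ ∀ i, i ≠ a → F.l i c = τ := by
  obtain ⟨c, hl, hs⟩ := exists_pt F (fun i => if i = a then 1 - 2 * τ else τ) σ
    (by fin_cases a <;> simp <;> ring)
  refine ⟨c, fun i => ?_, hs, fun i => ?_, fun i hi => by rw [hl, if_neg hi]⟩
  · by_cases hi : i = a
    · rw [hi]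
    · rw [hl, hl, if_neg hi, if_pos rfl]
      have h1 := F.w_mem i
      have h2 := F.w_mem a
      nlinarith [h1.2, h2.1]
  · rw [hl]
    split_ifs <;> linarith

theorem preconn_sec {τ : ℝ} (h0 : 0 < τ) (hτ : τ ≤ 1 / 20) (σ : ℝ) (a : Fin 3) :
    IsPreconnected (Bd F τ σ ∩ F.S a) := by
  obtain ⟨c, hcS, hcs, hcl, hc⟩ := corner F h0 hτ σ a
  refine isPreconnected_of_forall c ?_
  rintro y ⟨⟨hm, hs⟩, hS⟩
  obtain ⟨hl, k, hk⟩ := (m_eq_iff F).1 hm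
  have hka : k ≠ a := by
    rintro rfl
    have := sec_ge F (fun i => h0.le.trans (hl i)) hS
    linarith
  refine ⟨segment ℝ c y, ?_, left_mem_segment _ _ _, right_mem_segment _ _ _,
    (convex_segment c y).isPreconnected⟩
  rw [segment_eq_image_lineMap]
  rintro _ ⟨r, hr, rfl⟩
  have hA : ∀ A : E3 →ᵃ[ℝ] ℝ, A (AffineMap.lineMap c y r) = (1 - r) * A c + r * A y := fun A => by
    rw [A.apply_lineMap, AffineMap.lineMap_apply_ring]
  have hr' : 0 ≤ 1 - r := sub_nonneg.2 hr.2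
  refine ⟨⟨(m_eq_iff F).2 ⟨fun i => ?_, k, ?_⟩, ?_⟩, fun i => ?_⟩
  · rw [hA]
    nlinarith [mul_le_mul_of_nonneg_left (hcl i) hr', mul_le_mul_of_nonneg_left (hl i) hr.1]
  · rw [hA, hc k hka, hk]
    ring
  · rw [hA, hcs, hs]
    ring
  · rw [hA, hA]
    nlinarith [mul_le_mul_of_nonneg_left (hcS i) hr', mul_le_mul_of_nonneg_left (hS i) hr.1]

theorem wall {τ : ℝ} (h0 : 0 < τ) (hτ : τ ≤ 1 / 20) (σ : ℝ) (a b : Fin 3) :
    (Bd F τ σ ∩ F.S a ∩ F.S b).Nonempty := by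
  by_cases hab : a = b
  · subst hab
    obtain ⟨c, hcS, hcs, hcl, hc⟩ := corner F h0 hτ σ a
    obtain ⟨k, hk⟩ := exists_ne a
    exact ⟨c, ⟨⟨(m_eq_iff F).2 ⟨hcl, k, hc k hk⟩, hcs⟩, hcS⟩, hcS⟩
  obtain ⟨k, hka, hkb, hk, hv⟩ := third hab
  have ha := F.w_mem a
  have hb := F.w_mem b
  have hw := F.w_mem k
  have hp : 0 < F.w a + F.w b := by linarith [ha.1, hb.1]
  set d := (1 - τ) / (F.w a + F.w b) with hd
  have hd1 : d * (F.w a + F.w b) = 1 - τ := div_mul_cancel₀ _ hp.ne'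
  have hd2 : 1 / 5 ≤ d := by
    rw [hd, le_div_iff₀ hp]
    linarith [ha.2, hb.2]
  obtain ⟨c, hl, hs⟩ := exists_pt F
    (fun i => if i = a then F.w b * d else if i = b then F.w a * d else τ) σ
    (by
      have h := hv fun i => if i = a then F.w b * d else if i = b then F.w a * d else τ
      rw [if_pos rfl, if_neg (Ne.symm hab), if_pos rfl, if_neg hka, if_neg hkb] at h
      linarith)
  have h1 : F.l a c = F.w b * d := by rw [hl, if_pos rfl]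
  have h2 : F.l b c = F.w a * d := by rw [hl, if_neg (Ne.symm hab), if_pos rfl]
  have h3 : F.l k c = τ := by rw [hl, if_neg hka, if_neg hkb]
  have h4 : d ≤ F.w b * d := le_mul_of_one_le_left (by linarith) hb.1
  have h5 : d ≤ F.w a * d := le_mul_of_one_le_left (by linarith) ha.1
  have h6 : F.w k * τ ≤ F.w a * (F.w b * d) := by nlinarith [hw.2, ha.1]
  have h7 : F.w b * (F.w a * d) = F.w a * (F.w b * d) := by ring
  refine ⟨c, ⟨⟨(m_eq_iff F).2 ⟨fun i => ?_, k, h3⟩, hs⟩, fun i => ?_⟩, fun i => ?_⟩ <;>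
    rcases hk i with rfl | rfl | rfl <;> simp only [h1, h2, h3] <;> linarith

theorem mem_gam {τ σ : ℝ} {J : Set (Fin 3)} {x : E3} :
    x ∈ Bd F τ σ \ F.Z J ↔ x ∈ Bd F τ σ ∧ ∃ j, j ∉ J ∧ x ∈ F.S j := by
  simp only [Fr.Z, Set.mem_sdiff, mem_ofPred_eq, not_forall, not_not, exists_prop]

theorem preconn_gam {τ : ℝ} (h0 : 0 < τ) (hτ : τ ≤ 1 / 20) (σ : ℝ) (J : Set (Fin 3)) :
    IsPreconnected (Bd F τ σ \ F.Z J) := by
  refine isPreconnected_of_forall_pair fun x hx y hy => ?_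
  obtain ⟨hx, a, ha, hxa⟩ := (mem_gam F).1 hx
  obtain ⟨hy, b, hb, hyb⟩ := (mem_gam F).1 hy
  obtain ⟨c, ⟨hc, hca⟩, hcb⟩ := wall F h0 hτ σ a b
  refine ⟨(Bd F τ σ ∩ F.S a) ∪ (Bd F τ σ ∩ F.S b), ?_, Or.inl ⟨hx, hxa⟩, Or.inr ⟨hy, hyb⟩,
    (preconn_sec F h0 hτ σ a).union c ⟨hc, hca⟩ ⟨hc, hcb⟩ (preconn_sec F h0 hτ σ b)⟩
  rintro z (hz | hz)
  · exact (mem_gam F).2 ⟨hz.1, a, ha, hz.2⟩
  · exact (mem_gam F).2 ⟨hz.1, b, hb, hz.2⟩

/-- the signed position along the side -/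
def sig (a b : Fin 3) (x : E3) : ℝ := F.w a * F.l a x - F.w b * F.l b x

theorem cont_aff (A : E3 →ᵃ[ℝ] ℝ) : Continuous A := A.continuous_of_finiteDimensional

theorem cont_sig (a b : Fin 3) : Continuous (sig F a b) :=
  (continuous_const.mul (cont_aff _)).sub (continuous_const.mul (cont_aff _))

theorem sig_inj {τ σ : ℝ} {a b k : Fin 3} (hk : ∀ i, i = a ∨ i = b ∨ i = k)
    (hv : ∀ v : Fin 3 → ℝ, v a + v b + v k = v 0 + v 1 + v 2) {x y : E3} (hx : x ∈ Bd F τ σ)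
    (hy : y ∈ Bd F τ σ) (hxk : F.l k x = τ) (hyk : F.l k y = τ) (h : sig F a b x = sig F a b y) :
    x = y := by
  have h1 := (hv fun i => F.l i x).trans (F.sum x)
  have h2 := (hv fun i => F.l i y).trans (F.sum y)
  have ha := (F.w_mem a).1
  have hb := (F.w_mem b).1
  unfold sig at h
  have h3 : F.l b x - F.l b y = -(F.l a x - F.l a y) := by linarith
  have h4 : (F.w a + F.w b) * (F.l a x - F.l a y) = 0 := by
    linear_combination h + F.w b * h3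
  have h5 : F.l a x = F.l a y :=
    sub_eq_zero.1 ((mul_eq_zero.1 h4).resolve_left (by linarith))
  refine ext_pt F (fun j => ?_) (hx.2.trans hy.2.symm)
  rcases hk j with rfl | rfl | rfl <;> linarith

theorem third_wall {τ σ : ℝ} (h0 : 0 < τ) (hτ : τ ≤ 1 / 20) {a b k : Fin 3}
    (hk : ∀ i, i = a ∨ i = b ∨ i = k) {x : E3} (hx : x ∈ Bd F τ σ) (ha : x ∈ F.S a)
    (hb : x ∈ F.S b) : F.l k x = τ := by
  obtain ⟨hl, j, hj⟩ := (m_eq_iff F).1 hx.1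
  have h1 := sec_ge F (fun i => h0.le.trans (hl i)) ha
  have h2 := sec_ge F (fun i => h0.le.trans (hl i)) hb
  rcases hk j with rfl | rfl | rfl <;> linarith

theorem exists_sec (x : E3) : ∃ a, x ∈ F.S a :=
  Finite.exists_max fun i => F.w i * F.l i x

theorem third_small {τ σ : ℝ} (h0 : 0 < τ) (hτ : τ ≤ 1 / 20) {a b k : Fin 3}
    (hk : ∀ i, i = a ∨ i = b ∨ i = k) {x : E3} (hx : x ∈ Bd F τ σ) (hS : x ∉ F.S k)
    (hs : |sig F a b x| < 1 / 10) : F.l k x = τ := by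
  obtain ⟨hl, j, hj⟩ := (m_eq_iff F).1 hx.1
  obtain ⟨c, hc⟩ := exists_sec F x
  have h1 := sec_ge F (fun i => h0.le.trans (hl i)) hc
  have h2 := mul_le_mul_of_nonneg_right (F.w_mem c).1 (h0.le.trans (hl c))
  have h3 := mul_le_mul_of_nonneg_right (F.w_mem j).2 (h0.le.trans (hl j))
  rw [abs_lt] at hs
  unfold sig at hs
  rcases hk c with rfl | rfl | rfl
  · rcases hk j with rfl | rfl | rfl <;> linarith [hs.1, hs.2]
  · rcases hk j with rfl | rfl | rfl <;> linarith [hs.1, hs.2]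
  · exact absurd hc hS

theorem wall_sub {τ σ : ℝ} (h0 : 0 < τ) (hτ : τ ≤ 1 / 20) {a b : Fin 3} (hab : a ≠ b) :
    (Bd F τ σ ∩ F.S a ∩ F.S b).Subsingleton := by
  obtain ⟨k, -, -, hk, hv⟩ := third hab
  rintro x ⟨⟨hx, hxa⟩, hxb⟩ y ⟨⟨hy, hya⟩, hyb⟩
  refine sig_inj F hk hv hx hy (third_wall F h0 hτ hk hx hxa hxb)
    (third_wall F h0 hτ hk hy hya hyb) ?_
  unfold sig
  linarith [hxa b, hxb a, hya b, hyb a]

theorem not_pos {β : Set E3} {p q u : E3} {g : E3 → ℝ} {δ : ℝ} (hβ : IsArc β p q) (hu : u ∈ β)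
    (hp : u ≠ p) (hq : u ≠ q) (hg : Continuous g) (h0 : g u = 0) (hδ : 0 < δ)
    (hi : InjOn g {x ∈ β | |g x| < δ}) (h1 : 0 < g p) (h2 : 0 < g q) : False := by
  obtain ⟨A₁, A₂, a1, a2, rfl, hI⟩ := (arcs (E := E3)).2.1 hβ hu hp hq
  set ε := min (min (g p) (g q)) (δ / 2) with hε
  have e0 : 0 < ε := lt_min (lt_min h1 h2) (half_pos hδ)
  have e1 : ε ≤ g p := (min_le_left _ _).trans (min_le_left _ _)
  have e2 : ε ≤ g q := (min_le_left _ _).trans (min_le_right _ _)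
  have e3 : |ε| < δ := by
    rw [abs_of_pos e0]
    exact (min_le_right _ _).trans_lt (half_lt_self hδ)
  obtain ⟨x, hx, hgx⟩ := a1.isConnected.isPreconnected.intermediate_value a1.right_mem
    a1.left_mem hg.continuousOn (show ε ∈ Icc (g u) (g p) from ⟨h0 ▸ e0.le, e1⟩)
  obtain ⟨y, hy, hgy⟩ := a2.isConnected.isPreconnected.intermediate_value a2.left_mem
    a2.right_mem hg.continuousOn (show ε ∈ Icc (g u) (g q) from ⟨h0 ▸ e0.le, e2⟩)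
  have hxy : x = y := hi ⟨Or.inl hx, hgx ▸ e3⟩ ⟨Or.inr hy, hgy ▸ e3⟩ (hgx.trans hgy.symm)
  have hxu : x ∈ ({u} : Set E3) := hI ▸ ⟨hx, hxy ▸ hy⟩
  rw [hxu, h0] at hgx
  exact e0.ne hgx

theorem opp {β : Set E3} {p q u : E3} {g : E3 → ℝ} {δ : ℝ} (hβ : IsArc β p q) (hu : u ∈ β)
    (hp : u ≠ p) (hq : u ≠ q) (hg : Continuous g) (h0 : g u = 0) (hδ : 0 < δ)
    (hi : InjOn g {x ∈ β | |g x| < δ}) : (g p < 0 ∧ 0 < g q) ∨ (g q < 0 ∧ 0 < g p) := by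
  have hz : ∀ x ∈ β, g x = 0 → u = x := fun x hx h =>
    hi ⟨hu, by rwa [h0, abs_zero]⟩ ⟨hx, by rwa [h, abs_zero]⟩ (h0.trans h.symm)
  have h1 : g p ≠ 0 := fun h => hp (hz p hβ.left_mem h)
  have h2 : g q ≠ 0 := fun h => hq (hz q hβ.right_mem h)
  rcases h1.lt_or_gt with h1 | h1 <;> rcases h2.lt_or_gt with h2 | h2
  · refine (not_pos (g := fun x => -g x) hβ hu hp hq hg.neg (by simp [h0]) hδ ?_
      (neg_pos.2 h1) (neg_pos.2 h2)).elim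
    intro x hx y hy h
    exact hi ⟨hx.1, abs_neg (g x) ▸ hx.2⟩ ⟨hy.1, abs_neg (g y) ▸ hy.2⟩ (neg_injective h)
  · exact Or.inl ⟨h1, h2⟩
  · exact Or.inr ⟨h2, h1⟩
  · exact (not_pos hβ hu hp hq hg h0 hδ hi h1 h2).elim

/-- the properties of one cap -/
def Good (τ t : ℝ) (A : Set E3) (J : Set (Fin 3)) (C L : Set E3) : Prop :=
  ConBall 2 C L ∧ A ⊆ L ∧ (IsCircle A → L = A) ∧
    (∀ x ∈ C, τ ≤ F.m x ∧ 0 < |F.s x| ∧ |F.s x| ≤ t ∧ (|F.s x| = t → x ∈ A)) ∧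
    C ∩ F.T τ ⊆ L ∧ L \ A ⊆ F.T τ ∩ F.Z J ∧ F.Once (L \ A) ∧
    ∀ a b, a ≠ b → ((L \ A) ∩ F.S a ∩ F.S b).Nonempty → ∃ p q, A ∩ F.T τ = {p, q} ∧
      F.w a * F.l a p < F.w b * F.l b p ∧ F.w b * F.l b q < F.w a * F.l a q

/-- the lift of a point by the height `h` -/
noncomputable def lift (c : ℝ) (h : E3 → ℝ) (u : E3) : E3 := u - (c * h u) • F.ν

theorem l_lift (c : ℝ) (h : E3 → ℝ) (u : E3) (j : Fin 3) : F.l j (lift F c h u) = F.l j u := by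
  rw [lift, aff_sub, F.l_ν, mul_zero, sub_zero]

theorem s_lift (c : ℝ) (h : E3 → ℝ) (u : E3) : F.s (lift F c h u) = F.s u - c * h u := by
  rw [lift, aff_sub, F.s_ν, mul_one]

theorem m_lift (c : ℝ) (h : E3 → ℝ) (u : E3) : F.m (lift F c h u) = F.m u := by
  simp only [Fr.m, l_lift]

theorem S_lift (c : ℝ) (h : E3 → ℝ) (u : E3) (a : Fin 3) : lift F c h u ∈ F.S a ↔ u ∈ F.S a := by
  simp only [Fr.S, mem_ofPred_eq, l_lift]

theorem pl_lift (c : ℝ) {h : E3 → ℝ} (hh : PLOn h univ) : PLOn (lift F c h) univ :=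
  A2.pl_sub (A2.pl_id A2.conicalSet_univ) (A2.pl_comp_univ
    (A2.pl_clm (ContinuousLinearMap.toSpanSingleton ℝ F.ν) A2.conicalSet_univ) (A2.pl_mul c hh))

theorem good_lift {τ t σ c : ℝ} (ht : 0 < t) (htτ : t < τ) (hτ : τ ≤ 1 / 20) (hc : |c| = 1)
    (hσ : σ = c * t) {A Δ Jc : Set E3} {J : Set (Fin 3)} {h : E3 → ℝ} (hJ : J ≠ univ)
    (hΔ : ConBall 2 Δ Jc) (hD : Δ ⊆ {x | τ ≤ F.m x ∧ F.s x = σ})
    (hΓ : Disjoint Δ (Bd F τ σ \ F.Z J)) (hAT : A ∩ F.T τ = A ∩ Bd F τ σ)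
    (hA : (IsCircle A ∧ Jc = A ∧ Disjoint Δ (Bd F τ σ)) ∨ ∃ p q, IsArc A p q ∧
      A ∩ Bd F τ σ = {p, q} ∧ IsArc (Δ ∩ Bd F τ σ) p q ∧ Jc = A ∪ (Δ ∩ Bd F τ σ))
    (hh : PLOn h univ) (hb : ∀ x, 0 ≤ h x ∧ h x ≤ t / 2) (h0 : ∀ x, h x = 0 ↔ x ∈ A) :
    Good F τ t A J (lift F c h '' Δ) (lift F c h '' Jc) := by
  have hτ0 : 0 < τ := ht.trans htτ
  have hfix : ∀ u ∈ A, lift F c h u = u := fun u hu => by
    rw [lift, (h0 u).2 hu, mul_zero, zero_smul, sub_zero]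
  have hs : ∀ u ∈ Δ, |F.s (lift F c h u)| = t - h u := fun u hu => by
    rw [s_lift, (hD hu).2, hσ, ← mul_sub, abs_mul, hc, one_mul, abs_of_nonneg]
    linarith [(hb u).2]
  have hT : ∀ u ∈ Δ, lift F c h u ∈ F.T τ ↔ u ∈ Bd F τ σ := fun u hu => by
    rw [mem_T F hτ0.le (by rw [m_lift]; exact (hD hu).1)
      (by rw [hs u hu]; linarith [(hb u).1]), m_lift]
    exact ⟨fun h => ⟨h, (hD hu).2⟩, fun h => h.1⟩
  have hAJ : A ⊆ Jc := by
    rcases hA with ⟨-, h, -⟩ | ⟨p, q, -, -, -, h⟩ <;> rw [h]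
    exact subset_union_left
  have hL : ∀ x ∈ lift F c h '' Jc \ A, ∃ u, x = lift F c h u ∧ u ∈ Δ ∧ u ∈ Bd F τ σ ∧
      u ∉ A ∧ Jc ≠ A := by
    rintro _ ⟨⟨u, hu, rfl⟩, hx⟩
    have huA : u ∉ A := fun h => hx ((hfix u h).symm ▸ h)
    have hne : Jc ≠ A := fun h => huA (h ▸ hu)
    rcases hA with ⟨-, h, -⟩ | ⟨p, q, -, -, -, h⟩
    · exact absurd h hne
    · rw [h] at hu
      exact ⟨u, rfl, (hu.resolve_left huA).1, (hu.resolve_left huA).2, huA, hne⟩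
  have hZ : ∀ u ∈ Δ, u ∈ Bd F τ σ → u ∈ F.Z J := fun u hu hB =>
    by_contra fun hn => disjoint_left.1 hΓ hu ⟨hB, hn⟩
  have hpl := A2.pl_mono (pl_lift F c hh) hΔ.conicalSet (subset_univ _)
  have hinj : InjOn (lift F c h) Δ := fun u hu u' hu' e =>
    ext_pt F (fun j => by rw [← l_lift F c h u, e, l_lift]) ((hD hu).2.trans (hD hu').2.symm)
  refine ⟨?_, fun u hu => ⟨u, hAJ hu, hfix u hu⟩, fun hcirc => ?_, ?_, ?_, fun x hx => ?_,
    fun a b hab x hx y hy => ?_, fun a b hab hne => ?_⟩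
  · have := hΔ.image (ConHomeo.ofCompact hΔ.isCompact _ hpl.1 hinj hpl.2 rfl) subset_rfl
    rwa [ConHomeo.ofCompact_toFun] at this
  · rcases hA with ⟨-, h, -⟩ | ⟨p, q, harc, -⟩
    · rw [h, image_congr hfix, image_id']
    · exact absurd subset_rfl ((arcs (E := E3)).2.2.2.2.1 hcirc harc)
  · rintro _ ⟨u, hu, rfl⟩
    rw [hs u hu, m_lift]
    have h1 := hb u
    refine ⟨(hD hu).1, by linarith [h1.2], by linarith [h1.1], fun e => ?_⟩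
    have h2 : u ∈ A := (h0 u).1 (by linarith)
    rwa [hfix u h2]
  · rintro _ ⟨⟨u, hu, rfl⟩, hx⟩
    have hB := (hT u hu).1 hx
    rcases hA with ⟨-, -, h⟩ | ⟨p, q, -, -, -, h⟩
    · exact absurd hB (disjoint_left.1 h hu)
    · exact ⟨u, h ▸ Or.inr ⟨hu, hB⟩, rfl⟩
  · obtain ⟨u, rfl, hu, hB, -⟩ := hL x hx
    exact ⟨(hT u hu).2 hB, fun j hj hS => hZ u hu hB j hj ((S_lift F c h u j).1 hS)⟩
  · obtain ⟨u, rfl, -, hB, -⟩ := hL x hx.1.1
    obtain ⟨u', rfl, -, hB', -⟩ := hL y hy.1.1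
    rw [wall_sub F hτ0 hτ hab ⟨⟨hB, (S_lift F c h u a).1 hx.1.2⟩, (S_lift F c h u b).1 hx.2⟩
      ⟨⟨hB', (S_lift F c h u' a).1 hy.1.2⟩, (S_lift F c h u' b).1 hy.2⟩]
  · obtain ⟨x, ⟨hx, hxa⟩, hxb⟩ := hne
    obtain ⟨u, rfl, hu, hB, huA, hne⟩ := hL x hx
    rw [S_lift] at hxa hxb
    obtain ⟨p, q, harc, hpq, hβ, -⟩ := hA.resolve_left fun h => hne h.2.1
    obtain ⟨k, -, -, hk, hv⟩ := third hab
    have hkJ : k ∉ J := fun hk' => hJ (eq_univ_of_forall fun i => by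
      rcases hk i with rfl | rfl | rfl
      · exact by_contra fun hi => hZ u hu hB i hi hxa
      · exact by_contra fun hi => hZ u hu hB i hi hxb
      · exact hk')
    have hi : InjOn (sig F a b) {x ∈ Δ ∩ Bd F τ σ | |sig F a b x| < 1 / 10} :=
      fun x hx y hy e => sig_inj F hk hv hx.1.2 hy.1.2
        (third_small F hτ0 hτ hk hx.1.2 (hZ x hx.1.1 hx.1.2 k hkJ) hx.2)
        (third_small F hτ0 hτ hk hy.1.2 (hZ y hy.1.1 hy.1.2 k hkJ) hy.2) e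
    have hu0 : sig F a b u = 0 := sub_eq_zero.2 (le_antisymm (hxb a) (hxa b))
    rcases opp hβ ⟨hu, hB⟩ (fun e => huA (e ▸ harc.left_mem)) (fun e => huA (e ▸ harc.right_mem))
      (cont_sig F a b) hu0 (by norm_num) hi with h | h
    · exact ⟨p, q, hAT.trans hpq, sub_neg.1 h.1, sub_pos.1 h.2⟩
    · exact ⟨q, p, (hAT.trans hpq).trans (pair_comm p q), sub_neg.1 h.1, sub_pos.1 h.2⟩

theorem one_side (hPC : FLPC) {ι : Type} (s : Finset ι) (A : ι → Set E3)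
    (J : ι → Set (Fin 3)) {τ t c : ℝ} (ht : 0 < t) (htτ : t < τ) (hτ : τ ≤ 1 / 20) (hc : |c| = 1)
    (hin : ConBall 2 {x | τ ≤ F.m x ∧ F.s x = c * t} (Bd F τ (c * t)))
    (hA : ∀ i ∈ s, (∀ x ∈ A i, τ ≤ F.m x ∧ F.s x = c * t) ∧ J i ≠ univ ∧
      A i ∩ F.T τ ⊆ F.Z (J i) ∧ ((IsCircle (A i) ∧ Disjoint (A i) (F.T τ)) ∨
        ∃ p q, IsArc (A i) p q ∧ A i ∩ F.T τ = {p, q}))
    (hd : ∀ i ∈ s, ∀ j ∈ s, i ≠ j → Disjoint (A i) (A j)) :
    ∃ C L : ι → Set E3, (∀ i ∈ s, Good F τ t (A i) (J i) (C i) (L i) ∧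
      ∀ x ∈ C i, 0 < c * F.s x) ∧ ∀ i ∈ s, ∀ j ∈ s, i ≠ j → Disjoint (C i) (C j) := by
  have hτ0 : 0 < τ := ht.trans htτ
  have hcc : c * c = 1 := by rw [← abs_mul_abs_self, hc, one_mul]
  have hAT : ∀ i ∈ s, A i ∩ F.T τ = A i ∩ Bd F τ (c * t) := fun i hi => by
    ext x
    refine and_congr_right fun hx => ?_
    have h1 := (hA i hi).1 x hx
    rw [mem_T F hτ0.le h1.1 (by rw [h1.2, abs_mul, hc, one_mul, abs_of_pos ht]; exact htτ)]
    exact ⟨fun h => ⟨h, h1.2⟩, fun h => h.1⟩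
  obtain ⟨Δ, Jc, h1, h2⟩ := hPC s A (fun i => Bd F τ (c * t) \ F.Z (J i)) hin
    (fun i hi => by
      refine ⟨(hA i hi).1, sdiff_subset, preconn_gam F hτ0 hτ _ _, ?_, ?_⟩
      · exact disjoint_left.2 fun x hx hG =>
          hG.2 ((hA i hi).2.2.1 ((hAT i hi).symm ▸ ⟨hx, hG.1⟩))
      · rw [← hAT i hi, disjoint_iff_inter_eq_empty, ← hAT i hi, ← disjoint_iff_inter_eq_empty]
        exact (hA i hi).2.2.2)
    (fun i hi j hj hij => by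
      refine ⟨hd i hi j hj hij, ?_⟩
      obtain ⟨a, ha⟩ := (ne_univ_iff_exists_notMem _).1 (hA i hi).2.1
      obtain ⟨b, hb⟩ := (ne_univ_iff_exists_notMem _).1 (hA j hj).2.1
      obtain ⟨x, ⟨hx, hxa⟩, hxb⟩ := wall F hτ0 hτ (c * t) a b
      exact ⟨x, (mem_gam F).2 ⟨hx, a, ha, hxa⟩, (mem_gam F).2 ⟨hx, b, hb, hxb⟩⟩)
  obtain ⟨h, h3, h4⟩ := cap s Δ A (half_pos ht) fun i hi => by
    obtain ⟨hΔ, -, -, hcase⟩ := h1 i hi
    rcases hcase with ⟨hcirc, e, -⟩ | ⟨p, q, harc, -, -, e⟩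
    · exact ⟨hΔ.isCompact, hcirc.isCompact, hcirc.locCone,
        ((arcs (E := E3)).2.2.2.2.2.1 (p := 0) hcirc).1.nonempty, e ▸ hΔ.1⟩
    · exact ⟨hΔ.isCompact, harc.isCompact, harc.locCone, ⟨p, harc.left_mem⟩,
        subset_union_left.trans (e ▸ hΔ.1)⟩
  refine ⟨fun i => lift F c (h i) '' Δ i, fun i => lift F c (h i) '' Jc i, fun i hi => ⟨?_, ?_⟩,
    fun i hi j hj hij => disjoint_left.2 ?_⟩
  · exact good_lift F ht htτ hτ hc rfl (hA i hi).2.1 (h1 i hi).1 (h1 i hi).2.1 (h1 i hi).2.2.1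
      (hAT i hi) (h1 i hi).2.2.2 (h3 i hi).1 (h3 i hi).2.1 (h3 i hi).2.2
  · rintro _ ⟨u, hu, rfl⟩
    rw [s_lift, ((h1 i hi).2.1 hu).2, ← mul_sub, ← mul_assoc, hcc, one_mul]
    linarith [((h3 i hi).2.1 u).2]
  · rintro _ ⟨u, hu, rfl⟩ ⟨u', hu', e⟩
    have e1 : u' = u := ext_pt F (fun k => by rw [← l_lift F c (h j) u', e, l_lift])
      (((h1 j hj).2.1 hu').2.trans ((h1 i hi).2.1 hu).2.symm)
    subst e1
    have e2 := congrArg F.s e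
    rw [s_lift, s_lift, sub_right_inj] at e2
    have e3 : h j u' = h i u' := mul_left_cancel₀ (left_ne_zero_of_mul_eq_one hcc) e2
    rcases h2 i hi j hj hij with h5 | h5 | h5
    · exact (h4 i hi j hj h5 u' hu).ne' e3
    · exact (h4 j hj i hi h5 u' hu').ne e3
    · exact disjoint_left.1 h5 hu hu'

theorem main (hPC : FLPC) (hin : ∀ (F : Fr) (τ σ : ℝ), 0 < τ → τ ≤ 1 / 20 →
    ConBall 2 {x | τ ≤ F.m x ∧ F.s x = σ} (Bd F τ σ)) : FLCAP := by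
  classical
  intro F ι s A J τ t ht htτ hτ hA hd
  have hτ0 : 0 < τ := ht.trans htτ
  let P : ι → Prop := fun i => ∀ x ∈ A i, F.s x = 1 * t
  have hN : ∀ i ∈ s, ¬ P i → ∀ x ∈ A i, F.s x = -1 * t := by
    intro i hi hP x hx
    simp only [P, not_forall] at hP
    obtain ⟨y, hy, hy'⟩ := hP
    have hco : IsPreconnected (A i) := by
      rcases (hA i hi).2.2.2 with ⟨h, -⟩ | ⟨p, q, h, -⟩
      · exact ((arcs (E := E3)).2.2.2.2.2.1 (p := 0) h).1.isPreconnected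
      · exact h.isConnected.isPreconnected
    have h1 := (abs_eq ht.le).1 ((hA i hi).1 y hy).2
    have h2 := (abs_eq ht.le).1 ((hA i hi).1 x hx).2
    have h3 : F.s y = -t := h1.resolve_left (by rwa [one_mul] at hy')
    rcases h2 with h2 | h2
    · obtain ⟨z, hz, e⟩ := hco.intermediate_value hy hx (cont_aff F.s).continuousOn
        (show (0 : ℝ) ∈ Icc (F.s y) (F.s x) from ⟨by linarith, by linarith⟩)
      have h4 := ((hA i hi).1 z hz).2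
      rw [e, abs_zero] at h4
      exact absurd h4 ht.ne
    · rw [h2, neg_one_mul]
  obtain ⟨C, L, h1, h2⟩ := one_side F hPC (s.filter P) A J ht htτ hτ abs_one (hin F τ _ hτ0 hτ)
    (fun i hi => by
      obtain ⟨hi, hP⟩ := Finset.mem_filter.1 hi
      exact ⟨fun x hx => ⟨((hA i hi).1 x hx).1, hP x hx⟩, (hA i hi).2⟩)
    (fun i hi j hj => hd i (Finset.mem_filter.1 hi).1 j (Finset.mem_filter.1 hj).1)
  obtain ⟨C', L', h3, h4⟩ := one_side F hPC (s.filter fun i => ¬ P i) A J ht htτ hτ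
    (c := -1) (by simp) (hin F τ _ hτ0 hτ)
    (fun i hi => by
      obtain ⟨hi, hP⟩ := Finset.mem_filter.1 hi
      exact ⟨fun x hx => ⟨((hA i hi).1 x hx).1, hN i hi hP x hx⟩, (hA i hi).2⟩)
    (fun i hi j hj => hd i (Finset.mem_filter.1 hi).1 j (Finset.mem_filter.1 hj).1)
  have hx : ∀ i ∈ s, ∀ j ∈ s, P i → ¬ P j → Disjoint (C i) (C' j) := fun i hi j hj pi pj =>
    disjoint_left.2 fun x hx hx' => by
      have a1 := (h1 i (Finset.mem_filter.2 ⟨hi, pi⟩)).2 x hx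
      have a2 := (h3 j (Finset.mem_filter.2 ⟨hj, pj⟩)).2 x hx'
      linarith
  refine ⟨fun i => if P i then C i else C' i, fun i => if P i then L i else L' i,
    fun i hi => ?_, fun i hi j hj hij => ?_⟩
  · by_cases pi : P i
    · simp only [if_pos pi]
      exact (h1 i (Finset.mem_filter.2 ⟨hi, pi⟩)).1
    · simp only [if_neg pi]
      exact (h3 i (Finset.mem_filter.2 ⟨hi, pi⟩)).1
  · by_cases pi : P i <;> by_cases pj : P j
    · simp only [if_pos pi, if_pos pj]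
      exact h2 i (Finset.mem_filter.2 ⟨hi, pi⟩) j (Finset.mem_filter.2 ⟨hj, pj⟩) hij
    · simp only [if_pos pi, if_neg pj]
      exact hx i hi j hj pi pj
    · simp only [if_neg pi, if_pos pj]
      exact (hx j hj i hi pj pi).symm
    · simp only [if_neg pi, if_neg pj]
      exact h4 i (Finset.mem_filter.2 ⟨hi, pi⟩) j (Finset.mem_filter.2 ⟨hj, pj⟩) hij

end FCap

theorem flcap_of (h : FLPC) : FLCAP :=
  FCap.main h fun F _ σ _ hτ => F.conBall_inner (by linarith) σ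

theorem flcap : FLCAP := flcap_of flpc

end P073
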