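import Vale.Agent.P073Z.FLAT.Sk
import Vale.Agent.P073Z.Lam
import Vale.Agent.P073Z.A3
import Vale.Agent.P073Z.A2.PL
import Vale.Agent.P073Z.FACE.Top
import Vale.Agent.P073Z.A14

/-!
# Cutting a face along the torus
-/

open Set Metric Topology Filter

namespace P073

namespace Cut

open A12 A2

section Gen

variable {E : Type} [NormedAddCommGroup E] [NormedSpace ℝ E] {D B : Set E} {g : E → ℝ}

omit [NormedSpace ℝ E] in
theorem ev_lt {K : Set E} (hK : IsCompact K) (hg : Continuous g) (h : ∀ x ∈ K, 0 < g x) :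
    ∀ᶠ τ in 𝓝[>] (0:ℝ), ∀ x ∈ K, τ < g x :=
  nhdsWithin_le_nhds (hK.eventually_forall_of_forall_eventually fun y hy =>
    continuous_fst.continuousAt.eventually_lt (hg.comp continuous_snd).continuousAt (h y hy))

/-- small levels on an arc which starts at the only zero -/
theorem arc_cut {A U : Set E} {a b : E} (hA : IsArc A a b) (hg : PLOn g univ) (h0 : g a = 0)
    (h : ∀ x ∈ A, x ≠ a → 0 < g x) (hU : U ∈ 𝓝 a) :
    ∀ᶠ τ in 𝓝[>] (0:ℝ), ∃ p ∈ U, g p = τ ∧ {x ∈ A | g x ≤ τ} = segment ℝ a p ∧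
      IsArc {x ∈ A | τ ≤ g x} p b ∧ ∀ x ∈ A, g x = τ → x = p := by
  obtain ⟨φ, rfl, rfl⟩ := hA
  have m0 : (0:ℝ) ∈ Icc (0:ℝ) 1 := ⟨le_rfl, zero_le_one⟩
  have hφ : PLOn φ.toFun (Icc 0 1) := ⟨φ.cont, φ.conical⟩
  obtain ⟨r₁, p₁, H⟩ := (pl_prodMk hφ (pl_comp_univ hg hφ)).2 0 m0
  obtain ⟨r₂, p₂, H'⟩ := exists_radius_of_nhdsWithin ((φ.cont 0 m0).eventually_mem hU)
  obtain ⟨r, r0, r1, r2, r3⟩ : ∃ r : ℝ, 0 < r ∧ r ≤ r₁ ∧ r ≤ r₂ ∧ r ≤ 1 :=
    ⟨min r₁ (min r₂ 1), by positivity, min_le_left _ _,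
      (min_le_right _ _).trans (min_le_left _ _), (min_le_right _ _).trans (min_le_right _ _)⟩
  have k : ∀ s ∈ Icc 0 r, φ.toFun s = φ.toFun 0 + (s / r) • (φ.toFun r - φ.toFun 0) ∧
      g (φ.toFun s) = s / r * g (φ.toFun r) := fun s hs => by
    have h1 := (H r (by rwa [Real.norm_of_nonneg r0.le]) (by rw [zero_add]; exact ⟨r0.le, r3⟩)
      (s / r) ⟨div_nonneg hs.1 r0.le, (div_le_one r0).2 hs.2⟩).2
    rw [zero_add, zero_add, smul_eq_mul, div_mul_cancel₀ _ r0.ne'] at h1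
    refine ⟨congrArg Prod.fst h1, (congrArg Prod.snd h1).trans ?_⟩
    simp [h0]
  have sub : Icc r 1 ⊆ Icc (0:ℝ) 1 := Icc_subset_Icc_left r0.le
  filter_upwards [self_mem_nhdsWithin, ev_lt (isCompact_Icc.image_of_continuousOn
    (φ.cont.mono sub)) (continuousOn_univ.1 hg.1) (by
      rintro _ ⟨s, hs, rfl⟩
      exact h _ (φ.mapsTo (sub hs)) fun e => (r0.trans_le hs.1).ne' (φ.injOn (sub hs) m0 e))]
    with τ (t0 : 0 < τ) ht
  have c1 : τ < g (φ.toFun r) := ht _ ⟨r, ⟨le_rfl, r3⟩, rfl⟩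
  generalize g (φ.toFun r) = c at k c1
  have c0 : 0 < c := t0.trans c1
  obtain ⟨σ, s0, s1, s2⟩ : ∃ σ : ℝ, 0 < σ ∧ σ < r ∧ σ / r * c = τ :=
    ⟨τ / c * r, by positivity, mul_lt_of_lt_one_left r0 ((div_lt_one c0).2 c1), by field_simp⟩
  have k1 : ∀ s ∈ Icc (0:ℝ) 1, s < σ → g (φ.toFun s) < τ := fun s hs l => by
    rw [(k s ⟨hs.1, (l.trans s1).le⟩).2, ← s2]
    gcongr
  have k2 : ∀ s ∈ Icc (0:ℝ) 1, σ < s → τ < g (φ.toFun s) := fun s hs l => by
    rcases le_total s r with l' | l'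
    · rw [(k s ⟨hs.1, l'⟩).2, ← s2]
      gcongr
    · exact ht _ ⟨s, ⟨l', hs.2⟩, rfl⟩
  have k3 : g (φ.toFun σ) = τ := (k σ ⟨s0.le, s1.le⟩).2.trans s2
  have k4 : ∀ θ ∈ Icc (0:ℝ) 1, φ.toFun (θ * σ) = φ.toFun 0 + θ • (φ.toFun σ - φ.toFun 0) :=
    fun θ hθ => by
      rw [(k (θ * σ) ⟨mul_nonneg hθ.1 s0.le, (mul_le_of_le_one_left s0.le hθ.2).trans s1.le⟩).1,
        (k σ ⟨s0.le, s1.le⟩).1, add_sub_cancel_left, smul_smul, mul_div_assoc]
  have ex : ∀ x ∈ A, ∃ s ∈ Icc (0:ℝ) 1, φ.toFun s = x := fun x hx =>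
    ⟨_, φ.mapsTo_inv hx, φ.right_inv hx⟩
  have s3 : σ < 1 := s1.trans_le r3
  refine ⟨φ.toFun σ, ?_, k3, ?_, ?_, fun x hx e => ?_⟩
  · have h1 := H' σ (by rw [Real.norm_of_nonneg s0.le]; exact s1.le.trans r2)
      (by rw [zero_add]; exact ⟨s0.le, s3.le⟩)
    rwa [zero_add] at h1
  · rw [segment_eq_image']
    refine Subset.antisymm (fun x hx => ?_) ?_
    · obtain ⟨s, hs, rfl⟩ := ex x hx.1
      have l : s ≤ σ := not_lt.1 fun l => (k2 s hs l).not_ge hx.2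
      have m : s / σ ∈ Icc (0:ℝ) 1 := ⟨div_nonneg hs.1 s0.le, (div_le_one s0).2 l⟩
      exact ⟨s / σ, m, (k4 _ m).symm.trans (by rw [div_mul_cancel₀ _ s0.ne'])⟩
    · rintro _ ⟨θ, hθ, rfl⟩
      have l : θ * σ ≤ σ := mul_le_of_le_one_left s0.le hθ.2
      have m : θ * σ ∈ Icc (0:ℝ) 1 := ⟨mul_nonneg hθ.1 s0.le, l.trans s3.le⟩
      beta_reduce
      rw [← k4 θ hθ]
      refine ⟨φ.mapsTo m, ?_⟩
      rcases l.lt_or_eq with l | l
      · exact (k1 _ m l).le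
      · rw [l, k3]
  · have e : {x ∈ A | τ ≤ g x} = φ.toFun '' Icc σ 1 := by
      refine Subset.antisymm (fun x hx => ?_) ?_
      · obtain ⟨s, hs, rfl⟩ := ex x hx.1
        exact ⟨s, ⟨not_lt.1 fun l => (k1 s hs l).not_ge hx.2, hs.2⟩, rfl⟩
      · rintro _ ⟨s, hs, rfl⟩
        have m : s ∈ Icc (0:ℝ) 1 := ⟨s0.le.trans hs.1, hs.2⟩
        refine ⟨φ.mapsTo m, ?_⟩
        rcases hs.1.lt_or_eq with l | l
        · exact (k2 _ m l).le
        · rw [← l, k3]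
    rw [e]
    exact arc_piece φ s0.le s3 le_rfl
  · obtain ⟨s, hs, rfl⟩ := ex x hx
    rcases lt_trichotomy s σ with l | l | l
    · exact absurd e (k1 s hs l).ne
    · rw [l]
    · exact absurd e (k2 s hs l).ne'

/-- a circle which contains a segment -/
theorem bd_split (hB : IsCircle B) {a b : E} (hs : segment ℝ a b ⊆ B) :
    ∃ c A₁ A₂, IsArc A₁ a c ∧ IsArc A₂ b c ∧ B = segment ℝ a b ∪ (A₁ ∪ A₂) ∧
      A₁ ∩ segment ℝ a b ⊆ {a} ∧ A₂ ∩ segment ℝ a b ⊆ {b} ∧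
      A₁ ∩ A₂ ⊆ segment ℝ a b ∪ {c} ∧ c ∉ segment ℝ a b := by
  rcases eq_or_ne a b with rfl | hab
  · obtain ⟨c, hc, hac⟩ := circle_other_point hB a
    obtain ⟨A₁, A₂, a1, a2, u, i⟩ := circle_arcs hB (hs (left_mem_segment ℝ a a)) hc hac
    rw [segment_same]
    refine ⟨c, A₁, A₂, a1, a2, ?_, inter_subset_right, inter_subset_right, i.subset, hac.symm⟩
    rw [u, union_eq_right.2 (singleton_subset_iff.2 (u.subset (Or.inl a1.left_mem)))]
  · obtain ⟨γ, h1, u, i, -⟩ := ARCS.compl arcs hB (isArc_segment hab) hs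
    obtain ⟨c, hc, hn⟩ := arc_inner_nonempty h1
    rw [mem_insert_iff, mem_singleton_iff, not_or] at hn
    obtain ⟨A₁, A₂, a1, a2, u', i'⟩ := arc_split h1 hc hn.1 hn.2
    have k : ∀ x ∈ A₁ ∪ A₂, x ∈ segment ℝ a b → x = a ∨ x = b := fun x hx hx' =>
      i.subset ⟨hx', u' ▸ hx⟩
    refine ⟨c, A₁, A₂, a1, a2.symm, by rw [u', u], fun x hx => ?_, fun x hx => ?_,
      i'.subset.trans subset_union_right, fun h => ?_⟩
    · refine (k x (Or.inl hx.1) hx.2).resolve_right fun e => hn.2 ?_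
      exact (i'.subset ⟨e ▸ hx.1, a2.right_mem⟩ : b = c).symm
    · refine (k x (Or.inr hx.1) hx.2).resolve_left fun e => hn.1 ?_
      exact (i'.subset ⟨a1.left_mem, e ▸ hx.1⟩ : a = c).symm
    · exact (k c (Or.inl a1.right_mem) h).elim hn.1 hn.2

/-- small levels contain no circles -/
theorem no_circle (hD : ConBall 2 D B) (hg : Continuous g) (h0 : ∀ x ∈ D \ B, 0 < g x) {c : E}
    (hc : c ∈ B) (hc' : 0 < g c) (hr : ∀ᶠ t in 𝓝[>] (0:ℝ), ∀ x ∈ D, g x = t →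
      x ∈ closure {y ∈ D | t < g y} ∧ x ∈ closure {y ∈ D | g y < t}) :
    ∀ᶠ τ in 𝓝[>] (0:ℝ), ∀ J, IsCircle J → Disjoint J B → ¬ J ⊆ {x ∈ D | g x = τ} := by
  obtain ⟨u, (u0 : 0 < u), hu⟩ := mem_nhdsGT_iff_exists_Ioo_subset.1 hr
  have ro : ∀ t : ℝ, Face.RO D {x ∈ D | t < g x} := fun t =>
    Face.ro_lt (f := fun _ => t) continuousOn_const hg.continuousOn
  have pc : IsPreconnected {x ∈ D | 0 < g x} :=
    hD.isConnected_int.2.subset_closure (fun x hx => ⟨hx.1, h0 x hx⟩)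
      fun x hx => hD.subset_closure_int hx.1
  have hK : ∀ᶠ τ in 𝓝 (0:ℝ), ∀ y ∈ D ∩ {x | u ≤ g x}, y ∈ D →
      y ∈ connectedComponentIn {x ∈ D | τ < g x} c := by
    refine (hD.isCompact.inter_right
      (isClosed_le continuous_const hg)).eventually_forall_of_forall_eventually fun y hy => ?_
    obtain ⟨A, a1, a2, a3, a4, a5⟩ : ∃ A, IsCompact A ∧ IsPreconnected A ∧ c ∈ A ∧ y ∈ A ∧
        A ⊆ {x ∈ D | 0 < g x} := by
      rcases eq_or_ne c y with rfl | h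
      · exact ⟨{c}, isCompact_singleton, isPreconnected_singleton, rfl, rfl,
          singleton_subset_iff.2 ⟨hy.1, hc'⟩⟩
      · obtain ⟨A, a1, a2, -⟩ := Face.join hD (ro 0) (pc.subset_connectedComponentIn
          ⟨hD.1 hc, hc'⟩ Subset.rfl ⟨hy.1, u0.trans_le hy.2⟩) h
        exact ⟨A, a1.isCompact, a1.isConnected.2, a1.left_mem, a1.right_mem, a2⟩
    obtain ⟨t, ht, (t0 : 0 < t)⟩ :=
      ((ev_lt a1 hg fun x hx => (a5 hx).2).and self_mem_nhdsWithin).exists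
    obtain ⟨O, -, hO, -, e, -⟩ := Face.comp_split hD (ro t) c
    have m : y ∈ D ∩ O := e.superset (a2.subset_connectedComponentIn a3
      (fun x hx => And.intro (a5 hx).1 (ht x hx)) a4)
    filter_upwards [continuous_fst.continuousAt.eventually (gt_mem_nhds t0),
      continuous_snd.continuousAt.eventually (hO.mem_nhds m.2)] with z z1 z2 z3
    refine connectedComponentIn_mono c (fun x hx => ?_) (e.subset ⟨z3, z2⟩)
    exact ⟨hx.1, z1.trans hx.2⟩
  filter_upwards [nhdsWithin_le_nhds hK] with τ hτ J hJ hJB hs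
  obtain ⟨Δ, d1, d2, -, d3, d4, -⟩ := cid hD hJ fun x hx => (hs hx).1
  obtain ⟨z, hz⟩ := d2.isConnected_int.1
  obtain ⟨x₀, m0, n0⟩ := d2.isCompact.exists_isMinOn ⟨z, hz.1⟩ hg.continuousOn
  obtain ⟨x₁, m1, n1⟩ := d2.isCompact.exists_isMaxOn ⟨z, hz.1⟩ hg.continuousOn
  rcases le_or_gt u (g x₁) with l | l
  · have h1 := hτ x₁ ⟨d1 m1, l⟩ (d1 m1)
    have h2 := Lam.sub_of_meet hD d2 d1 isPreconnected_connectedComponentIn (fun x hx =>
      have k := connectedComponentIn_subset _ _ hx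
      ⟨k.1, fun k' => k.2.ne' (hs k').2⟩) ⟨x₁, h1, m1⟩
    exact disjoint_left.1 d3 ⟨h2 (mem_connectedComponentIn
      (connectedComponentIn_nonempty_iff.1 ⟨x₁, h1⟩)), disjoint_right.1 hJB hc⟩ hc
  · have k : ∀ x ∈ Δ \ J, (∃ y ∈ Δ, g x < g y) ∧ ∃ y ∈ Δ, g y < g x := fun x hx => by
      obtain ⟨k1, k2⟩ := hu ⟨h0 x ⟨d1 hx.1, disjoint_left.1 d3 hx⟩, (n1 hx.1).trans_lt l⟩ x
        (d1 hx.1) rfl
      obtain ⟨V, hV, hV'⟩ := mem_nhdsWithin_iff_exists_mem_nhds_inter.1 (d4 x hx)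
      obtain ⟨y, y1, y2⟩ := mem_closure_iff_nhds.1 k1 V hV
      obtain ⟨w, w1, w2⟩ := mem_closure_iff_nhds.1 k2 V hV
      exact ⟨⟨y, hV' ⟨y1, y2.1⟩, y2.2⟩, w, hV' ⟨w1, w2.1⟩, w2.2⟩
    have j0 : x₀ ∈ J := by
      by_contra h
      obtain ⟨y, y1, y2⟩ := (k x₀ ⟨m0, h⟩).2
      exact y2.not_ge (n0 y1)
    have j1 : x₁ ∈ J := by
      by_contra h
      obtain ⟨y, y1, y2⟩ := (k x₁ ⟨m1, h⟩).1
      exact y2.not_ge (n1 y1)
    obtain ⟨y, y1, y2⟩ := (k z hz).1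
    have e0 : g x₀ ≤ g z := n0 hz.1
    have e1 : g y ≤ g x₁ := n1 y1
    linarith [(hs j0).2, (hs j1).2]

/-- small levels of a function whose zero set is a segment in the boundary -/
theorem level [FiniteDimensional ℝ E] (h4 : P4) {U V : Set E} {a b : E} (hD : ConBall 2 D B)
    (hg : PLOn g univ) (h0 : ∀ x, 0 ≤ g x) (hz : {x ∈ D | g x = 0} = segment ℝ a b)
    (hB : segment ℝ a b ⊆ B) (hU : U ∈ 𝓝 a) (hV : V ∈ 𝓝 b) :
    ∀ᶠ τ in 𝓝[>] (0:ℝ), ∃ p q, IsArc {x ∈ D | g x = τ} p q ∧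
      ConBall 2 {x ∈ D | τ ≤ g x} ({x ∈ D | g x = τ} ∪ {x ∈ B | τ ≤ g x}) ∧
      IsPreconnected {x ∈ B | τ ≤ g x} ∧ {x ∈ B | g x = τ} = {p, q} ∧ p ∈ U ∧ q ∈ V ∧
      {x ∈ B | g x ≤ τ} = segment ℝ a p ∪ segment ℝ a b ∪ segment ℝ b q := by
  obtain ⟨c, A₁, A₂, a1, a2, hBe, i1, i2, i3, hc⟩ := bd_split hD.isCircleD hB
  have gc := continuousOn_univ.1 hg.1
  have s1 : A₁ ⊆ B := fun x hx => hBe ▸ Or.inr (Or.inl hx)
  have s2 : A₂ ⊆ B := fun x hx => hBe ▸ Or.inr (Or.inr hx)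
  have z1 : ∀ x ∈ D, x ∉ segment ℝ a b → 0 < g x := fun x hx hn =>
    (h0 x).lt_of_ne fun e => hn (hz.subset ⟨hx, e.symm⟩)
  have z2 : ∀ x ∈ segment ℝ a b, g x = 0 := fun x hx => (hz.superset hx).2
  have c0 := z1 c (hD.1 (s1 a1.right_mem)) hc
  obtain ⟨T, hT, hP⟩ := h4 hD (pl_mono hg hD.conicalSet (subset_univ _))
  have e0 : ∀ᶠ t in 𝓝[>] (0:ℝ), t ∉ T := by
    filter_upwards [self_mem_nhdsWithin, nhdsWithin_le_nhds
      ((hT.subset (sdiff_subset (t := {0}))).isClosed.isOpen_compl.mem_nhds fun h => h.2 rfl)]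
      with t (t0 : 0 < t) ht h
    exact ht ⟨h, t0.ne'⟩
  filter_upwards [e0, self_mem_nhdsWithin,
    arc_cut a1 hg (z2 a (left_mem_segment ℝ a b))
      (fun x hx h => z1 x (hD.1 (s1 hx)) fun k => h (i1 ⟨hx, k⟩)) hU,
    arc_cut a2 hg (z2 b (right_mem_segment ℝ a b))
      (fun x hx h => z1 x (hD.1 (s2 hx)) fun k => h (i2 ⟨hx, k⟩)) hV,
    no_circle hD gc (fun x hx => z1 x hx.1 fun k => hx.2 (hB k)) (s1 a1.right_mem) c0
      (e0.mono fun t ht x hx e =>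
        let ⟨_, _, _, _, _, _, k⟩ := (hP t ht).2.1 x hx e univ univ_mem
        k)] with τ hτ (t0 : 0 < τ) ⟨p, p1, p2, p3, p4, p5⟩ ⟨q, q1, q2, q3, q4, q5⟩ nc
  have b1 : IsArc {x ∈ B | τ ≤ g x} p q := by
    have e : {x ∈ B | τ ≤ g x} = {x ∈ A₁ | τ ≤ g x} ∪ {x ∈ A₂ | τ ≤ g x} := by
      refine Subset.antisymm (fun x hx => ?_) (union_subset (fun x hx => ⟨s1 hx.1, hx.2⟩)
        fun x hx => ⟨s2 hx.1, hx.2⟩)
      rcases hBe.subset hx.1 with h | h | h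
      · exact absurd hx.2 (by rw [z2 x h]; exact t0.not_ge)
      · exact Or.inl ⟨h, hx.2⟩
      · exact Or.inr ⟨h, hx.2⟩
    rw [e]
    refine p4.trans q4.symm fun x hx => (i3 ⟨hx.1.1, hx.2.1⟩).resolve_left fun h => ?_
    exact absurd hx.1.2 (by rw [z2 x h]; exact t0.not_ge)
  have b2 : {x ∈ B | g x = τ} = {p, q} := by
    refine Subset.antisymm (fun x hx => ?_) (pair_subset ⟨b1.left_mem.1, p2⟩ ⟨b1.right_mem.1, q2⟩)
    rcases hBe.subset hx.1 with h | h | h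
    · exact absurd hx.2 (by rw [z2 x h]; exact t0.ne)
    · exact Or.inl (p5 x h hx.2)
    · exact Or.inr (q5 x h hx.2)
  obtain ⟨⟨𝒞, l1, l2, l3⟩, -⟩ := hP τ hτ
  have l4 : ∀ β ∈ 𝒞, IsArc β p q := fun β hβ => by
    have sb : β ⊆ {x ∈ D | g x = τ} := l1 ▸ subset_biUnion_of_mem (u := fun c => c) hβ
    rcases l3 β hβ with h | ⟨p', q', h1, h2⟩
    · exact absurd sb (nc β h.1 h.2)
    · have m : ∀ x ∈ ({p', q'} : Set E), x = p ∨ x = q := fun x hx =>
        b2.subset ⟨(h2.superset hx).2, (sb (h2.superset hx).1).2⟩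
      rcases m p' (Or.inl rfl) with rfl | rfl <;> rcases m q' (Or.inr rfl) with rfl | rfl
      · exact absurd rfl h1.ne
      · exact h1
      · exact h1.symm
      · exact absurd rfl h1.ne
  have l5 : IsArc {x ∈ D | g x = τ} p q := by
    obtain ⟨β, hβ, -⟩ := mem_iUnion₂.1 (l1.subset ⟨hD.1 b1.left_mem.1, p2⟩)
    have e : {x ∈ D | g x = τ} = β := by
      rw [l1]
      refine Subset.antisymm (iUnion₂_subset fun β' h => ?_)
        (subset_biUnion_of_mem (u := fun c => c) hβ)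
      by_contra k
      exact disjoint_left.1 (l2 β' h β hβ fun e => k e.subset) (l4 β' h).left_mem
        (l4 β hβ).left_mem
    rw [e]
    exact l4 β hβ
  obtain ⟨γ, g1, g2, g3, -⟩ := ARCS.compl arcs hD.isCircleD b1 fun x hx => hx.1
  obtain ⟨D₁, D₂, d1, d2, d3, d4, -⟩ := xc hD l5 (fun x hx => hx.1)
    (b2 ▸ Set.ext fun x => ⟨fun h => ⟨h.2, h.1.2⟩, fun h => ⟨⟨hD.1 h.1, h.2⟩, h.1⟩⟩) b1 g1 g2 g3
  have pc : ∀ {Δ X : Set E}, ConBall 2 Δ ({x ∈ D | g x = τ} ∪ X) →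
      IsPreconnected (Δ \ {x ∈ D | g x = τ}) := fun h =>
    h.isConnected_int.2.subset_closure (sdiff_subset_sdiff_right subset_union_left)
      fun x hx => h.subset_closure_int hx.1
  have ct : τ < g c := p4.right_mem.2.lt_of_ne fun e =>
    p4.ne (p5 c a1.right_mem e.symm).symm
  have ga := z2 a (left_mem_segment ℝ a b)
  have e : {x ∈ D | τ ≤ g x} = D₁ := by
    refine Subset.antisymm (fun x hx => ?_) fun x hx => ⟨d3 ▸ Or.inl hx, ?_⟩
    · refine (d3.superset hx.1).elim id fun h => ?_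
      by_contra k
      refine ((pc d2).gt_of_ne gc.continuousOn (fun y hy e => hy.2 ⟨d3 ▸ Or.inr hy.1, e⟩)
        ⟨a, ⟨d2.1 (Or.inr ((g2.superset (s1 a1.left_mem)).resolve_left fun l => ?_)),
          fun l => ?_⟩, ga ▸ t0⟩ ⟨h, fun l => k (d4.superset l).1⟩).not_ge hx.2
      · exact absurd l.2 (by rw [ga]; exact t0.not_ge)
      · exact absurd l.2 (by rw [ga]; exact t0.ne)
    · by_contra k
      exact k ((pc d1).lt_of_ne gc.continuousOn (fun y hy e => hy.2 ⟨d3 ▸ Or.inl hy.1, e⟩)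
        ⟨c, ⟨d1.1 (Or.inr ⟨s1 a1.right_mem, ct.le⟩), fun l => ct.ne' l.2⟩, ct⟩
        ⟨hx, fun l => k l.2.ge⟩).le
  refine ⟨p, q, l5, e ▸ d1, b1.isConnected.2, b2, p1, q1, ?_⟩
  rw [← p3, ← q3]
  refine Subset.antisymm (fun x hx => ?_) (union_subset (union_subset
    (fun x hx => ⟨s1 hx.1, hx.2⟩) fun x hx => ⟨hB hx, z2 x hx ▸ t0.le⟩) fun x hx => ⟨s2 hx.1, hx.2⟩)
  rcases hBe.subset hx.1 with h | h | h
  · exact Or.inl (Or.inr h)
  · exact Or.inl (Or.inl ⟨h, hx.2⟩)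
  · exact Or.inr ⟨h, hx.2⟩

/-- two triangles on a common base in a disc -/
theorem two_tri [FiniteDimensional ℝ E] (hD : ConBall 2 D B) {x d z z' : E} (hd : d ≠ 0)
    (hx : x ∈ B) (L : E →ᵃ[ℝ] ℝ × ℝ) (hL : L x = 0) (hLd : L.linear d = 0)
    (hn : ‖L z‖ = ‖L z'‖) (hz : L z ≠ 0) (h1 : convexHull ℝ {x - d, x + d, z} ⊆ D)
    (h2 : convexHull ℝ {x - d, x + d, z'} ⊆ D) : L z = L z' := by
  by_contra hne
  have aff : ∀ p v, L (p + v) = L p + L.linear v := fun p v => by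
    rw [add_comm p, ← vadd_eq_add, L.map_vadd, vadd_eq_add, add_comm]
  have n1 : x ≠ x - d := fun e => hd (sub_eq_self.1 e.symm)
  have n2 : x ≠ x + d := fun e => hd (add_eq_left.1 e.symm)
  have mx : x ∈ segment ℝ (x - d) (x + d) := mem_segment_sub_add x d
  have hβ := isArc_segment (p := x - d) (q := x + d) fun e => by
    rw [← e, segment_same] at mx
    exact n1 mx
  have z0 : ∀ u ∈ segment ℝ (x - d) (x + d), L u = 0 := by
    rintro _ ⟨α, β, -, -, h, rfl⟩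
    rw [Convex.combo_affine_apply h, sub_eq_add_neg, aff, aff, map_neg, hL, hLd]
    simp
  have ray : ∀ w, ∀ u ∈ segment ℝ (x - d) (x + d), ∀ s : ℝ,
      L (w + s • (u - w)) = (1 - s) • L w := fun w u hu s => by
    rw [aff, map_smul, ← vsub_eq_sub, L.linearMap_vsub, z0 u hu, vsub_eq_sub, sub_smul, one_smul,
      zero_sub, smul_neg, sub_eq_add_neg]
  have ball : ∀ w, L w ≠ 0 → ConBall 2 (coneSetAt w (segment ℝ (x - d) (x + d)))
      (segment ℝ (x - d) (x + d) ∪ coneSetAt w {x - d, x + d}) := fun w hw =>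
    (coneb (n := 0) (rayBaseAt_iff.2 ⟨hβ.isCompact, fun h => hw (z0 w h), fun u hu s _ h => by
      have k := z0 _ h
      rw [ray w u hu] at k
      exact (sub_eq_zero.1 ((smul_eq_zero.1 k).resolve_right hw)).symm⟩)).2.1
      (conBall_one_iff.2 ⟨_, _, hβ, rfl⟩)
  have sub : ∀ w, coneSetAt w (segment ℝ (x - d) (x + d)) ⊆ convexHull ℝ {x - d, x + d, w} := by
    rintro w _ ⟨s, hs, u, hu, rfl⟩
    exact (convex_convexHull ℝ _).add_smul_sub_mem (subset_convexHull ℝ _ (by simp))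
      ((convex_convexHull ℝ _).segment_subset (subset_convexHull ℝ _ (by simp))
        (subset_convexHull ℝ _ (by simp)) hu) hs
  have hz' : L z' ≠ 0 := fun e => hz (norm_eq_zero.1 (by rw [hn, e, norm_zero]))
  have hU := uni (ball z hz) (ball z' hz') hβ (Subset.antisymm (by
      rintro y ⟨⟨s, hs, u, hu, rfl⟩, s', hs', u', hu', e⟩
      have k := congrArg L e
      rw [ray z u hu, ray z' u' hu'] at k
      have k' := congrArg norm k
      rw [norm_smul, norm_smul, hn, Real.norm_of_nonneg (sub_nonneg.2 hs.2),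
        Real.norm_of_nonneg (sub_nonneg.2 hs'.2)] at k'
      rw [← mul_right_cancel₀ (norm_ne_zero_iff.2 hz') k'] at k
      have k1 : 1 - s = 0 := by
        by_contra l
        exact hne (smul_right_injective _ l k)
      rwa [← sub_eq_zero.1 k1, one_smul, add_sub_cancel])
    (subset_inter (subset_union_left.trans (ball z hz).1)
      (subset_union_left.trans (ball z' hz').1))) subset_union_left subset_union_left
  exact disjoint_left.1 (Lam.sub_open hD hU (union_subset ((sub z).trans h1)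
    ((sub z').trans h2))).1 ⟨Or.inl ((ball z hz).1 (Or.inl mx)),
      fun h => h.2 ⟨mx, fun k => k.elim n1 n2⟩⟩ hx

end Gen

variable (F : Fr) {a b : Fin 3} {x z : E3} {τ : ℝ}

theorem pl_aff (A : E3 →ᵃ[ℝ] ℝ) : PLOn A univ :=
  ⟨A.continuous_of_finiteDimensional.continuousOn, conicalOn_of_affine A conicalSet_univ⟩

theorem pl_n : PLOn F.n univ :=
  pl_max (pl_abs (pl_min (pl_aff _) (pl_min (pl_aff _) (pl_aff _)))) (pl_abs (pl_aff _))

theorem n_nonneg (x : E3) : 0 ≤ F.n x := le_max_of_le_left (abs_nonneg _)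

theorem m_le (x : E3) (i : Fin 3) : F.m x ≤ F.l i x := by
  fin_cases i
  · exact min_le_left _ _
  · exact (min_le_right _ _).trans (min_le_left _ _)
  · exact (min_le_right _ _).trans (min_le_right _ _)

theorem m_eq (x : E3) : ∃ i, F.m x = F.l i x := by
  rcases min_choice (F.l 0 x) (min (F.l 1 x) (F.l 2 x)) with h | h
  · exact ⟨0, h⟩
  · rcases min_choice (F.l 1 x) (F.l 2 x) with h' | h'
    · exact ⟨1, h.trans h'⟩
    · exact ⟨2, h.trans h'⟩

theorem of_seg (hx : x ∈ segment ℝ (F.y a) (F.y b)) :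
    F.s x = 0 ∧ ∀ i, 0 ≤ F.l i x ∧ (i ≠ a → i ≠ b → F.l i x = 0) := by
  obtain ⟨α, β, h1, h2, h, rfl⟩ := hx
  refine ⟨by rw [Convex.combo_affine_apply h, F.s_y, F.s_y]; simp, fun i => ?_⟩
  rw [Convex.combo_affine_apply h, F.l_y, F.l_y, smul_eq_mul, smul_eq_mul]
  exact ⟨by positivity, fun ha hb => by simp [ha, hb]⟩

theorem n_zero : F.n x = 0 ↔ x ∈ sides F.y := by
  constructor
  · intro h
    have h1 : F.m x = 0 := abs_nonpos_iff.1 ((le_max_left _ _).trans h.le)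
    have h2 : F.s x = 0 := abs_nonpos_iff.1 ((le_max_right _ _).trans h.le)
    have h3 : ∀ i, 0 ≤ F.l i x := fun i => h1 ▸ m_le F x i
    obtain ⟨i, hi⟩ := m_eq F x
    have h4 := F.sum x
    have h5 := F.rep x
    rw [h1] at hi
    rw [h2, zero_smul, add_zero] at h5
    refine mem_iUnion.2 ⟨i, ?_⟩
    fin_cases i
    · have k : F.l 0 x = 0 := hi.symm
      rw [k, zero_smul, zero_add] at h5
      exact ⟨_, _, h3 1, h3 2, by linarith, h5.symm⟩
    · have k : F.l 1 x = 0 := hi.symm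
      rw [k, zero_smul, add_zero, add_comm] at h5
      exact ⟨_, _, h3 2, h3 0, by linarith, h5.symm⟩
    · have k : F.l 2 x = 0 := hi.symm
      rw [k, zero_smul, add_zero] at h5
      exact ⟨_, _, h3 0, h3 1, by linarith, h5.symm⟩
  · intro h
    obtain ⟨k, hk⟩ := mem_iUnion.1 h
    obtain ⟨h1, h2⟩ := of_seg F hk
    obtain ⟨i, hi⟩ := m_eq F x
    have h3 : F.m x = 0 := le_antisymm ((m_le F x k).trans_eq
      ((h2 k).2 (by fin_cases k <;> decide) (by fin_cases k <;> decide))) (hi ▸ (h2 i).1)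
    rw [Fr.n, h1, h3, abs_zero, max_self]

theorem closed_S (j : Fin 3) : IsClosed (F.S j) := by
  rw [Fr.S, ofPred_forall]
  exact isClosed_iInter fun i => isClosed_le
    (continuous_const.mul (F.l i).continuous_of_finiteDimensional)
    (continuous_const.mul (F.l j).continuous_of_finiteDimensional)

theorem Z_nhds (a : Fin 3) : F.Z {a} ∈ 𝓝 (F.y a) := by
  refine eventually_all.2 fun j => ?_
  by_cases h : j = a
  · exact Eventually.of_forall fun x k => absurd h k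
  · filter_upwards [(closed_S F j).isOpen_compl.mem_nhds (x := F.y a) fun k => by
      have k1 := k a
      rw [F.l_y, F.l_y, if_pos rfl, if_neg h] at k1
      linarith [(F.w_mem a).1]] with x hx _
    exact hx

theorem third (hab : a ≠ b) : ∃ k, k ≠ a ∧ k ≠ b ∧ (∀ i, i = a ∨ i = b ∨ i = k) ∧
    ∀ x, F.l a x + F.l b x + F.l k x = 1 := by
  obtain ⟨k, h1, h2, h3⟩ : ∃ k, k ≠ a ∧ k ≠ b ∧ ∀ i, i = a ∨ i = b ∨ i = k := by
    revert a b
    decide
  refine ⟨k, h1, h2, h3, fun x => ?_⟩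
  have h := F.sum x
  rw [← Fin.sum_univ_three (fun i => F.l i x), show (Finset.univ : Finset (Fin 3)) = {a, b, k} from
    Finset.ext fun i => by simpa using h3 i, Finset.sum_insert (by simp [hab, h1.symm]),
    Finset.sum_pair h2.symm] at h
  linarith

theorem not_S {j : Fin 3} (hx : x ∈ F.S j) (h0 : F.l j x = 0) : False := by
  have h : ∀ i, F.l i x ≤ 0 := fun i => by
    have k := hx i
    rw [h0, mul_zero] at k
    exact nonpos_of_mul_nonpos_right k (zero_lt_one.trans_le (F.w_mem i).1)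
  linarith [F.sum x, h 0, h 1, h 2]

/-- at most one point of the face on the wall -/
theorem once {D B : Set E3} (hD : ConBall 2 D B) (hab : a ≠ b)
    (h1 : D ∩ sides F.y = segment ℝ (F.y a) (F.y b)) (h2 : D ∩ sides F.y ⊆ B) (hF : F.Flat D) :
    ∀ᶠ τ in 𝓝[>] (0:ℝ), (D ∩ F.T τ ∩ F.S a ∩ F.S b).Subsingleton := by
  obtain ⟨k, ka, kb, k3, k4⟩ := third F hab
  obtain ⟨wa, wa'⟩ := F.w_mem a
  obtain ⟨wb, wb'⟩ := F.w_mem b
  have ext : ∀ z z', z ∈ F.S a → z ∈ F.S b → z' ∈ F.S a → z' ∈ F.S b → F.l k z = F.l k z' →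
      F.s z = F.s z' → z = z' := fun z z' a1 b1 a2 b2 e1 e2 => by
    have e3 : F.l a z = F.l a z' := by
      refine mul_left_cancel₀ (a := F.w a + F.w b) (by positivity) ?_
      have l1 := le_antisymm (a1 b) (b1 a)
      have l2 := le_antisymm (a2 b) (b2 a)
      linear_combination l2 - l1 + F.w b * (k4 z - k4 z' - e1)
    have e4 : ∀ i, F.l i z = F.l i z' := fun i => by
      rcases k3 i with rfl | rfl | rfl
      · exact e3
      · linarith [k4 z, k4 z']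
      · exact e1
    rw [F.rep z, F.rep z', e4, e4, e4, e2]
  obtain ⟨α, β, α0, β0, hs, hw⟩ : ∃ α β : ℝ, 0 ≤ α ∧ 0 ≤ β ∧ α + β = 1 ∧
      F.w a * α = F.w b * β :=
    ⟨F.w b / (F.w a + F.w b), F.w a / (F.w a + F.w b), by positivity, by positivity,
      by field_simp; ring, by ring⟩
  obtain ⟨x, hx, xa, xb⟩ : ∃ x ∈ segment ℝ (F.y a) (F.y b), F.l a x = α ∧ F.l b x = β :=
    ⟨_, ⟨α, β, α0, β0, hs, rfl⟩, by simp [Convex.combo_affine_apply hs, F.l_y, hab],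
      by simp [Convex.combo_affine_apply hs, F.l_y, hab.symm]⟩
  have xk := ((of_seg F hx).2 k).2 ka kb
  have sa : x ∈ F.S a := fun i => by
    rcases k3 i with rfl | rfl | rfl
    · exact le_rfl
    · rw [xa, xb, hw]
    · rw [xa, xk, mul_zero]
      positivity
  have sb : x ∈ F.S b := fun i => (sa i).trans_eq (by rw [xa, xb, hw])
  obtain ⟨r, r0, hr⟩ := hF a b hab x (h1.superset hx).2 sa sb
  filter_upwards [Ioo_mem_nhdsGT (show (0:ℝ) < 1 / 6 by norm_num),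
    ev_lt (((hD.isCompact.inter_right (closed_S F a)).inter_right (closed_S F b)).diff
      (isOpen_ball (x := x) (ε := r))) (continuousOn_univ.1 (pl_n F).1) fun z hz =>
      (n_nonneg F z).lt_of_ne fun e => by
        obtain ⟨l1, l2⟩ := of_seg F (h1.subset ⟨hz.1.1.1, (n_zero F).1 e.symm⟩)
        refine hz.2 ?_
        rw [ext z x hz.1.1.2 hz.1.2 sa sb (((l2 k).2 ka kb).trans xk.symm)
          (l1.trans (of_seg F hx).1.symm)]
        exact mem_ball_self r0] with τ ht hτ z hz z' hz'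
  have key : ∀ z ∈ D ∩ F.T τ ∩ F.S a ∩ F.S b, dist z x ≤ r ∧ ‖(F.l k).prod F.s z‖ = τ := by
    intro z hz
    have e : F.n z = τ := hz.1.1.2
    refine ⟨not_lt.1 fun l => (hτ z ⟨⟨⟨hz.1.1.1, hz.1.2⟩, hz.2⟩,
      fun k => (mem_ball.1 k).not_gt l⟩).ne' e, Eq.trans ?_ e⟩
    obtain ⟨i, hi⟩ := m_eq F z
    have l1 : F.l i z ≤ τ := hi ▸ (le_abs_self _).trans ((le_max_left _ _).trans e.le)
    have l2 : ∀ c, z ∈ F.S c → τ < F.l c z := fun c hc => by
      by_contra l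
      have l3 : ∀ j, F.l j z ≤ 2 * τ := fun j => by
        nlinarith [hc j, (F.w_mem j).1, (F.w_mem c).1, (F.w_mem c).2, ht.1, not_lt.1 l,
          le_max_left (F.l j z) 0, le_max_right (F.l j z) 0]
      linarith [F.sum z, l3 0, l3 1, l3 2, ht.2]
    rcases k3 i with rfl | rfl | rfl
    · exact absurd l1 (l2 _ hz.1.2).not_ge
    · exact absurd l1 (l2 _ hz.2).not_ge
    · rw [Fr.n, hi]
      rfl
  have yab : F.y b - F.y a ≠ 0 := fun e => by
    have l := F.l_y a a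
    rw [← sub_eq_zero.1 e, F.l_y, if_neg hab, if_pos rfl] at l
    exact zero_ne_one l
  have lin : ∀ A : E3 →ᵃ[ℝ] ℝ, A (F.y a) = 0 → A (F.y b) = 0 →
      A.linear (r • (F.y b - F.y a)) = 0 := fun A l1 l2 => by
    rw [map_smul, ← vsub_eq_sub, A.linearMap_vsub, l1, l2, vsub_self, smul_zero]
  have e := two_tri hD (smul_ne_zero r0.ne' yab) (h2 (h1.superset hx)) ((F.l k).prod F.s)
    (Prod.ext xk (of_seg F hx).1) (Prod.ext
      (lin _ (by rw [F.l_y, if_neg ka]) (by rw [F.l_y, if_neg kb])) (lin _ (F.s_y a) (F.s_y b)))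
    ((key z hz).2.trans (key z' hz').2.symm)
    (fun e => ht.1.ne' (by rw [← (key z hz).2, e, norm_zero]))
    (hr z hz.1.1.1 (key z hz).1) (hr z' hz'.1.1.1 (key z' hz').1)
  exact ext z z' hz.1.2 hz.2 hz'.1.2 hz'.2 (congrArg Prod.fst e) (congrArg Prod.snd e)

end Cut

open Cut in
theorem flcut_p4 (h4 : P4) : FLCUT := by
  intro F D B a b hD h1 h2 hF
  have hZ : ∀ᶠ τ in 𝓝[>] (0:ℝ), ∀ j, j ∉ ({a, b} : Set (Fin 3)) →
      ∀ x ∈ D ∩ F.S j, τ < F.n x := by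
    refine eventually_all.2 fun j => ?_
    by_cases h : j ∈ ({a, b} : Set (Fin 3))
    · exact Eventually.of_forall fun x k => absurd h k
    · rw [mem_insert_iff, mem_singleton_iff, not_or] at h
      exact (ev_lt (hD.isCompact.inter_right (closed_S F j)) (continuousOn_univ.1 (pl_n F).1)
        fun z hz => (n_nonneg F z).lt_of_ne fun e => not_S F hz.2 (((of_seg F
          (h1.subset ⟨hz.1, (n_zero F).1 e.symm⟩)).2 j).2 h.1 h.2)).mono fun τ k _ => k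
  have hO : ∀ᶠ τ in 𝓝[>] (0:ℝ), a ≠ b → (D ∩ F.T τ ∩ F.S a ∩ F.S b).Subsingleton := by
    by_cases h : a = b
    · exact Eventually.of_forall fun x k => absurd h k
    · exact (once F hD h h1 h2 hF).mono fun τ k _ => k
  filter_upwards [hZ, hO, level h4 hD (pl_n F) (n_nonneg F)
    (h1 ▸ Set.ext fun x => and_congr_right fun _ => n_zero F) (h1 ▸ h2) (Z_nhds F a)
    (Z_nhds F b)] with τ k1 k2 ⟨p, q, l1, l2, l3, l4, l5, l6, l7⟩
  have k3 : D ∩ F.T τ ⊆ F.Z {a, b} := fun x hx j hj h => (k1 j hj x ⟨hx.1, h⟩).ne' hx.2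
  refine ⟨p, q, l1, l2, l3, l4, l5, l6, l7, k3, fun c d hcd x hx => ?_⟩
  have m : ∀ j, x ∈ F.S j → j = a ∨ j = b := fun j hj => by
    by_contra l
    exact k3 hx.1.1 j l hj
  rcases m c hx.1.2 with rfl | rfl <;> rcases m d hx.2 with rfl | rfl
  · exact absurd rfl hcd
  · exact k2 hcd hx
  · exact (inter_right_comm _ _ _ ▸ k2 hcd.symm :) hx
  · exact absurd rfl hcd

theorem flcut_of (h4 : P4) (_ : FLY) : FLCUT := flcut_p4 h4

theorem flcut : FLCUT := flcut_p4 p4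

end P073
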