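import Vale.Agent.P073Z.FLAT.Fr
import Vale.Agent.P073Z.FLAT.Face
import Vale.Agent.P073Z.A14

/-!
# Moving the outer parts of the faces off the inner triangle
-/

open Set Metric Topology Filter

namespace P073

namespace Fr

variable (F : Fr)

/-- the surgery in one face -/
theorem face_step {D B' : Set E3} {J : Set (Fin 3)} {τ h t : ℝ} (𝒞 : Finset (Set E3))
    (C L : Set E3 → Set E3) (h0 : 0 < t) (hth : t < h)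
    (hD : ConBall 2 D ((D ∩ F.T τ) ∪ B')) (hn : ∀ x ∈ D, τ ≤ F.n x) (hpre : IsPreconnected B')
    (hne : B'.Nonempty) (hB' : ∀ x ∈ B', h < F.g τ x) (hJ : J ≠ univ) (hZ : D ∩ F.T τ ⊆ F.Z J)
    (hO : F.Once (D ∩ F.T τ)) (hlev : {x ∈ D | F.g τ x = t} = ⋃ c ∈ 𝒞, c)
    (hdis : ∀ c ∈ 𝒞, ∀ c' ∈ 𝒞, c ≠ c' → Disjoint c c' ∧ Disjoint (C c) (C c'))
    (hk : ∀ c ∈ 𝒞, (IsCircle c ∧ Disjoint c ((D ∩ F.T τ) ∪ B')) ∨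
      ∃ p q, IsArc c p q ∧ c ∩ ((D ∩ F.T τ) ∪ B') = {p, q})
    (hC : ∀ c ∈ 𝒞, ConBall 2 (C c) (L c) ∧ c ⊆ L c ∧ (IsCircle c → L c = c) ∧
      (∀ x ∈ C c, τ ≤ F.m x ∧ 0 < |F.s x| ∧ |F.s x| ≤ t ∧ (|F.s x| = t → x ∈ c)) ∧
      C c ∩ F.T τ ⊆ L c ∧ L c \ c ⊆ F.T τ ∩ F.Z J ∧ F.Once (L c \ c) ∧
      ∀ a b, a ≠ b → ((L c \ c) ∩ F.S a ∩ F.S b).Nonempty → ∃ p q, c ∩ F.T τ = {p, q} ∧
        F.w a * F.l a p < F.w b * F.l b p ∧ F.w b * F.l b q < F.w a * F.l a q) :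
    ∃ D' : Set E3, ((∃ Φ : ConHomeo D D', (∀ x ∈ B', Φ.toFun x = x) ∧
        Φ.toFun '' (D ∩ F.T τ) = D' ∩ F.T τ) ∧
      (∀ x ∈ D', τ ≤ F.n x ∧ 0 < F.g τ x ∧ (x ∈ D ∨ F.g τ x ≤ h)) ∧
      D' ∩ F.T τ ⊆ F.Z J ∧ F.Once (D' ∩ F.T τ) ∧ ((∀ x ∈ D, h < F.g τ x) → D' = D)) ∧
      ∀ y ∈ D', (y ∈ D ∧ t ≤ F.g τ y) ∨ ∃ c ∈ 𝒞, y ∈ C c := by
  have hcD : ∀ c ∈ 𝒞, ∀ x ∈ c, x ∈ D ∧ F.g τ x = t := fun c hc x hx => by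
    have : x ∈ {x ∈ D | F.g τ x = t} := hlev ▸ mem_iUnion₂.2 ⟨c, hc, hx⟩
    exact this
  obtain ⟨𝒪, β, D', Φ, h𝒪, o1, o2, o3, o4, o5, o6⟩ := flface 𝒞 C L hD
    (F.continuous_g τ).continuousOn hlev hdis
    (fun c hc => ⟨(hC c hc).1, (hC c hc).2.1, fun y hy => by
      obtain ⟨k1, -, k3, k4⟩ := (hC c hc).2.2.2.1 y hy
      rw [F.g_eq_of_le_m k1]
      exact ⟨k3, k4⟩⟩)
    subset_union_right hpre hne (fun y hy => hth.trans (hB' y hy))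
    (fun c hc => (hk c hc).imp (fun k => ⟨k.1, k.2, (hC c hc).2.2.1 k.1⟩) id)
  have hβ : ∀ c ∈ 𝒪, β c ⊆ D ∩ F.T τ := fun c hc x hx =>
    ((o4 c hc).2.1 hx).1.resolve_right ((o4 c hc).2.1 hx).2
  have key : ∀ x ∈ D ∩ F.T τ, (Φ.toFun x = x ∧ ∀ c ∈ 𝒪, x ∉ β c \ c) ∨
      ∃ c ∈ 𝒪, Φ.toFun x ∈ L c \ c := fun x hx => by
    by_cases k : ∀ c ∈ 𝒪, x ∉ β c \ c
    · exact Or.inl ⟨o6 x (Or.inl hx) k, k⟩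
    · push Not at k
      obtain ⟨c, hc, k⟩ := k
      exact Or.inr ⟨c, hc, (o4 c hc).2.2.2.2 ▸ mem_image_of_mem _ k⟩
  have himg : Φ.toFun '' (D ∩ F.T τ) = D' ∩ F.T τ := by
    refine Subset.antisymm ?_ fun y hy => ?_
    · rintro _ ⟨x, hx, rfl⟩
      refine ⟨Φ.mapsTo hx.1, ?_⟩
      rcases key x hx with k | ⟨c, hc, k⟩
      · rw [k.1]
        exact hx.2
      · exact ((hC c (h𝒪 hc)).2.2.2.2.2.1 k).1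
    · rcases o1 y hy.1 with k | ⟨c, hc, k⟩
      · exact ⟨y, ⟨k.1, hy.2⟩, k.2.2⟩
      · by_cases j : y ∈ c
        · exact ⟨y, ⟨(hcD c (h𝒪 hc) y j).1, hy.2⟩, (o4 c hc).1 y j⟩
        · have : y ∈ L c \ c := ⟨(hC c (h𝒪 hc)).2.2.2.2.1 ⟨k, hy.2⟩, j⟩
          rw [← (o4 c hc).2.2.2.2] at this
          obtain ⟨x, hx, rfl⟩ := this
          exact ⟨x, hβ c hc hx.1, rfl⟩
  have key' : ∀ y ∈ D' ∩ F.T τ, (y ∈ D ∩ F.T τ ∧ ∀ c ∈ 𝒪, y ∉ β c \ c) ∨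
      ∃ c ∈ 𝒪, y ∈ L c \ c := fun y hy => by
    rw [← himg] at hy
    obtain ⟨x, hx, rfl⟩ := hy
    rcases key x hx with k | k
    · rw [k.1]
      exact Or.inl ⟨hx, k.2⟩
    · exact Or.inr k
  refine ⟨D', ⟨⟨Φ, o3, himg⟩, fun x hx => ?_, fun y hy => ?_, fun a b hab => ?_, fun k => o2 ?_⟩,
    fun y hy => (o1 y hy).imp (fun k => ⟨k.1, k.2.1⟩) fun ⟨c, hc, k⟩ => ⟨c, h𝒪 hc, k⟩⟩
  · rcases o1 x hx with k | ⟨c, hc, k⟩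
    · exact ⟨hn x k.1, h0.trans_le k.2.1, Or.inl k.1⟩
    · obtain ⟨k1, k2, k3, -⟩ := (hC c (h𝒪 hc)).2.2.2.1 x k
      rw [F.g_eq_of_le_m k1]
      exact ⟨F.le_n_of_le_m k1, k2, Or.inr (k3.trans hth.le)⟩
  · rcases key' y hy with k | ⟨c, hc, k⟩
    · exact hZ k.1
    · exact ((hC c (h𝒪 hc)).2.2.2.2.2.1 k).2
  · have cross : ∀ c ∈ 𝒪, ∀ y ∈ (L c \ c) ∩ F.S a ∩ F.S b,
        ∃ u ∈ β c \ c, u ∈ D ∩ F.T τ ∩ F.S a ∩ F.S b := by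
      intro c hc y hy
      obtain ⟨-, -, -, -, -, c1, -, c2⟩ := hC c (h𝒪 hc)
      obtain ⟨p, q, e, hp, hq⟩ := c2 a b hab ⟨y, hy⟩
      have hin : ∀ x ∈ ({p, q} : Set E3), x ∈ β c := fun x hx => by
        rw [← e] at hx
        exact (o4 c hc).2.2.2.1 ⟨hx.1, Or.inl ⟨(hcD c (h𝒪 hc) x hx.1).1, hx.2⟩⟩
      have hcont : Continuous fun x => F.w a * F.l a x - F.w b * F.l b x :=
        (continuous_const.mul (cont_aff _)).sub (continuous_const.mul (cont_aff _))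
      obtain ⟨u, hu, e'⟩ := (o4 c hc).2.2.1.intermediate_value (hin p (Or.inl rfl))
        (hin q (Or.inr rfl)) hcont.continuousOn ⟨(sub_neg.2 hp).le, (sub_pos.2 hq).le⟩
      replace e' := sub_eq_zero.1 e'
      obtain ⟨k, -, -, hk⟩ := third hab
      have ka := F.mem_of_S_Z hy.1.2 (c1 hy.1.1).2
      have kb := F.mem_of_S_Z hy.2 (c1 hy.1.1).2
      have kk : k ∉ J := fun kk => hJ (eq_univ_of_forall fun i => by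
        rcases hk i with rfl | rfl | rfl <;> assumption)
      have hw := (F.wall_iff hk (hZ (hβ c hc hu) k kk)).2 e'
      refine ⟨u, ⟨hu, fun j => ?_⟩, ⟨hβ c hc hu, hw.1⟩, hw.2⟩
      have : u ∈ c ∩ F.T τ := ⟨j, (hβ c hc hu).2⟩
      rw [e] at this
      rcases this with rfl | rfl
      · exact hp.ne e'
      · exact hq.ne' e'
    intro y hy y' hy'
    rcases key' y hy.1.1 with k | ⟨c, hc, k⟩ <;> rcases key' y' hy'.1.1 with k' | ⟨c', hc', k'⟩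
    · exact hO a b hab ⟨⟨k.1, hy.1.2⟩, hy.2⟩ ⟨⟨k'.1, hy'.1.2⟩, hy'.2⟩
    · obtain ⟨u, hu, j⟩ := cross c' hc' y' ⟨⟨k', hy'.1.2⟩, hy'.2⟩
      exact absurd (hO a b hab j ⟨⟨k.1, hy.1.2⟩, hy.2⟩ ▸ hu) (k.2 c' hc')
    · obtain ⟨u, hu, j⟩ := cross c hc y ⟨⟨k, hy.1.2⟩, hy.2⟩
      exact absurd (hO a b hab j ⟨⟨k'.1, hy'.1.2⟩, hy'.2⟩ ▸ hu) (k'.2 c hc)
    · obtain ⟨u, hu, j⟩ := cross c hc y ⟨⟨k, hy.1.2⟩, hy.2⟩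
      obtain ⟨u', hu', j'⟩ := cross c' hc' y' ⟨⟨k', hy'.1.2⟩, hy'.2⟩
      obtain rfl : u = u' := hO a b hab j j'
      obtain rfl : c = c' := by
        by_contra ne
        exact disjoint_left.1 (o5 c hc c' hc' ne) hu.1 hu'.1
      exact (hC c (h𝒪 hc)).2.2.2.2.2.2.1 a b hab ⟨⟨k, hy.1.2⟩, hy.2⟩ ⟨⟨k', hy'.1.2⟩, hy'.2⟩
  · refine Finset.eq_empty_of_forall_notMem fun c hc => ?_
    obtain ⟨x, hx⟩ : c.Nonempty := by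
      rcases hk c hc with j | ⟨p, q, j, -⟩
      · exact (A12.circle_isConnected j.1).nonempty
      · exact ⟨p, j.left_mem⟩
    have := hcD c hc x hx
    linarith [k x this.1, this.2]

end Fr

theorem flsurg_of (hcap : FLCAP) : FLSURG := by
  intro F ι s D B' J τ h h0 hτ h20 H Hd
  classical
  have hP : ∀ φ, ∃ T : Set ℝ, T.Finite ∧ (φ ∈ s → ∀ t, t ∉ T → ∃ 𝒞 : Finset (Set E3),
      {x ∈ D φ | F.g τ x = t} = ⋃ c ∈ 𝒞, c ∧ (∀ c ∈ 𝒞, ∀ c' ∈ 𝒞, c ≠ c' → Disjoint c c') ∧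
      ∀ c ∈ 𝒞, (IsCircle c ∧ Disjoint c ((D φ ∩ F.T τ) ∪ B' φ)) ∨
        ∃ p q, IsArc c p q ∧ c ∩ ((D φ ∩ F.T τ) ∪ B' φ) = {p, q}) := fun φ => by
    by_cases hφ : φ ∈ s
    · obtain ⟨T, h1, h2⟩ := p4 (H φ hφ).1
        (A2.pl_mono (F.pl_g τ) (H φ hφ).1.conicalSet (subset_univ _))
      exact ⟨T, h1, fun _ t ht => (h2 t ht).1⟩
    · exact ⟨∅, finite_empty, fun k => absurd k hφ⟩
  choose T hT hP using hP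
  obtain ⟨t, ht, htT⟩ := (Ioo_infinite h0).exists_notMem_finite
    (s.finite_toSet.biUnion fun φ _ => hT φ)
  have hP' : ∀ φ, ∃ 𝒞 : Finset (Set E3), φ ∈ s →
      {x ∈ D φ | F.g τ x = t} = ⋃ c ∈ 𝒞, c ∧ (∀ c ∈ 𝒞, ∀ c' ∈ 𝒞, c ≠ c' → Disjoint c c') ∧
      ∀ c ∈ 𝒞, (IsCircle c ∧ Disjoint c ((D φ ∩ F.T τ) ∪ B' φ)) ∨
        ∃ p q, IsArc c p q ∧ c ∩ ((D φ ∩ F.T τ) ∪ B' φ) = {p, q} := fun φ => by
    by_cases hφ : φ ∈ s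
    · obtain ⟨𝒞, k⟩ := hP φ hφ t fun k => htT (mem_iUnion₂.2 ⟨φ, hφ, k⟩)
      exact ⟨𝒞, fun _ => k⟩
    · exact ⟨∅, fun k => absurd k hφ⟩
  choose 𝒞 h𝒞 using hP'
  have htτ : t < τ := ht.2.trans_le hτ
  have hcD : ∀ φ ∈ s, ∀ c ∈ 𝒞 φ, ∀ x ∈ c, x ∈ D φ ∧ F.g τ x = t := fun φ hφ c hc x hx => by
    have : x ∈ {x ∈ D φ | F.g τ x = t} := (h𝒞 φ hφ).1 ▸ mem_iUnion₂.2 ⟨c, hc, hx⟩
    exact this
  have hcB : ∀ φ ∈ s, ∀ c ∈ 𝒞 φ, c ∩ ((D φ ∩ F.T τ) ∪ B' φ) = c ∩ F.T τ := fun φ hφ c hc => by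
    refine Subset.antisymm ?_ fun x hx => ⟨hx.1, Or.inl ⟨(hcD φ hφ c hc x hx.1).1, hx.2⟩⟩
    rintro x ⟨k1, k2 | k2⟩
    · exact ⟨k1, k2.2⟩
    · linarith [(H φ hφ).2.2.2.2.1 x k2, (hcD φ hφ c hc x k1).2, ht.2]
  obtain ⟨C, L, hC, hCd⟩ := hcap F (s.sigma 𝒞) (fun i => i.2) (fun i => J i.1) ht.1 htτ h20
    (by
      rintro ⟨φ, c⟩ hi
      obtain ⟨hφ, hc⟩ := Finset.mem_sigma.1 hi
      refine ⟨fun x hx => ?_, (H φ hφ).2.2.2.2.2.1, fun x hx =>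
        (H φ hφ).2.2.2.2.2.2.1 ⟨(hcD φ hφ c hc x hx.1).1, hx.2⟩, ?_⟩
      · obtain ⟨k1, k2⟩ := hcD φ hφ c hc x hx
        have k3 := F.le_m_of_g htτ ((H φ hφ).2.1 x k1) k2.le
        exact ⟨k3, (F.g_eq_of_le_m k3).symm.trans k2⟩
      · have := (h𝒞 φ hφ).2.2 c hc
        rwa [disjoint_iff_inter_eq_empty, hcB φ hφ c hc, ← disjoint_iff_inter_eq_empty] at this)
    (by
      rintro ⟨φ, c⟩ hi ⟨φ', c'⟩ hi' ne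
      obtain ⟨hφ, hc⟩ := Finset.mem_sigma.1 hi
      obtain ⟨hφ', hc'⟩ := Finset.mem_sigma.1 hi'
      by_cases e : φ = φ'
      · subst e
        exact (h𝒞 φ hφ).2.1 c hc c' hc' fun e => ne (by rw [show c = c' from e])
      · refine disjoint_left.2 fun x hx hx' => ?_
        have k := hcD φ hφ c hc x hx
        linarith [Hd φ hφ φ' hφ' e x ⟨k.1, (hcD φ' hφ' c' hc' x hx').1⟩, k.2, ht.2])
  have hS : ∀ φ, ∃ D' : Set E3, φ ∈ s → ((∃ Φ : ConHomeo (D φ) D', (∀ x ∈ B' φ, Φ.toFun x = x) ∧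
        Φ.toFun '' (D φ ∩ F.T τ) = D' ∩ F.T τ) ∧
      (∀ x ∈ D', τ ≤ F.n x ∧ 0 < F.g τ x ∧ (x ∈ D φ ∨ F.g τ x ≤ h)) ∧
      D' ∩ F.T τ ⊆ F.Z (J φ) ∧ F.Once (D' ∩ F.T τ) ∧ ((∀ x ∈ D φ, h < F.g τ x) → D' = D φ)) ∧
      ∀ y ∈ D', (y ∈ D φ ∧ t ≤ F.g τ y) ∨ ∃ c ∈ 𝒞 φ, y ∈ C ⟨φ, c⟩ := fun φ => by
    by_cases hφ : φ ∈ s
    · obtain ⟨k1, k2, k3, k4, k5, k6, k7, k8⟩ := H φ hφ
      obtain ⟨D', k⟩ := F.face_step (𝒞 φ) (fun c => C ⟨φ, c⟩) (fun c => L ⟨φ, c⟩) ht.1 ht.2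
        k1 k2 k3 k4 k5 k6 k7 k8 (h𝒞 φ hφ).1
        (fun c hc c' hc' ne => ⟨(h𝒞 φ hφ).2.1 c hc c' hc' ne,
          hCd ⟨φ, c⟩ (Finset.mem_sigma.2 ⟨hφ, hc⟩) ⟨φ, c'⟩ (Finset.mem_sigma.2 ⟨hφ, hc'⟩)
            fun e => ne (congrArg Sigma.snd e)⟩)
        (h𝒞 φ hφ).2.2 fun c hc => hC ⟨φ, c⟩ (Finset.mem_sigma.2 ⟨hφ, hc⟩)
      exact ⟨D', fun _ => k⟩
    · exact ⟨∅, fun k => absurd k hφ⟩
  choose D' hD' using hS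
  refine ⟨D', fun φ hφ => (hD' φ hφ).1, fun φ hφ φ' hφ' ne x hx => ?_⟩
  have cap : ∀ φ ∈ s, ∀ c ∈ 𝒞 φ, x ∈ C ⟨φ, c⟩ → t ≤ F.g τ x → x ∈ D φ := fun φ hφ c hc k k' => by
    obtain ⟨j1, -, j3, j4⟩ := (hC ⟨φ, c⟩ (Finset.mem_sigma.2 ⟨hφ, hc⟩)).2.2.2.1 x k
    rw [F.g_eq_of_le_m j1] at k'
    exact (hcD φ hφ c hc x (j4 (le_antisymm j3 k'))).1
  rcases (hD' φ hφ).2 x hx.1 with k | ⟨c, hc, k⟩ <;>
    rcases (hD' φ' hφ').2 x hx.2 with k' | ⟨c', hc', k'⟩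
  · exact ⟨k.1, k'.1⟩
  · exact ⟨k.1, cap φ' hφ' c' hc' k' k.2⟩
  · exact ⟨cap φ hφ c hc k k'.2, k'.1⟩
  · exact absurd k' (disjoint_left.1 (hCd ⟨φ, c⟩ (Finset.mem_sigma.2 ⟨hφ, hc⟩) ⟨φ', c'⟩
      (Finset.mem_sigma.2 ⟨hφ', hc'⟩) fun e => ne (congrArg Sigma.fst e)) k)

end P073
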