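import Vale.Agent.P073Z.FLAT.Frame

/-!
# A polyhedron meeting the sides only in vertices is a cone near the sides
-/

open Set Metric Topology Filter

namespace P073

namespace FLF

theorem aff_ray (f : E3 →ᵃ[ℝ] ℝ) (p v : E3) (t : ℝ) :
    f (p + t • v) = f p + t * (f (p + v) - f p) := by
  have e : p + t • v = (1 - t) • p + t • (p + v) := by
    rw [sub_smul, one_smul, smul_add]; abel
  rw [e, aff_seg _ _ _ _ _ (by ring)]
  ring

variable (F : Fr)

theorem cont_l (i : Fin 3) : Continuous (F.l i) := (F.l i).continuous_of_finiteDimensional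

theorem cont_s : Continuous F.s := F.s.continuous_of_finiteDimensional

theorem cont_n : Continuous F.n := by
  unfold Fr.n Fr.m
  exact (((cont_l F 0).min ((cont_l F 1).min (cont_l F 2))).abs).max (cont_s F).abs

theorem n_nonneg (x : E3) : 0 ≤ F.n x := le_max_of_le_left (abs_nonneg _)

theorem sides_of_n {x : E3} (h : F.n x = 0) : x ∈ sides F.y := by
  have hm : F.m x = 0 := abs_nonpos_iff.1 (h ▸ le_max_left _ _)
  have hs : F.s x = 0 := abs_nonpos_iff.1 (h ▸ le_max_right _ _)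
  have h0 : 0 ≤ F.l 0 x := hm ▸ min_le_left _ _
  have h1 : 0 ≤ F.l 1 x := hm ▸ (min_le_right _ _).trans (min_le_left _ _)
  have h2 : 0 ≤ F.l 2 x := hm ▸ (min_le_right _ _).trans (min_le_right _ _)
  have hr := F.rep x
  have hsum := F.sum x
  rw [hs, zero_smul, add_zero] at hr
  have hc : F.l 0 x = 0 ∨ F.l 1 x = 0 ∨ F.l 2 x = 0 := by
    unfold Fr.m at hm
    rcases min_choice (F.l 0 x) (min (F.l 1 x) (F.l 2 x)) with e | e
    · exact Or.inl (e ▸ hm)
    · rcases min_choice (F.l 1 x) (F.l 2 x) with e' | e'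
      · exact Or.inr (Or.inl (e' ▸ e ▸ hm))
      · exact Or.inr (Or.inr (e' ▸ e ▸ hm))
  rcases hc with e | e | e
  · refine mem_iUnion.2 ⟨0, F.l 1 x, F.l 2 x, h1, h2, by linarith, ?_⟩
    rw [e, zero_smul, zero_add] at hr
    exact hr.symm
  · refine mem_iUnion.2 ⟨1, F.l 2 x, F.l 0 x, h2, h0, by linarith, ?_⟩
    rw [e, zero_smul, add_zero, add_comm] at hr
    exact hr.symm
  · refine mem_iUnion.2 ⟨2, F.l 0 x, F.l 1 x, h0, h1, by linarith, ?_⟩
    rw [e, zero_smul, add_zero] at hr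
    exact hr.symm

theorem m_eq (a : Fin 3) {x : E3} (h : 1 / 2 ≤ F.l a x) (h' : ∀ j, j ≠ a → F.l j x ≤ 1 / 2) :
    F.m x = min (F.l (a + 1) x) (F.l (a + 2) x) := by
  unfold Fr.m
  fin_cases a
  · have := h' 1 (by decide)
    exact min_eq_right ((min_le_left _ _).trans (this.trans h))
  · have := h' 2 (by decide)
    show min (F.l 0 x) (min (F.l 1 x) (F.l 2 x)) = min (F.l 2 x) (F.l 0 x)
    have h1 : F.l 2 x ≤ F.l 1 x := this.trans h
    rw [min_eq_right h1, min_comm]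
  · have := h' 1 (by decide)
    show min (F.l 0 x) (min (F.l 1 x) (F.l 2 x)) = min (F.l 0 x) (F.l 1 x)
    have h1 : F.l 1 x ≤ F.l 2 x := this.trans h
    rw [min_eq_left h1]

theorem n_ray (a : Fin 3) {v : E3} (h : 1 / 2 ≤ F.l a (F.y a + v))
    (h' : ∀ j, j ≠ a → F.l j (F.y a + v) ≤ 1 / 2) {t : ℝ} (ht : t ∈ Icc (0:ℝ) 1) :
    F.n (F.y a + t • v) = t * F.n (F.y a + v) := by
  have hj : ∀ j, j ≠ a → F.l j (F.y a + t • v) = t * F.l j (F.y a + v) := by
    intro j hj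
    rw [aff_ray, F.l_y, if_neg hj]; ring
  have ha : 1 / 2 ≤ F.l a (F.y a + t • v) := by
    rw [aff_ray, F.l_y, if_pos rfl]
    nlinarith [ht.1, ht.2]
  have hb : ∀ j, j ≠ a → F.l j (F.y a + t • v) ≤ 1 / 2 := by
    intro j hja
    rw [hj j hja]
    nlinarith [ht.1, ht.2, h' j hja]
  have n1 : a + 1 ≠ a := by fin_cases a <;> decide
  have n2 : a + 2 ≠ a := by fin_cases a <;> decide
  have hs : F.s (F.y a + t • v) = t * F.s (F.y a + v) := by
    rw [aff_ray, F.s_y]; ring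
  unfold Fr.n
  rw [m_eq F a ha hb, m_eq F a h h', hj _ n1, hj _ n2, hs, ← mul_min_of_nonneg _ _ ht.1, abs_mul,
    abs_mul, abs_of_nonneg ht.1, ← mul_max_of_nonneg _ _ ht.1]

theorem exists_sector (x : E3) : ∃ a, x ∈ F.S a :=
  Finite.exists_max fun i => F.w i * F.l i x

theorem mem_S_of_Z {a : Fin 3} {x : E3} (h : x ∈ F.Z {a}) : x ∈ F.S a := by
  obtain ⟨j, hj⟩ := exists_sector F x
  by_cases e : j = a
  · exact e ▸ hj
  · exact absurd hj (h j e)

theorem isClosed_S (a : Fin 3) : IsClosed (F.S a) := by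
  have : F.S a = ⋂ i, {x | F.w i * F.l i x ≤ F.w a * F.l a x} := by
    ext x; simp [Fr.S]
  rw [this]
  exact isClosed_iInter fun i => isClosed_le (continuous_const.mul (cont_l F i))
    (continuous_const.mul (cont_l F a))

theorem Z_mem_nhds (a : Fin 3) : ∀ᶠ x in 𝓝 (F.y a), x ∈ F.Z {a} := by
  have : ∀ j, ∀ᶠ x in 𝓝 (F.y a), j ∉ ({a} : Set (Fin 3)) → x ∉ F.S j := by
    intro j
    by_cases e : j = a
    · exact Eventually.of_forall fun x hj => absurd e hj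
    · have hy : F.y a ∉ F.S j := by
        intro h
        have h1 := h a
        rw [F.l_y, F.l_y, if_pos rfl, if_neg e] at h1
        linarith [(F.w_mem a).1]
      filter_upwards [(isClosed_S F j).isOpen_compl.mem_nhds hy] with x hx _ using hx
  exact eventually_all.2 this

theorem half_mem_nhds (a : Fin 3) :
    ∀ᶠ x in 𝓝 (F.y a), 1 / 2 ≤ F.l a x ∧ ∀ j, j ≠ a → F.l j x ≤ 1 / 2 := by
  refine Eventually.and ?_ (eventually_all.2 fun j => ?_)
  · refine (cont_l F a).continuousAt.eventually (p := fun r => 1 / 2 ≤ r) (le_mem_nhds ?_)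
    rw [F.l_y, if_pos rfl]; norm_num
  · by_cases e : j = a
    · exact Eventually.of_forall fun x hj => absurd e hj
    · have : ∀ᶠ x in 𝓝 (F.y a), F.l j x ≤ 1 / 2 := by
        refine (cont_l F j).continuousAt.eventually (p := fun r => r ≤ 1 / 2) (ge_mem_nhds ?_)
        rw [F.l_y, if_neg e]; norm_num
      filter_upwards [this] with x hx _ using hx

theorem mem_Kz {a : Fin 3} {v : E3} (h : F.y a + v ∈ F.Z {a}) {r : ℝ} (hr : r ∈ Icc (0:ℝ) 1) :
    F.y a + r • v ∈ F.Kz (F.y a + v) := by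
  refine ⟨r, hr, by rw [aff_ray, F.s_y]; ring, fun i => ?_⟩
  rw [aff_ray, F.l_y]
  by_cases e : i = a
  · subst e
    rw [if_pos rfl]
    exact ⟨by linarith [hr.2], fun hn => absurd (mem_S_of_Z F h) hn⟩
  · rw [if_neg e]
    exact ⟨le_of_eq (by ring), fun _ => by ring⟩

end FLF

theorem fly : FLY := by
  intro F Y hY hL hYs
  have hρ : ∀ a : Fin 3, ∀ᶠ ρ in 𝓝[>] (0:ℝ), ∀ v : E3, ‖v‖ ≤ ρ →
      (F.y a + v ∈ F.Z {a} ∧ 1 / 2 ≤ F.l a (F.y a + v) ∧
        ∀ j, j ≠ a → F.l j (F.y a + v) ≤ 1 / 2) ∧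
      ∀ t ∈ Ioc (0:ℝ) 1, (F.y a + t • v ∈ Y ↔ F.y a + v ∈ Y) := by
    intro a
    obtain ⟨r, hr, hc⟩ := hL (F.y a)
    obtain ⟨ε, hε, hb⟩ := Metric.nhds_basis_closedBall.mem_iff.1
      ((FLF.Z_mem_nhds F a).and (FLF.half_mem_nhds F a))
    filter_upwards [Ioo_mem_nhdsGT (lt_min hr hε)] with ρ hρ v hv
    refine ⟨hb ?_, hc v (hv.trans (hρ.2.le.trans (min_le_left _ _)))⟩
    rw [mem_closedBall, dist_eq_norm, add_sub_cancel_left]
    exact hv.trans (hρ.2.le.trans (min_le_right _ _))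
  obtain ⟨ρ, hρ', hρ0⟩ := ((eventually_all.2 hρ).and self_mem_nhdsWithin).exists
  replace hρ0 : 0 < ρ := hρ0
  set K : Set E3 := Y \ ⋃ a, ball (F.y a) ρ with hK
  have hKc : IsCompact K := hY.diff (isOpen_iUnion fun a => isOpen_ball)
  have hKpos : ∀ x ∈ K, 0 < F.n x := by
    intro x hx
    refine lt_of_le_of_ne (FLF.n_nonneg F x) fun h => ?_
    obtain ⟨a, rfl⟩ := hYs ⟨hx.1, FLF.sides_of_n F h.symm⟩
    exact hx.2 (mem_iUnion.2 ⟨a, mem_ball_self hρ0⟩)
  obtain ⟨τ0, hτ0, hτK⟩ := hKc.exists_forall_le' (FLF.cont_n F).continuousOn hKpos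
  have near : ∀ x ∈ Y, F.n x < τ0 → ∃ a v, ‖v‖ < ρ ∧ x = F.y a + v := by
    intro x hx hn
    have : x ∉ K := fun h => absurd (hτK x h) (not_le.2 hn)
    have hx' : x ∈ ⋃ a, ball (F.y a) ρ := by
      by_contra h
      exact this ⟨hx, h⟩
    obtain ⟨a, ha⟩ := mem_iUnion.1 hx'
    exact ⟨a, x - F.y a, by rwa [mem_ball, dist_eq_norm] at ha, by abel⟩
  filter_upwards [Ioo_mem_nhdsGT hτ0] with τ hτ
  refine ⟨fun z hz => ?_, fun x hx hxn => ?_⟩
  · have hzn : F.n z = τ := hz.2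
    obtain ⟨a, v, hv, rfl⟩ := near z hz.1 (hzn ▸ hτ.2)
    obtain ⟨h1, h2⟩ := hρ' a v hv.le
    refine ⟨a, h1.1, ?_⟩
    have hya : F.y a ∈ Y := by
      have ht : Tendsto (fun t : ℝ => F.y a + t • v) (𝓝[>] 0) (𝓝 (F.y a)) := by
        have : Continuous fun t : ℝ => F.y a + t • v := by fun_prop
        simpa using (this.tendsto 0).mono_left nhdsWithin_le_nhds
      refine hY.isClosed.mem_of_tendsto ht ?_
      filter_upwards [Ioc_mem_nhdsGT one_pos] with t ht using (h2 t ht).2 hz.1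
    rw [segment_eq_image']
    rintro _ ⟨t, ht, rfl⟩
    simp only [add_sub_cancel_left]
    rcases eq_or_lt_of_le ht.1 with e | e
    · rw [← e, zero_smul, add_zero]; exact hya
    · exact (h2 t ⟨e, ht.2⟩).2 hz.1
  · rcases eq_or_lt_of_le (FLF.n_nonneg F x) with h0 | h0
    · exact Or.inl (FLF.sides_of_n F h0.symm)
    right
    obtain ⟨a, v, hv, rfl⟩ := near x hx (lt_of_le_of_lt hxn hτ.2)
    have hv0 : 0 < ‖v‖ := by
      refine norm_pos_iff.2 fun e => ?_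
      obtain ⟨h1, -⟩ := hρ' a v hv.le
      have := FLF.n_ray F a h1.2.1 h1.2.2 (t := 0) ⟨le_rfl, zero_le_one⟩
      rw [e, smul_zero, zero_mul] at this
      rw [e] at h0
      exact h0.ne' this
    set u : E3 := (ρ / ‖v‖) • v with hu
    have hun : ‖u‖ = ρ := by
      rw [hu, norm_smul, Real.norm_of_nonneg (by positivity), div_mul_cancel₀ _ hv0.ne']
    have hvu : v = (‖v‖ / ρ) • u := by
      rw [hu, smul_smul, show ‖v‖ / ρ * (ρ / ‖v‖) = 1 by field_simp, one_smul]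
    have hq : ‖v‖ / ρ ∈ Ioc (0:ℝ) 1 := ⟨by positivity, (div_le_one hρ0).2 hv.le⟩
    obtain ⟨h1, h2⟩ := hρ' a u hun.le
    have huY : F.y a + u ∈ Y := (h2 _ hq).1 (hvu ▸ hx)
    have huK : F.y a + u ∈ K := by
      refine ⟨huY, fun h => ?_⟩
      obtain ⟨b, hb⟩ := mem_iUnion.1 h
      by_cases e : b = a
      · rw [e, mem_ball, dist_eq_norm, add_sub_cancel_left, hun] at hb
        exact lt_irrefl _ hb
      · rw [mem_ball, dist_eq_norm] at hb
        have h3 := (hρ' b _ hb.le).1.1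
        rw [add_sub_cancel] at h3
        exact h1.1 b e (FLF.mem_S_of_Z F h3)
    set N := F.n (F.y a + u) with hN
    have hτN : τ < N := lt_of_lt_of_le hτ.2 (hτK _ huK)
    have hN0 : 0 < N := hτ.1.trans hτN
    have hp : τ / N ∈ Ioc (0:ℝ) 1 := ⟨div_pos hτ.1 hN0, (div_le_one hN0).2 hτN.le⟩
    have hxN : ‖v‖ / ρ * N ≤ τ := by
      rw [hN, ← FLF.n_ray F a h1.2.1 h1.2.2 ⟨hq.1.le, hq.2⟩, ← hvu]; exact hxn
    refine ⟨F.y a + (τ / N) • u, ⟨(h2 _ hp).2 huY, ?_⟩, ?_⟩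
    · show F.n _ = τ
      rw [FLF.n_ray F a h1.2.1 h1.2.2 ⟨hp.1.le, hp.2⟩, div_mul_cancel₀ _ hN0.ne']
    · have hZ : F.y a + (τ / N) • u ∈ F.Z {a} := by
        refine (hρ' a _ ?_).1.1
        rw [norm_smul, Real.norm_of_nonneg hp.1.le, hun]
        nlinarith [hp.2]
      have hr : ‖v‖ / ρ * N / τ ∈ Icc (0:ℝ) 1 :=
        ⟨div_nonneg (mul_nonneg hq.1.le hN0.le) hτ.1.le, (div_le_one hτ.1).2 hxN⟩
      have := FLF.mem_Kz F hZ hr
      have e : (‖v‖ / ρ * N / τ) • (τ / N) • u = v := by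
        rw [smul_smul (‖v‖ / ρ * N / τ) (τ / N) u, show ‖v‖ / ρ * N / τ * (τ / N) = ‖v‖ / ρ by
          have := hτ.1.ne'; field_simp, ← hvu]
      rw [e] at this
      exact this

end P073
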