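import Vale.Agent.P073Z.FLAT.Fill
import Vale.Agent.P073Z.FLAT.Surg
import Vale.Agent.P073Z.FLAT.Cap
import Vale.Agent.P073Z.FLAT.Cut
import Vale.Agent.P073Z.FLAT.Ycone

/-!
# Flattening, without the complex
-/

open Set Metric Topology Filter

namespace P073

namespace Fr

variable (F : Fr)

/-- what the torus of level `τ` cuts out of a face -/
structure CutAt (D B : Set E3) (J : Set (Fin 3)) (τ : ℝ) : Prop where
  ball : ConBall 2 {x ∈ D | τ ≤ F.n x} ((D ∩ F.T τ) ∪ {x ∈ B | τ ≤ F.n x})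
  pre : IsPreconnected {x ∈ B | τ ≤ F.n x}
  ne : {x ∈ B | τ ≤ F.n x}.Nonempty
  sub : D ∩ F.T τ ⊆ F.Z J
  once : F.Once (D ∩ F.T τ)
  join : ∀ z ∈ B ∩ F.T τ, F.Kz z ⊆ B
  fill : ∀ (D' : Set E3) (Φ : ConHomeo {x ∈ D | τ ≤ F.n x} D'),
    (∀ x ∈ B, τ ≤ F.n x → Φ.toFun x = x) → Φ.toFun '' (D ∩ F.T τ) = D' ∩ F.T τ →
    (∀ x ∈ D', τ ≤ F.n x) → D' ∩ F.T τ ⊆ F.Z J → F.Once (D' ∩ F.T τ) →
    ConBall 2 (D' ∪ F.K (D' ∩ F.T τ)) B

theorem ball_image {D B D' : Set E3} {τ : ℝ}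
    (h : ConBall 2 {x ∈ D | τ ≤ F.n x} ((D ∩ F.T τ) ∪ {x ∈ B | τ ≤ F.n x}))
    (Φ : ConHomeo {x ∈ D | τ ≤ F.n x} D') (h1 : ∀ x ∈ B, τ ≤ F.n x → Φ.toFun x = x)
    (h2 : Φ.toFun '' (D ∩ F.T τ) = D' ∩ F.T τ) :
    ConBall 2 D' ((D' ∩ F.T τ) ∪ {x ∈ B | τ ≤ F.n x}) := by
  have := h.image Φ Subset.rfl
  rwa [Φ.image_eq, image_union, h2, image_congr (g := id) fun x hx => h1 x hx.1 hx.2,
    image_id] at this

theorem ev_cutAt {D B : Set E3} {J : Set (Fin 3)} (hD : ConBall 2 D B) (hJ : J ≠ univ)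
    (hs : D ∩ sides F.y = convexHull ℝ (F.y '' J)) (hB : D ∩ sides F.y ⊆ B) (hf : F.Flat D) :
    ∀ᶠ τ in 𝓝[>] (0:ℝ), F.CutAt D B J τ := by
  rcases J.eq_empty_or_nonempty with rfl | hne
  · rw [image_empty, convexHull_empty] at hs
    filter_upwards [F.ev_small hD.isClosed (disjoint_iff_inter_eq_empty.2 hs)] with τ hτ
    have e1 : {x ∈ D | τ ≤ F.n x} = D := sep_eq_self_iff_mem_true.2 fun x hx => (hτ x hx).le
    have e2 : {x ∈ B | τ ≤ F.n x} = B :=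
      sep_eq_self_iff_mem_true.2 fun x hx => (hτ x (hD.1 hx)).le
    have e3 : D ∩ F.T τ = ∅ := eq_empty_of_forall_notMem fun x hx => (hτ x hx.1).ne' hx.2
    have hc := A12.circle_isConnected (MOD.circle mod_thm hD)
    have hb : ConBall 2 {x ∈ D | τ ≤ F.n x} ((D ∩ F.T τ) ∪ {x ∈ B | τ ≤ F.n x}) := by
      rwa [e1, e2, e3, empty_union]
    refine ⟨hb, by rw [e2]; exact hc.isPreconnected, by rw [e2]; exact hc.nonempty,
      by rw [e3]; exact empty_subset _, fun a b _ => by simp [e3], fun z hz => ?_,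
      fun D' Φ h1 h2 _ _ _ => ?_⟩
    · exact absurd hz.2 (hτ z (hD.1 hz.1)).ne'
    · have := F.ball_image hb Φ h1 h2
      rw [e3, image_empty] at h2
      rw [← h2, e2, empty_union] at this
      simpa [← h2, K] using this
  obtain ⟨a, b, rfl⟩ := exists_pair hJ hne
  filter_upwards [flcut F hD (hs.trans (F.segment_eq_hull a b).symm) hB hf,
    Ioo_mem_nhdsGT (show (0:ℝ) < 1 / 20 by norm_num)] with τ hτ h0
  obtain ⟨p, q, k1, k2, k3, k4, k5, k6, k7, k8, k9⟩ := hτ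
  have h5 : τ < 1 / 5 := by linarith [h0.2]
  have hp : p ∈ B ∩ F.T τ := k4 ▸ Or.inl rfl
  have hq : q ∈ B ∩ F.T τ := k4 ▸ Or.inr rfl
  have hβ : segment ℝ (F.y a) p ∪ segment ℝ (F.y a) (F.y b) ∪ segment ℝ (F.y b) q ⊆ B :=
    k7 ▸ sep_subset _ _
  refine ⟨k2, k3, ⟨p, hp.1, hp.2.ge⟩, k8, k9, fun z hz => ?_, fun D' Φ h1 h2 h3 h4 h5' => ?_⟩
  · rw [k4] at hz
    rcases hz with rfl | rfl
    · rw [F.Kz_eq_segment k5]
      exact (subset_union_left.trans subset_union_left).trans hβ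
    · rw [F.Kz_eq_segment k6]
      exact subset_union_right.trans hβ
  · have a1 := k1.image Φ fun x hx => ⟨hx.1, hx.2.ge⟩
    rw [h2, h1 p hp.1 hp.2.ge, h1 q hq.1 hq.2.ge] at a1
    have d1 := F.ball_image k2 Φ h1 h2
    have d2 := flfill F h0.1 h0.2.le a1 inter_subset_right k5 k6 h4 h5'
    have hint : D' ∩ F.K (D' ∩ F.T τ) = D' ∩ F.T τ := by
      refine Subset.antisymm (fun x hx => ?_) fun x hx =>
        ⟨hx.1, F.mem_K.2 ⟨x, hx, F.self_mem_Kz x⟩⟩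
      obtain ⟨z, hz, k⟩ := F.mem_K.1 hx.2
      rw [F.eq_of_Kz h0.1 h5 hz.2 k (h3 x hx.1)]
      exact hz
    have := uni d1 d2 a1 hint subset_union_left subset_union_left
    rw [← k7] at this
    convert this using 1
    ext x
    constructor
    · intro hx
      refine ⟨?_, fun k => k.2 (k4 ▸ ⟨hx, k.1.2⟩)⟩
      rcases le_total τ (F.n x) with k | k
      · exact Or.inl (Or.inr ⟨hx, k⟩)
      · exact Or.inr (Or.inr ⟨hx, k⟩)
    · rintro ⟨hx, k⟩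
      have j : x ∈ D' ∩ F.T τ → x ∈ B := fun j => by
        have : x ∈ ({p, q} : Set E3) := by
          by_contra j'
          exact k ⟨j, j'⟩
        exact (k4 ▸ this : x ∈ B ∩ F.T τ).1
      rcases hx with (hx | hx) | hx | hx
      · exact j hx
      · exact hx.1
      · exact j hx
      · exact hx.1

theorem ev_off {τ : ℝ} (h0 : 0 < τ) {X : Set E3} (hX : IsClosed X)
    (h : X ∩ convexHull ℝ (range F.y) ⊆ sides F.y) :
    ∀ᶠ r in 𝓝[>] (0:ℝ), ∀ x ∈ X, r < F.g τ x :=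
  F.ev_small_g h0.le hX fun x hx hs => by
    by_contra k
    have k' := not_lt.1 k
    have := (F.n_eq_zero.1 (F.mem_sides.1 (h ⟨hx, F.mem_tri.2 ⟨hs, h0.le.trans k'⟩⟩))).1
    linarith

end Fr

theorem flcore : FLCORE := by
  intro y ι κ s D B J Y U t X hy hYc hYl hYt hU htU hX H Hd
  obtain ⟨F, rfl, hflat⟩ := flframe y s D hy fun φ hφ =>
    ⟨(H φ hφ).1.isCompact, (H φ hφ).1.locCone⟩
  refine ⟨F.conBall_tri, ?_⟩
  choose! J' hJ' hXJ using fun k hk => (hX k hk).2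
  have hry : range F.y ⊆ sides F.y := by
    rintro _ ⟨a, rfl⟩
    exact F.y_mem_sides a
  have hyD : ∀ φ ∈ s, ∀ a ∈ J φ, F.y a ∈ D φ := fun φ hφ a ha =>
    ((H φ hφ).2.2.2.2.ge (subset_convexHull ℝ _ (mem_image_of_mem _ ha))).1
  -- the torus
  obtain ⟨τ, h0, hcut, hXZ, hUτ, hY1, hY2⟩ := ((show ∀ᶠ τ in 𝓝[>] (0:ℝ),
    τ ∈ Ioo (0:ℝ) (1 / 20) from Ioo_mem_nhdsGT (by norm_num)).and
    (((eventually_all_finset s).2 fun φ hφ => F.ev_cutAt (H φ hφ).1 (H φ hφ).2.2.2.1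
      (H φ hφ).2.2.2.2 ((inter_subset_inter_right _ subset_union_left).trans (H φ hφ).2.2.1)
      (hflat φ hφ)).and
    (((eventually_all_finset t).2 fun k hk => F.ev_Z (J := J' k) (hX k hk).1
      ((inter_subset_inter_right _ F.sides_subset_tri).trans (hXJ k hk).le)).and
    ((F.ev_small_g le_rfl hU.isClosed_compl fun x hx hs =>
      not_le.1 fun k => hx (htU (F.mem_tri.2 ⟨hs, k⟩))).and
    (fly F hYc hYl ((inter_subset_inter_right _ F.sides_subset_tri).trans hYt)))))).exists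
  have h5 : τ < 1 / 5 := by linarith [h0.2]
  have inU : ∀ x, |F.s x| ≤ τ → -τ ≤ F.m x → x ∈ U := fun x k1 k2 => by
    by_contra k
    exact absurd (hUτ x k) (not_lt.2 (F.g_le_iff.2 ⟨k1, by linarith⟩))
  -- the collar
  obtain ⟨h, hh, hW, hXh, hDh⟩ := ((show ∀ᶠ h in 𝓝[>] (0:ℝ), h ∈ Ioo (0:ℝ) τ from
      Ioo_mem_nhdsGT h0.1).and
    ((F.ev_off h0.1 (F.isClosed_sides.union hYc.isClosed) (by
      rintro x ⟨k | k, k'⟩
      · exact k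
      · exact hry (hYt ⟨k, k'⟩))).and
    (((eventually_all_finset t).2 fun k hk => F.ev_off h0.1 (hX k hk).1
      ((hXJ k hk).le.trans (F.hull_subset_sides (hJ' k hk)))).and
    ((eventually_all_finset s).2 fun φ hφ => (show ∀ᶠ r in 𝓝[>] (0:ℝ),
      D φ ∩ convexHull ℝ (range F.y) ⊆ sides F.y → ∀ x ∈ D φ, r < F.g τ x from
        eventually_imp_distrib_left.2 (F.ev_off h0.1 (H φ hφ).1.isClosed)))))).exists
  have eT : ∀ φ, {x ∈ D φ | τ ≤ F.n x} ∩ F.T τ = D φ ∩ F.T τ := fun φ =>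
    Set.ext fun x => ⟨fun k => ⟨k.1.1, k.2⟩, fun k => ⟨⟨k.1, k.2.ge⟩, k.2⟩⟩
  obtain ⟨D', hD', hD'd⟩ := flsurg_of flcap F s (fun φ => {x ∈ D φ | τ ≤ F.n x})
    (fun φ => {x ∈ B φ | τ ≤ F.n x}) J hh.1 hh.2.le h0.2.le
    (fun φ hφ => by
      simp only [eT]
      exact ⟨(hcut φ hφ).ball, fun x hx => hx.2, (hcut φ hφ).pre, (hcut φ hφ).ne,
        fun x hx => hW x ((H φ hφ).2.1 hx.1), (H φ hφ).2.2.2.1, (hcut φ hφ).sub,
        (hcut φ hφ).once⟩)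
    fun φ hφ φ' hφ' ne x hx => hW x (Hd φ hφ φ' hφ' ne ⟨hx.1.1, hx.2.1⟩)
  simp only [eT] at hD'
  have hDW : ∀ φ ∈ s, ∀ φ' ∈ s, φ ≠ φ' → D' φ ∩ D' φ' ⊆ sides F.y ∪ Y :=
    fun φ hφ φ' hφ' ne x hx =>
      Hd φ hφ φ' hφ' ne ⟨(hD'd φ hφ φ' hφ' ne hx).1.1, (hD'd φ hφ φ' hφ' ne hx).2.1⟩
  have hKD : ∀ φ ∈ s, ∀ φ', ∀ x ∈ D' φ, x ∈ F.K (D' φ' ∩ F.T τ) → x ∈ D' φ' :=
    fun φ hφ φ' x hx k => by
      obtain ⟨z, hz, k⟩ := F.mem_K.1 k
      rw [F.eq_of_Kz h0.1 h5 hz.2 k ((hD' φ hφ).2.1 x hx).1]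
      exact hz.1
  have offT : ∀ z ∈ F.T τ, z ∉ sides F.y := fun z hz k =>
    h0.1.ne ((F.mem_sides.1 k).symm.trans hz)
  refine ⟨fun φ => D' φ ∪ F.K (D' φ ∩ F.T τ), fun φ hφ => ?_, fun φ hφ φ' hφ' ne => ?_⟩
  · obtain ⟨⟨Φ, Φ1, Φ2⟩, d1, d2, d3, d4⟩ := hD' φ hφ
    obtain ⟨b1, b2, b3, b4, b5⟩ := H φ hφ
    have ball := (hcut φ hφ).fill (D' φ) Φ (fun x hx k => Φ1 x ⟨hx, k⟩) Φ2
      (fun x hx => (d1 x hx).1) d2 d3
    have w1 : ∀ x ∈ D' φ, x ∈ sides F.y ∪ Y → x ∈ B φ := fun x hx k =>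
      b3 ⟨(((d1 x hx).2.2.resolve_right (not_le.2 (hW x k)))).1, k⟩
    have t1 : ∀ x ∈ D' φ, x ∉ convexHull ℝ (range F.y) := fun x hx k => by
      obtain ⟨k1, k2⟩ := F.mem_tri.1 k
      obtain ⟨j1, j2, -⟩ := d1 x hx
      have j3 : τ ≤ F.m x := by
        rcases le_max_iff.1 j1 with j | j
        · rwa [abs_of_nonneg k2] at j
        · rw [k1, abs_zero] at j
          exact absurd j (not_le.2 h0.1)
      rw [F.g_eq_of_le_m j3, k1, abs_zero] at j2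
      exact lt_irrefl _ j2
    have same : D φ ∩ convexHull ℝ (range F.y) ⊆ sides F.y →
        (∀ z ∈ D φ ∩ F.T τ, F.Kz z ⊆ D φ) → D' φ ∪ F.K (D' φ ∩ F.T τ) = D φ := fun k1 k2 => by
      have e := d4 fun x hx => hDh φ hφ k1 x hx.1
      refine A12.subdisc_unique iod b1 ball b1 (union_subset ?_ fun x hx => ?_) Subset.rfl
      · rw [e]
        exact sep_subset _ _
      · obtain ⟨z, hz, k⟩ := F.mem_K.1 hx
        rw [e, eT] at hz
        exact k2 z hz k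
    refine ⟨ball, ?_, ?_, ?_, fun k => ?_, fun k k' => ?_, fun k hk => ?_⟩
    · rintro x ⟨hx | hx, k⟩
      · exact w1 x hx k
      · obtain ⟨z, hz, j⟩ := F.mem_K.1 hx
        by_cases hs : x ∈ sides F.y
        · exact b3 ⟨(b5.ge (F.Kz_sides h0.1 h5 hz.2 (d2 hz) j hs)).1, k⟩
        · obtain ⟨z', hz', j'⟩ := (hY2 x (k.resolve_left hs)
            (F.n_le_of_Kz h0.1.le h5 hz.2 j)).resolve_left hs
          obtain rfl := (F.Kz_inter h0.1 h5 hz.2 hz'.2 j j').resolve_right hs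
          exact (hcut φ hφ).join z ⟨w1 z hz.1 (Or.inr hz'.1), hz.2⟩ j
    · rintro x ⟨hx | hx, k⟩
      · exact absurd k (t1 x hx)
      · obtain ⟨z, hz, j⟩ := F.mem_K.1 hx
        exact (F.Kz_tri (F.m_lt_of_T hz.2 h5) j k).resolve_right (t1 z hz.1)
    · rintro x (hx | hx)
      · refine (d1 x hx).2.2.imp (fun k => k.1) fun k => ?_
        obtain ⟨k1, k2⟩ := F.g_le_iff.1 k
        exact inU x (k1.trans hh.2.le) (by linarith [hh.2, h0.1])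
      · obtain ⟨z, hz, j⟩ := F.mem_K.1 hx
        obtain ⟨k1, k2⟩ := F.n_le_iff.1 (F.n_le_of_Kz h0.1.le h5 hz.2 j)
        exact Or.inr (inU x k2 (abs_le.1 k1).1)
    · refine same (by rw [k.inter_eq]; exact empty_subset _) fun z hz => ?_
      obtain ⟨a, ha, -⟩ := F.exists_S_of_Z ((hcut φ hφ).sub hz)
      exact absurd (F.sides_subset_tri (F.y_mem_sides a)) (disjoint_left.1 k (hyD φ hφ a ha))
    · exact same k' fun z hz => F.Kz_subset_convex k hz.1 fun a ha =>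
        hyD φ hφ a (F.mem_of_S_Z ha ((hcut φ hφ).sub hz))
    · rintro ⟨x, hx | hx, j⟩
      · exact ⟨x, ((d1 x hx).2.2.resolve_right (not_le.2 (hXh k hk x j))).1, j⟩
      · obtain ⟨z, hz, j'⟩ := F.mem_K.1 hx
        obtain ⟨a, a1, a2⟩ := F.Kz_S j'
        refine ⟨F.y a, hyD φ hφ a (F.mem_of_S_Z a1 (d2 hz)), ((hXJ k hk).ge
          (subset_convexHull ℝ _ (mem_image_of_mem _ (F.mem_of_S_Z a2 ?_)))).1⟩
        exact hXZ k hk x j (F.n_le_of_Kz h0.1.le h5 hz.2 j')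
  · rintro x ⟨hx | hx, hx' | hx'⟩
    · exact hDW φ hφ φ' hφ' ne ⟨hx, hx'⟩
    · exact hDW φ hφ φ' hφ' ne ⟨hx, hKD φ hφ φ' x hx hx'⟩
    · exact hDW φ hφ φ' hφ' ne ⟨hKD φ' hφ' φ x hx' hx, hx'⟩
    · obtain ⟨z, hz, j⟩ := F.mem_K.1 hx
      obtain ⟨z', hz', j'⟩ := F.mem_K.1 hx'
      rcases F.Kz_inter h0.1 h5 hz.2 hz'.2 j j' with rfl | k
      · obtain ⟨a, a1, a2⟩ := hY1 z
          ⟨(hDW φ hφ φ' hφ' ne ⟨hz.1, hz'.1⟩).resolve_left (offT z hz.2), hz.2⟩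
        exact Or.inr (a2 (F.Kz_eq_segment a1 ▸ j))
      · exact Or.inl k

end P073
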