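import Vale.Agent.P073Z.FLAT.Fr
import Vale.Agent.P073Z.DISC2

/-!
# The filling of an arc on the torus is a disc
-/

open Set Metric Topology Filter

namespace P073

theorem rayBaseAt_of_le {E : Type} [NormedAddCommGroup E] [NormedSpace ℝ E] {a : E} {X : Set E}
    (hX : IsCompact X) (ha : a ∉ X)
    (h : ∀ x ∈ X, ∀ r ∈ Ioc (0:ℝ) 1, a + r • (x - a) ∈ X → r = 1) : RayBaseAt a X := by
  refine rayBaseAt_iff.2 ⟨hX, ha, fun x hx r hr hr' => ?_⟩
  rcases le_total r 1 with k | k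
  · exact h x hx r ⟨hr, k⟩ hr'
  · refine inv_eq_one.1 (h _ hr' r⁻¹ ⟨inv_pos.2 hr, inv_le_one_of_one_le₀ k⟩ ?_)
    rwa [add_sub_cancel_left, smul_smul, inv_mul_cancel₀ hr.ne', one_smul, add_sub_cancel]

theorem mem_coneSetAt {E : Type} [NormedAddCommGroup E] [NormedSpace ℝ E] {a x : E} {X : Set E} :
    x ∈ coneSetAt a X ↔ ∃ z ∈ X, x ∈ segment ℝ a z := by
  simp only [coneSetAt, segment_eq_image', mem_ofPred_eq, mem_image]
  constructor
  · rintro ⟨r, hr, z, hz, rfl⟩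
    exact ⟨z, hz, r, hr, rfl⟩
  · rintro ⟨z, hz, r, hr, rfl⟩
    exact ⟨r, hr, z, hz, rfl⟩

/-- a function without zeros on a preconnected set keeps its sign -/
theorem pos_of_preconn {T : Type} [TopologicalSpace T] {X : Set T} {f : T → ℝ}
    (hX : IsPreconnected X) (hf : ContinuousOn f X) (h0 : ∀ x ∈ X, f x ≠ 0) {p : T} (hp : p ∈ X)
    (h : 0 < f p) : ∀ x ∈ X, 0 < f x := by
  intro x hx
  by_contra k
  obtain ⟨u, hu, e⟩ := hX.intermediate_value hx hp hf ⟨not_lt.1 k, h.le⟩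
  exact h0 u hu e

namespace Fr

variable (F : Fr) {x z : E3} {a b : Fin 3} {τ : ℝ} {c : Set E3}

theorem rayBase_T (h0 : 0 < τ) (h5 : τ < 1 / 5) (hc : IsCompact c) (hT : c ⊆ F.T τ)
    (hS : c ⊆ F.S a) : RayBaseAt (F.y a) c := by
  refine rayBaseAt_of_le hc (fun h => h0.ne ((F.n_y a).symm.trans (hT h))) fun x hx r hr h => ?_
  have e := F.n_ray (hS hx) (F.m_lt_of_T (hT hx) h5) ⟨hr.1.le, hr.2⟩
  rw [show F.n _ = τ from hT h, show F.n x = τ from hT hx] at e
  exact mul_right_cancel₀ h0.ne' (e.symm.trans (one_mul _).symm)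

theorem eq_y_of_sides (h0 : 0 < τ) (h5 : τ < 1 / 5) (hz : z ∈ F.T τ) (hS : z ∈ F.S a)
    (hx : x ∈ segment ℝ (F.y a) z) (hs : x ∈ sides F.y) : x = F.y a := by
  rw [segment_eq_image'] at hx
  obtain ⟨r, hr, rfl⟩ := hx
  have e := F.n_ray hS (F.m_lt_of_T hz h5) hr
  rw [F.mem_sides.1 hs, show F.n z = τ from hz] at e
  simp only [(mul_eq_zero.1 e.symm).resolve_right h0.ne', zero_smul, add_zero]

theorem Z_single (hab : a ≠ b) (h : x ∈ F.Z {a, b}) (hlt : F.w b * F.l b x < F.w a * F.l a x) :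
    x ∈ F.Z {a} := fun j hj hS => by
  rcases F.mem_of_S_Z hS h with rfl | rfl
  · exact hj rfl
  · exact absurd (hS a) (not_le.2 hlt)

theorem lt_of_Z_single (hab : a ≠ b) (h : x ∈ F.Z {a}) :
    F.w b * F.l b x < F.w a * F.l a x := by
  refine lt_of_le_of_ne (F.S_of_Z h b) fun e => h b hab.symm fun i => ?_
  rw [e]
  exact F.S_of_Z h i

/-- an arc from one sector to another one is split by the wall -/
theorem exists_split {p q : E3} (hab : a ≠ b) (hc : IsArc c p q) (hp : p ∈ F.Z {a})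
    (hq : q ∈ F.Z {b}) (hZ : c ⊆ F.Z {a, b}) (hO : F.Once c) : ∃ u c₁ c₂, IsArc c₁ p u ∧
      IsArc c₂ u q ∧ c₁ ∪ c₂ = c ∧ c₁ ∩ c₂ = {u} ∧ u ∈ F.S a ∧ u ∈ F.S b ∧
      c₁ \ {u} ⊆ F.Z {a} ∧ c₂ \ {u} ⊆ F.Z {b} := by
  obtain ⟨k, k1, k2, hk⟩ := third hab
  have hcont : Continuous fun x => F.w a * F.l a x - F.w b * F.l b x :=
    (continuous_const.mul (cont_aff _)).sub (continuous_const.mul (cont_aff _))
  have hw : ∀ x ∈ c, F.w a * F.l a x - F.w b * F.l b x = 0 → x ∈ F.S a ∧ x ∈ F.S b :=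
    fun x hx e => (F.wall_iff hk (hZ hx k (by simp [k1, k2]))).2 (sub_eq_zero.1 e)
  have sp := sub_pos.2 (F.lt_of_Z_single hab hp)
  have sq := sub_neg.2 (F.lt_of_Z_single hab.symm hq)
  obtain ⟨u, hu, e⟩ := hc.isConnected.isPreconnected.intermediate_value hc.right_mem hc.left_mem
    hcont.continuousOn ⟨sq.le, sp.le⟩
  have hup : u ≠ p := fun h => sp.ne' (h ▸ e)
  have huq : u ≠ q := fun h => sq.ne (h ▸ e)
  obtain ⟨c₁, c₂, a1, a2, hun, hin⟩ := A12.arc_split hc hu hup huq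
  have hne : ∀ x ∈ c \ {u}, F.w a * F.l a x - F.w b * F.l b x ≠ 0 := fun x hx e' =>
    hx.2 (hO a b hab ⟨⟨hx.1, (hw x hx.1 e').1⟩, (hw x hx.1 e').2⟩
      ⟨⟨hu, (hw u hu e).1⟩, (hw u hu e).2⟩)
  have s1 : c₁ ⊆ c := hun ▸ subset_union_left
  have s2 : c₂ ⊆ c := hun ▸ subset_union_right
  refine ⟨u, c₁, c₂, a1, a2, hun, hin, (hw u hu e).1, (hw u hu e).2, fun x hx => ?_,
    fun x hx => ?_⟩
  · exact F.Z_single hab (hZ (s1 hx.1)) (sub_pos.1 (pos_of_preconn (A12.arc_sdiff_left a1.symm)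
      hcont.continuousOn (fun x hx => hne x ⟨s1 hx.1, hx.2⟩) ⟨a1.left_mem, hup.symm⟩ sp x hx))
  · refine F.Z_single hab.symm (pair_comm a b ▸ hZ (s2 hx.1)) ?_
    have := pos_of_preconn (A12.arc_sdiff_left a2) hcont.neg.continuousOn
      (fun x hx => neg_ne_zero.2 (hne x ⟨s2 hx.1, hx.2⟩)) ⟨a2.right_mem, huq.symm⟩
      (neg_pos.2 sq) x hx
    simp only [Pi.neg_apply] at this
    linarith

theorem ray_seg (h0 : 0 < τ) (h5 : τ < 1 / 5) (hab : a ≠ b) (hz : z ∈ F.T τ) (ha : z ∈ F.S a)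
    (hb : z ∈ F.S b) (hx : x ∈ segment ℝ (F.y b) z) {r : ℝ}
    (h : F.y a + r • (x - F.y a) ∈ segment ℝ (F.y b) z) : r = 1 := by
  obtain ⟨k, k1, k2, hk⟩ := third hab
  rw [segment_eq_image'] at hx h
  obtain ⟨u, -, rfl⟩ := hx
  obtain ⟨u', -, e⟩ := h
  have e1 := congrArg (F.l k) e
  have e2 := congrArg F.s e
  have e3 := congrArg (F.l a) e
  simp only [aff_ray, F.l_ne k1, F.l_ne k2, F.l_ne hab, F.l_self, F.s_y] at e1 e2 e3
  have e4 : u' = r * u := by
    by_contra hne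
    have j1 : F.l k z = 0 := by
      have : (u' - r * u) * F.l k z = 0 := by linarith
      exact (mul_eq_zero.1 this).resolve_left (sub_ne_zero.2 hne)
    have j2 : F.s z = 0 := by
      have : (u' - r * u) * F.s z = 0 := by linarith
      exact (mul_eq_zero.1 this).resolve_left (sub_ne_zero.2 hne)
    rw [← F.m_eq_of_wall hk ha hb (F.m_lt_of_T hz h5)] at j1
    exact h0.ne ((F.n_eq_zero.2 ⟨j1, j2⟩).symm.trans hz)
  rw [e4] at e3
  linarith

end Fr

theorem flfill : FLFILL := by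
  intro F c p q a b τ h0 hτ hc hT hp hq hZ hO
  have h5 : τ < 1 / 5 := by linarith
  by_cases hab : a = b
  · subst hab
    rw [pair_eq_singleton] at hZ
    have e1 : F.K c = coneSetAt (F.y a) c := by
      ext x
      rw [F.mem_K, mem_coneSetAt]
      exact exists_congr fun z => and_congr_right fun hz => by rw [F.Kz_eq_segment (hZ hz)]
    rw [e1, segment_same, union_eq_self_of_subset_right
      (singleton_subset_iff.2 (left_mem_segment ℝ _ p))]
    exact conBall_coneArc (F.rayBase_T h0 h5 hc.isCompact hT fun z hz => F.S_of_Z (hZ hz)) hc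
  obtain ⟨u, c₁, c₂, a1, a2, hun, hin, ua, ub, z1, z2⟩ := F.exists_split hab hc hp hq hZ hO
  have s1 : c₁ ⊆ c := hun ▸ subset_union_left
  have s2 : c₂ ⊆ c := hun ▸ subset_union_right
  have uT : u ∈ F.T τ := hT (s1 a1.right_mem)
  have S1 : c₁ ⊆ F.S a := fun x hx => by
    by_cases e : x = u
    · exact e ▸ ua
    · exact F.S_of_Z (z1 ⟨hx, e⟩)
  have S2 : c₂ ⊆ F.S b := fun x hx => by
    by_cases e : x = u
    · exact e ▸ ub
    · exact F.S_of_Z (z2 ⟨hx, e⟩)
  have hne : F.y b ≠ u := fun e => h0.ne ((F.n_y b).symm.trans (e ▸ uT))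
  have hβ := isArc_segment hne
  have βK := F.segment_subset_Kz ub
  have βT : ∀ x ∈ F.Kz u, x ∈ c → x = u := fun x hx hx' => F.eq_of_Kz h0 h5 uT hx (hT hx').ge
  have base : IsArc (c₁ ∪ segment ℝ (F.y b) u) p (F.y b) :=
    a1.trans hβ.symm fun x hx => βT x (βK hx.2) (s1 hx.1)
  have ray1 : RayBaseAt (F.y a) (c₁ ∪ segment ℝ (F.y b) u) := by
    refine rayBaseAt_of_le base.isCompact ?_ ?_
    · rintro (h | h)
      · exact h0.ne ((F.n_y a).symm.trans (hT (s1 h)))
      · exact hab (F.y_injective (F.eq_y_of_sides h0 h5 uT ub h (F.y_mem_sides a)))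
    · rintro x hx r hr hx'
      have hseg : F.y a + r • (x - F.y a) ∈ segment ℝ (F.y a) x := by
        rw [segment_eq_image']
        exact ⟨r, ⟨hr.1.le, hr.2⟩, rfl⟩
      rcases hx with hx | hx
      · have e := F.n_ray (S1 hx) (F.m_lt_of_T (hT (s1 hx)) h5) ⟨hr.1.le, hr.2⟩
        rw [show F.n x = τ from hT (s1 hx)] at e
        rcases hx' with hx' | hx'
        · rw [show F.n _ = τ from hT (s1 hx')] at e
          exact mul_right_cancel₀ h0.ne' (e.symm.trans (one_mul _).symm)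
        · rcases F.Kz_inter h0 h5 (hT (s1 hx)) uT (F.segment_subset_Kz (S1 hx) hseg) (βK hx')
            with rfl | k
          · exact F.ray_seg h0 h5 hab uT ua ub (right_mem_segment _ _ _) hx'
          · rw [F.mem_sides.1 k] at e
            exact absurd e (mul_pos hr.1 h0).ne
      · refine F.ray_seg h0 h5 hab uT ua ub hx ?_
        rcases hx' with hx' | hx'
        · rw [βT _ ((F.convex_Kz u).segment_subset (F.y_mem_Kz ua) (βK hx) hseg) (s1 hx')]
          exact right_mem_segment _ _ _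
        · exact hx'
  have d1 := conBall_coneArc ray1 base
  have d2 := conBall_coneArc (F.rayBase_T h0 h5 a2.isCompact (s2.trans hT) S2) a2
  have K1 : coneSetAt (F.y a) (c₁ ∪ segment ℝ (F.y b) u) ⊆ F.K c₁ := fun x hx => by
    obtain ⟨z, hz | hz, k⟩ := mem_coneSetAt.1 hx
    · exact F.mem_K.2 ⟨z, hz, F.segment_subset_Kz (S1 hz) k⟩
    · exact F.mem_K.2 ⟨u, a1.right_mem,
        (F.convex_Kz u).segment_subset (F.y_mem_Kz ua) (βK hz) k⟩
  have hint : coneSetAt (F.y a) (c₁ ∪ segment ℝ (F.y b) u) ∩ coneSetAt (F.y b) c₂ =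
      segment ℝ (F.y b) u := by
    refine Subset.antisymm (fun x hx => ?_) fun x hx =>
      ⟨mem_coneSetAt.2 ⟨x, Or.inr hx, right_mem_segment _ _ _⟩,
        mem_coneSetAt.2 ⟨u, a2.left_mem, hx⟩⟩
    obtain ⟨z, hz, k⟩ := F.mem_K.1 (K1 hx.1)
    obtain ⟨z', hz', k'⟩ := mem_coneSetAt.1 hx.2
    rcases F.Kz_inter h0 h5 (hT (s1 hz)) (hT (s2 hz')) k (F.segment_subset_Kz (S2 hz') k')
      with rfl | j
    · have : z ∈ c₁ ∩ c₂ := ⟨hz, hz'⟩
      rw [hin] at this
      exact mem_singleton_iff.1 this ▸ k'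
    · rw [F.eq_y_of_sides h0 h5 (hT (s2 hz')) (S2 hz') k' j]
      exact left_mem_segment _ _ _
  have := uni d1 d2 hβ hint (subset_union_right.trans subset_union_left)
    (subset_union_left.trans subset_union_right)
  convert this using 1
  · refine Subset.antisymm (fun x hx => ?_) (union_subset (K1.trans fun x hx => ?_) fun x hx => ?_)
    · obtain ⟨z, hz, k⟩ := F.mem_K.1 hx
      by_cases e : z = u
      · subst e
        refine Or.inl (mem_coneSetAt.2 ?_)
        have : x ∈ coneSetAt (F.y a) (segment ℝ (F.y b) z) := by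
          rw [coneSetAt_segment]
          refine F.Kz_subset_convex (convex_convexHull ℝ _) (subset_convexHull ℝ _ (by simp))
            (fun i hi => subset_convexHull ℝ _ ?_) k
          rcases F.mem_of_S_Z hi (hZ hz) with rfl | rfl <;> simp
        obtain ⟨v, hv, k'⟩ := mem_coneSetAt.1 this
        exact ⟨v, Or.inr hv, k'⟩
      · rw [← hun] at hz
        rcases hz with hz | hz
        · exact Or.inl (mem_coneSetAt.2 ⟨z, Or.inl hz, F.Kz_eq_segment (z1 ⟨hz, e⟩) ▸ k⟩)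
        · exact Or.inr (mem_coneSetAt.2 ⟨z, hz, F.Kz_eq_segment (z2 ⟨hz, e⟩) ▸ k⟩)
    · obtain ⟨z, hz, k⟩ := F.mem_K.1 hx
      exact F.mem_K.2 ⟨z, s1 hz, k⟩
    · obtain ⟨z, hz, k⟩ := mem_coneSetAt.1 hx
      exact F.mem_K.2 ⟨z, s2 hz, F.segment_subset_Kz (S2 hz) k⟩
  · have pu : p ≠ u := a1.ne
    have qu : q ≠ u := a2.ne.symm
    have off : ∀ x ∈ segment ℝ (F.y b) u, x ∈ sides F.y → x ∈ ({F.y b, u} : Set E3) :=
      fun x hx hs => Or.inl (F.eq_y_of_sides h0 h5 uT ub hx hs)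
    ext x
    constructor
    · intro hx
      refine ⟨?_, fun k => k.2 ?_⟩
      · rw [← hun] at hx
        simp only [mem_union] at hx ⊢
        tauto
      · rcases hx with hx | (hx | hx) | hx
        · exact Or.inr (βT x (βK k.1) hx)
        · exact off x k.1 ((F.Kz_inter h0 h5 (hT hc.left_mem) uT
            (F.segment_subset_Kz (F.S_of_Z hp) hx) (βK k.1)).resolve_left pu)
        · exact off x k.1 (F.segment_subset_sides a b hx)
        · exact off x k.1 ((F.Kz_inter h0 h5 (hT hc.right_mem) uT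
            (F.segment_subset_Kz (F.S_of_Z hq) hx) (βK k.1)).resolve_left qu)
    · rintro ⟨hx, k⟩
      by_cases hs : x ∈ segment ℝ (F.y b) u
      · have : x ∈ ({F.y b, u} : Set E3) := by
          by_contra j
          exact k ⟨hs, j⟩
        rcases this with rfl | rfl
        · exact Or.inr (Or.inl (Or.inr (right_mem_segment _ _ _)))
        · exact Or.inl (s1 a1.right_mem)
      · rw [← hun]
        simp only [mem_union] at hx ⊢
        tauto

end P073
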