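import Vale.Agent.P073Z.FLAT.Fr0

/-!
# Calculus in a frame: compactness, joins, discs
-/

open Set Metric Topology Filter

namespace P073

namespace Fr

variable (F : Fr) {x x' z z' : E3} {a b c : Fin 3} {τ : ℝ} {J : Set (Fin 3)}

/-! ### compactness -/

theorem isCompact_nbhd (τ : ℝ) : IsCompact {x | -τ ≤ F.m x ∧ |F.s x| ≤ τ} := by
  have hc : Continuous fun p : (Fin 3 → ℝ) × ℝ => F.pt p.1 p.2 := by
    unfold pt
    fun_prop
  refine ((isCompact_closedBall (0 : (Fin 3 → ℝ) × ℝ) (1 + 2 * |τ|)).image hc).of_isClosed_subset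
    ((isClosed_le continuous_const F.continuous_m).inter
      (isClosed_le (cont_aff _).abs continuous_const)) ?_
  rintro x ⟨h1, h2⟩
  refine ⟨(fun k => F.l k x, F.s x), ?_, F.pt_self x⟩
  have h3 := F.le_m.1 h1
  have h4 := le_abs_self τ
  have h5 := abs_nonneg τ
  have h6 := F.sum x
  rw [mem_closedBall_zero_iff, Prod.norm_def, max_le_iff, pi_norm_le_iff_of_nonneg (by linarith)]
  refine ⟨fun k => ?_, by rw [Real.norm_eq_abs]; linarith⟩
  rw [Real.norm_eq_abs, abs_le]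
  have := h3 0
  have := h3 1
  have := h3 2
  fin_cases k <;> constructor <;> simp only [Fin.zero_eta, Fin.mk_one, Fin.reduceFinMk] <;>
    linarith

theorem isCompact_n_le (τ : ℝ) : IsCompact {x | F.n x ≤ τ} :=
  (F.isCompact_nbhd τ).of_isClosed_subset (isClosed_le F.continuous_n continuous_const)
    fun _ hx => ⟨(abs_le.1 (F.n_le_iff.1 hx).1).1, (F.n_le_iff.1 hx).2⟩

theorem isCompact_g_le (hτ : 0 ≤ τ) (r : ℝ) : IsCompact {x | F.g τ x ≤ r} :=
  (F.isCompact_nbhd r).of_isClosed_subset (isClosed_le (F.continuous_g τ) continuous_const)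
    fun _ hx => ⟨by linarith [(F.g_le_iff.1 hx).2], (F.g_le_iff.1 hx).1⟩

theorem ev_small_of {f : E3 → ℝ} (hf : Continuous f) (hc : IsCompact {x | f x ≤ 1}) {X : Set E3}
    (hX : IsClosed X) (h : ∀ x ∈ X, 0 < f x) : ∀ᶠ τ in 𝓝[>] (0:ℝ), ∀ x ∈ X, τ < f x := by
  obtain ⟨δ, h0, hδ⟩ : ∃ δ > (0:ℝ), ∀ x ∈ X, δ ≤ f x := by
    rcases (X ∩ {x | f x ≤ 1}).eq_empty_or_nonempty with e | e
    · refine ⟨1, one_pos, fun x hx => ?_⟩
      by_contra k
      exact (eq_empty_iff_forall_notMem.1 e) x ⟨hx, (not_le.1 k).le⟩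
    · obtain ⟨u, hu, hm⟩ := (hc.inter_left hX).exists_isMinOn e hf.continuousOn
      refine ⟨f u, h u hu.1, fun x hx => ?_⟩
      rcases le_total (f x) 1 with k | k
      · exact hm ⟨hx, k⟩
      · exact le_trans hu.2 k
  filter_upwards [Ioo_mem_nhdsGT h0] with τ hτ x hx using hτ.2.trans_le (hδ x hx)

theorem ev_small {X : Set E3} (hX : IsClosed X) (h : Disjoint X (sides F.y)) :
    ∀ᶠ τ in 𝓝[>] (0:ℝ), ∀ x ∈ X, τ < F.n x :=
  ev_small_of F.continuous_n (F.isCompact_n_le 1) hX fun _ hx =>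
    F.n_pos (disjoint_left.1 h hx)

/-- a closed set stays in the sectors of the face in which it meets the sides -/
theorem ev_Z {X : Set E3} (hX : IsClosed X) (h : X ∩ sides F.y ⊆ convexHull ℝ (F.y '' J)) :
    ∀ᶠ τ in 𝓝[>] (0:ℝ), ∀ x ∈ X, F.n x ≤ τ → x ∈ F.Z J := by
  filter_upwards [F.ev_small (X := X \ F.Z J) (hX.sdiff (F.isOpen_Z J))
    (disjoint_left.2 fun x hx hs => hx.2 (F.hull_subset_Z (h ⟨hx.1, hs⟩)))] with τ hτ x hx hn
  by_contra k
  exact absurd (hτ x ⟨hx, k⟩) (not_lt.2 hn)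

theorem ev_small_g (hτ : 0 ≤ τ) {X : Set E3} (hX : IsClosed X)
    (h : ∀ x ∈ X, F.s x = 0 → F.m x < τ) : ∀ᶠ r in 𝓝[>] (0:ℝ), ∀ x ∈ X, r < F.g τ x :=
  ev_small_of (F.continuous_g τ) (F.isCompact_g_le hτ 1) hX fun x hx => by
    by_contra k
    obtain ⟨k1, k2⟩ := F.g_le_iff.1 (not_lt.1 k)
    linarith [h x hx (abs_nonpos_iff.1 k1)]

/-! ### joins -/

theorem scale_of {r : ℝ} (hr : 0 ≤ r) (hz : F.m z < 1 / 5) (hs : F.s x = r * F.s z)
    (hl : ∀ i, r * F.l i z ≤ F.l i x ∧ (z ∉ F.S i → F.l i x = r * F.l i z)) :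
    F.m x = r * F.m z ∧ F.n x = r * F.n z := by
  have h1 : F.m x = r * F.m z := by
    obtain ⟨k, hk⟩ := F.exists_m z
    refine F.m_eq_iff.2 ⟨fun i => (mul_le_mul_of_nonneg_left (F.m_le i z) hr).trans (hl i).1,
      k, ?_⟩
    rw [hk]
    exact (hl k).2 fun h => by linarith [F.l_ge_of_S h]
  refine ⟨h1, ?_⟩
  rw [n, n, h1, hs, abs_mul, abs_mul, abs_of_nonneg hr, mul_max_of_nonneg _ _ hr]

theorem m_lt_of_T (hz : z ∈ F.T τ) (h5 : τ < 1 / 5) : F.m z < 1 / 5 :=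
  ((le_abs_self _).trans (F.n_le_iff.1 hz.le).1).trans_lt h5

theorem self_mem_Kz (z : E3) : z ∈ F.Kz z :=
  ⟨1, ⟨zero_le_one, le_rfl⟩, (one_mul _).symm, fun _ => ⟨(one_mul _).le, fun _ =>
    (one_mul _).symm⟩⟩

theorem y_mem_Kz (h : z ∈ F.S a) : F.y a ∈ F.Kz z :=
  ⟨0, ⟨le_rfl, zero_le_one⟩, by rw [F.s_y, zero_mul], fun i =>
    ⟨by rw [zero_mul]; exact F.l_y_nonneg i a, fun hi => by
      rw [zero_mul]; exact F.l_ne fun e => hi (e ▸ h)⟩⟩

theorem convex_Kz (z : E3) : Convex ℝ (F.Kz z) := by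
  rintro u ⟨p, hp, h1, h2⟩ v ⟨q, hq, k1, k2⟩ r r' hr hr' e
  refine ⟨r * p + r' * q, ⟨add_nonneg (mul_nonneg hr hp.1) (mul_nonneg hr' hq.1), ?_⟩, ?_,
    fun i => ⟨?_, fun hi => ?_⟩⟩
  · nlinarith [mul_le_mul_of_nonneg_left hp.2 hr, mul_le_mul_of_nonneg_left hq.2 hr']
  · rw [aff_comb _ _ _ e, h1, k1]
    ring
  · rw [aff_comb _ _ _ e]
    nlinarith [mul_le_mul_of_nonneg_left (h2 i).1 hr, mul_le_mul_of_nonneg_left (k2 i).1 hr']
  · rw [aff_comb _ _ _ e, (h2 i).2 hi, (k2 i).2 hi]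
    ring

theorem Kz_subset_convex {C : Set E3} (hC : Convex ℝ C) (hz : z ∈ C)
    (hy : ∀ a, z ∈ F.S a → F.y a ∈ C) : F.Kz z ⊆ C := by
  rintro x ⟨r, hr, h1, h2⟩
  refine F.mem_of_coord hC hr.1 (fun _ => hz) h1 (fun i => (h2 i).1) fun i hi => hy i ?_
  by_contra k
  exact hi ((h2 i).2 k)

theorem segment_subset_Kz (h : z ∈ F.S a) : segment ℝ (F.y a) z ⊆ F.Kz z :=
  (F.convex_Kz z).segment_subset (F.y_mem_Kz h) (F.self_mem_Kz z)

theorem Kz_eq_segment (h : z ∈ F.Z {a}) : F.Kz z = segment ℝ (F.y a) z := by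
  refine Subset.antisymm (F.Kz_subset_convex (convex_segment _ _) (right_mem_segment _ _ _)
    fun b hb => ?_) (F.segment_subset_Kz (F.S_of_Z h))
  obtain rfl : b = a := mem_singleton_iff.1 (F.mem_of_S_Z hb h)
  exact left_mem_segment _ _ _

/-- `n` is homogeneous along the rays from a vertex in its sector -/
theorem n_ray (h : z ∈ F.S a) (hz : F.m z < 1 / 5) {r : ℝ} (hr : r ∈ Icc (0:ℝ) 1) :
    F.n (F.y a + r • (z - F.y a)) = r * F.n z := by
  refine (F.scale_of hr.1 hz (by rw [aff_ray, F.s_y]; ring) fun i => ⟨?_, fun hi => ?_⟩).2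
  · rw [aff_ray]
    nlinarith [F.l_y_nonneg i a, hr.2]
  · rw [aff_ray, F.l_ne (a := i) (b := a) fun e => hi (e ▸ h)]
    ring

theorem n_le_of_Kz (h0 : 0 ≤ τ) (h5 : τ < 1 / 5) (hz : z ∈ F.T τ) (hx : x ∈ F.Kz z) :
    F.n x ≤ τ := by
  obtain ⟨r, hr, h1, h2⟩ := hx
  rw [(F.scale_of hr.1 (F.m_lt_of_T hz h5) h1 h2).2, show F.n z = τ from hz]
  nlinarith [hr.2]

theorem eq_of_Kz (h0 : 0 < τ) (h5 : τ < 1 / 5) (hz : z ∈ F.T τ) (hx : x ∈ F.Kz z)
    (hn : τ ≤ F.n x) : x = z := by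
  obtain ⟨r, hr, h1, h2⟩ := hx
  rw [(F.scale_of hr.1 (F.m_lt_of_T hz h5) h1 h2).2, show F.n z = τ from hz] at hn
  obtain rfl : r = 1 := le_antisymm hr.2 (by nlinarith)
  simp only [one_mul] at h1 h2
  have e := F.sum x
  have e' := F.sum z
  have k0 := (h2 0).1
  have k1 := (h2 1).1
  have k2 := (h2 2).1
  refine F.ext' (fun k => ?_) h1
  fin_cases k <;> simp only [Fin.zero_eta, Fin.mk_one, Fin.reduceFinMk] <;> linarith

/-- the joins of different points of the torus meet only in the sides -/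
theorem Kz_inter (h0 : 0 < τ) (h5 : τ < 1 / 5) (hz : z ∈ F.T τ) (hz' : z' ∈ F.T τ)
    (hx : x ∈ F.Kz z) (hx' : x ∈ F.Kz z') : z = z' ∨ x ∈ sides F.y := by
  obtain ⟨r, hr, h1, h2⟩ := hx
  obtain ⟨r', hr', k1, k2⟩ := hx'
  have e := (F.scale_of hr.1 (F.m_lt_of_T hz h5) h1 h2).2
  have e' := (F.scale_of hr'.1 (F.m_lt_of_T hz' h5) k1 k2).2
  rw [show F.n z = τ from hz] at e
  rw [show F.n z' = τ from hz'] at e'
  obtain rfl : r = r' := mul_right_cancel₀ h0.ne' (e.symm.trans e')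
  rcases eq_or_lt_of_le hr.1 with r0 | r0
  · exact Or.inr (F.mem_sides.2 (by rw [e, ← r0, zero_mul]))
  left
  have up : ∀ {u u' : E3} {i : Fin 3}, (r * F.l i u ≤ F.l i x) →
      (u' ∉ F.S i → F.l i x = r * F.l i u') → F.l i u' < F.l i u → u' ∈ F.S i := by
    intro u u' i j1 j2 j3
    by_contra j4
    rw [j2 j4] at j1
    exact absurd (le_of_mul_le_mul_left j1 r0) (not_le.2 j3)
  have no : ∀ i j, F.l i z' < F.l i z → F.l j z < F.l j z' → False := by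
    intro i j hi hj
    have j1 := up (h2 i).1 (k2 i).2 hi j
    have j2 := up (k2 j).1 (h2 j).2 hj i
    nlinarith [mul_lt_mul_of_pos_left hi (F.w_pos i), mul_lt_mul_of_pos_left hj (F.w_pos j)]
  have s1 := F.sum z
  have s2 := F.sum z'
  refine F.ext' (fun k => ?_) (mul_left_cancel₀ r0.ne' (h1.symm.trans k1))
  by_contra hk
  rcases lt_or_gt_of_ne hk with hk | hk
  · have j0 := not_lt.1 fun h => no 0 k h hk
    have j1 := not_lt.1 fun h => no 1 k h hk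
    have j2 := not_lt.1 fun h => no 2 k h hk
    fin_cases k <;> simp only [Fin.zero_eta, Fin.mk_one, Fin.reduceFinMk] at hk <;> linarith
  · have j0 := not_lt.1 fun h => no k 0 hk h
    have j1 := not_lt.1 fun h => no k 1 hk h
    have j2 := not_lt.1 fun h => no k 2 hk h
    fin_cases k <;> simp only [Fin.zero_eta, Fin.mk_one, Fin.reduceFinMk] at hk <;> linarith

theorem Kz_S (hx : x ∈ F.Kz z) : ∃ a, z ∈ F.S a ∧ x ∈ F.S a := by
  obtain ⟨r, hr, -, h2⟩ := hx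
  obtain ⟨i, hi⟩ := F.exists_S x
  by_cases hz : z ∈ F.S i
  · exact ⟨i, hz, hi⟩
  · obtain ⟨j, hj⟩ := F.exists_S z
    refine ⟨j, hj, fun k => (hi k).trans ?_⟩
    rw [(h2 i).2 hz]
    nlinarith [mul_le_mul_of_nonneg_left (hj i) hr.1,
      mul_le_mul_of_nonneg_left (h2 j).1 (F.w_pos j).le]

theorem Kz_sides (h0 : 0 < τ) (h5 : τ < 1 / 5) (hz : z ∈ F.T τ) (hJ : z ∈ F.Z J)
    (hx : x ∈ F.Kz z) (hs : x ∈ sides F.y) : x ∈ convexHull ℝ (F.y '' J) := by
  obtain ⟨r, hr, h1, h2⟩ := hx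
  have e := (F.scale_of hr.1 (F.m_lt_of_T hz h5) h1 h2).2
  rw [show F.n z = τ from hz, F.mem_sides.1 hs] at e
  obtain rfl : r = 0 := (mul_eq_zero.1 e.symm).resolve_right h0.ne'
  simp only [zero_mul] at h1 h2
  exact F.mem_hull.2 ⟨h1, fun i => ⟨(h2 i).1, fun hi => (h2 i).2 (hJ i hi)⟩⟩

theorem Kz_tri (hz : F.m z < 1 / 5) (hx : x ∈ F.Kz z) (ht : x ∈ convexHull ℝ (range F.y)) :
    x ∈ sides F.y ∨ z ∈ convexHull ℝ (range F.y) := by
  obtain ⟨r, hr, h1, h2⟩ := hx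
  obtain ⟨e, e'⟩ := F.scale_of hr.1 hz h1 h2
  rcases eq_or_lt_of_le hr.1 with r0 | r0
  · exact Or.inl (F.mem_sides.2 (by rw [e', ← r0, zero_mul]))
  · obtain ⟨k1, k2⟩ := F.mem_tri.1 ht
    rw [h1] at k1
    rw [e] at k2
    exact Or.inr (F.mem_tri.2 ⟨(mul_eq_zero.1 k1).resolve_left r0.ne',
      nonneg_of_mul_nonneg_right k2 r0⟩)

theorem mem_K {c : Set E3} : x ∈ F.K c ↔ ∃ z ∈ c, x ∈ F.Kz z := by
  simp only [K, mem_iUnion, exists_prop]

/-! ### the triangles are discs -/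

theorem conBall_tri : ConBall 2 (convexHull ℝ (range F.y)) (sides F.y) := by
  have hne : F.y 1 ≠ F.y 2 := fun h => absurd (F.y_injective h) (by decide)
  have hb : RayBaseAt (F.y 0) (segment ℝ (F.y 1) (F.y 2)) := by
    have h0 : ∀ x ∈ segment ℝ (F.y 1) (F.y 2), F.l 0 x = 0 := fun x hx =>
      ((F.mem_seg.1 hx).2 0).2 (by decide) (by decide)
    refine rayBaseAt_iff.2 ⟨(isArc_segment hne).isCompact, fun h => ?_, fun x hx r _ h => ?_⟩
    · have := h0 _ h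
      rw [F.l_self] at this
      exact one_ne_zero this
    · have := h0 _ h
      rw [aff_ray, F.l_self, h0 x hx] at this
      linarith
  have := conBall_coneArc hb (isArc_segment hne)
  rw [coneSetAt_segment] at this
  have e1 : range F.y = {F.y 0, F.y 1, F.y 2} := by
    ext x
    simp [Fin.exists_fin_succ, eq_comm]
  have e2 : sides F.y = segment ℝ (F.y 1) (F.y 2) ∪
      (segment ℝ (F.y 0) (F.y 1) ∪ segment ℝ (F.y 0) (F.y 2)) := by
    ext x
    simp only [sides, mem_iUnion, Fin.exists_fin_succ, mem_union]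
    rw [segment_symm ℝ (F.y 0) (F.y 2)]
    simp [or_comm]
  rwa [e1, e2]

theorem conBall_inner (h3 : τ < 1 / 3) (σ : ℝ) :
    ConBall 2 {x | τ ≤ F.m x ∧ F.s x = σ} {x | F.m x = τ ∧ F.s x = σ} := by
  have hp : 0 < 1 - 3 * τ := by linarith
  set f : E3 → E3 := fun x => F.pt (fun k => τ + (1 - 3 * τ) * F.l k x) (σ + F.s x) with hf
  have hu : ∀ x, (τ + (1 - 3 * τ) * F.l 0 x) + (τ + (1 - 3 * τ) * F.l 1 x) +
      (τ + (1 - 3 * τ) * F.l 2 x) = 1 := fun x => by linear_combination (1 - 3 * τ) * F.sum x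
  have hl : ∀ k x, F.l k (f x) = τ + (1 - 3 * τ) * F.l k x := fun k x => F.l_pt (hu x) _ k
  have hs : ∀ x, F.s (f x) = σ + F.s x := fun x => F.s_pt (hu x) _
  have hm : ∀ x, F.m (f x) = τ + (1 - 3 * τ) * F.m x := fun x => by
    obtain ⟨k, hk⟩ := F.exists_m x
    exact F.m_eq_iff.2 ⟨fun i => by rw [hl]; nlinarith [F.m_le i x], k, by rw [hl, hk]⟩
  have hsur : ∀ u, ∃ x, f x = u := fun u => by
    have hv : (F.l 0 u - τ) / (1 - 3 * τ) + (F.l 1 u - τ) / (1 - 3 * τ) +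
        (F.l 2 u - τ) / (1 - 3 * τ) = 1 := by
      rw [← add_div, ← add_div, div_eq_one_iff_eq hp.ne']
      linear_combination F.sum u
    refine ⟨F.pt (fun k => (F.l k u - τ) / (1 - 3 * τ)) (F.s u - σ), F.ext' (fun k => ?_) ?_⟩
    · rw [hl, F.l_pt (u := fun k => (F.l k u - τ) / (1 - 3 * τ)) hv, mul_div_cancel₀ _ hp.ne']
      ring
    · rw [hs, F.s_pt (u := fun k => (F.l k u - τ) / (1 - 3 * τ)) hv]
      ring
  have hpl : PLOn f univ := by
    have k : ∀ (g : E3 → ℝ) (v : E3), PLOn g univ → PLOn (fun x => g x • v) univ := fun g v hg =>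
      A2.pl_comp_univ (A2.pl_clm (ContinuousLinearMap.toSpanSingleton ℝ v) A2.conicalSet_univ) hg
    have k1 : ∀ i, PLOn (fun x => τ + (1 - 3 * τ) * F.l i x) univ := fun i =>
      A2.pl_add (A2.pl_const _ A2.conicalSet_univ) (A2.pl_mul _ (pl_aff _))
    exact A2.pl_add (A2.pl_add (A2.pl_add (k _ _ (k1 0)) (k _ _ (k1 1))) (k _ _ (k1 2)))
      (k _ _ (A2.pl_add (A2.pl_const _ A2.conicalSet_univ) (pl_aff _)))
  have hinj : Function.Injective f := fun x x' h => F.ext'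
    (fun k => by
      have := congrArg (F.l k) h
      rw [hl, hl] at this
      exact mul_left_cancel₀ hp.ne' (add_left_cancel this))
    (by
      have := congrArg F.s h
      rw [hs, hs] at this
      exact add_left_cancel this)
  have hD := F.conBall_tri
  obtain ⟨Q, hQ⟩ := Sh.exists_ofCompact hD.isCompact f (hpl.1.mono (subset_univ _)) hinj.injOn
    (hpl.2.mono hD.conicalSet (subset_univ _)) rfl
  have := hD.image Q Subset.rfl
  rw [hQ] at this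
  convert this using 1
  · ext u
    obtain ⟨x, rfl⟩ := hsur u
    rw [hinj.mem_set_image, mem_tri, mem_ofPred_eq, hm, hs]
    constructor
    · rintro ⟨h1, h2⟩
      exact ⟨by linarith, nonneg_of_mul_nonneg_right (by linarith) hp⟩
    · rintro ⟨h1, h2⟩
      exact ⟨by nlinarith, by linarith⟩
  · ext u
    obtain ⟨x, rfl⟩ := hsur u
    rw [hinj.mem_set_image, mem_sides, n_eq_zero, mem_ofPred_eq, hm, hs]
    constructor
    · rintro ⟨h1, h2⟩
      exact ⟨(mul_eq_zero.1 (by linarith)).resolve_left hp.ne', by linarith⟩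
    · rintro ⟨h1, h2⟩
      exact ⟨by rw [h1]; ring, by linarith⟩

end Fr

end P073
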