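import Vale.Agent.P073Z.FLAT.Sk
import Vale.Agent.P073Z.A2.PL
import Vale.Agent.P073Z.A3
import Vale.Agent.P073Z.RCX
import Vale.Agent.P073Z.SHELL.A

/-!
# Calculus in a frame
-/

open Set Metric Topology Filter

namespace P073

theorem coneSetAt_pair {E : Type} [NormedAddCommGroup E] [NormedSpace ℝ E] (a p q : E) :
    coneSetAt a {p, q} = segment ℝ a p ∪ segment ℝ a q := by
  ext x
  simp only [coneSetAt, segment_eq_image', mem_ofPred_eq, mem_union, mem_image, mem_insert_iff,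
    mem_singleton_iff]
  constructor
  · rintro ⟨r, hr, z, rfl | rfl, rfl⟩
    · exact Or.inl ⟨r, hr, rfl⟩
    · exact Or.inr ⟨r, hr, rfl⟩
  · rintro (⟨r, hr, rfl⟩ | ⟨r, hr, rfl⟩)
    · exact ⟨r, hr, p, Or.inl rfl, rfl⟩
    · exact ⟨r, hr, q, Or.inr rfl, rfl⟩

/-- the cone over an arc is a disc -/
theorem conBall_coneArc {E : Type} [NormedAddCommGroup E] [NormedSpace ℝ E]
    [FiniteDimensional ℝ E] {a p q : E} {c : Set E} (h : RayBaseAt a c) (hc : IsArc c p q) :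
    ConBall 2 (coneSetAt a c) (c ∪ (segment ℝ a p ∪ segment ℝ a q)) := by
  rw [← coneSetAt_pair]
  exact (coneb (n := 0) (B := {p, q}) h).2.1 hc.conBall

theorem coneSetAt_segment {E : Type} [NormedAddCommGroup E] [NormedSpace ℝ E] (a p q : E) :
    coneSetAt a (segment ℝ p q) = convexHull ℝ {a, p, q} := by
  rw [convexHull_insert ⟨p, by simp⟩, convexHull_pair]
  ext x
  simp only [coneSetAt, mem_ofPred_eq, mem_convexJoin, mem_singleton_iff, exists_eq_left,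
    segment_eq_image' ℝ a, mem_image]
  constructor
  · rintro ⟨r, hr, z, hz, rfl⟩
    exact ⟨z, hz, r, hr, rfl⟩
  · rintro ⟨z, hz, r, hr, rfl⟩
    exact ⟨r, hr, z, hz, rfl⟩

namespace Fr

theorem aff_add_smul (f : E3 →ᵃ[ℝ] ℝ) (x v : E3) (r : ℝ) :
    f (x + r • v) = f x + r * f.linear v := by
  rw [add_comm x, ← vadd_eq_add, f.map_vadd, vadd_eq_add, add_comm, map_smul, smul_eq_mul]

theorem aff_linear_sub (f : E3 →ᵃ[ℝ] ℝ) (x z : E3) : f.linear (z - x) = f z - f x := by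
  rw [← vsub_eq_sub, f.linearMap_vsub, vsub_eq_sub]

theorem aff_ray (f : E3 →ᵃ[ℝ] ℝ) (a z : E3) (r : ℝ) :
    f (a + r • (z - a)) = f a + r * (f z - f a) := by
  rw [aff_add_smul, aff_linear_sub]

theorem aff_comb (f : E3 →ᵃ[ℝ] ℝ) (a z : E3) {r r' : ℝ} (h : r + r' = 1) :
    f (r • a + r' • z) = r * f a + r' * f z := by
  have : r • a + r' • z = a + r' • (z - a) := by
    rw [eq_sub_of_add_eq h]
    module
  rw [this, aff_ray, eq_sub_of_add_eq h]
  ring

theorem cont_aff (f : E3 →ᵃ[ℝ] ℝ) : Continuous f := f.continuous_of_finiteDimensional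

theorem pl_aff (f : E3 →ᵃ[ℝ] ℝ) : PLOn (fun x => f x) univ :=
  ⟨(cont_aff f).continuousOn, conicalOn_of_affine f A2.conicalSet_univ⟩

theorem third {a b : Fin 3} (h : a ≠ b) :
    ∃ c, c ≠ a ∧ c ≠ b ∧ ∀ i, i = a ∨ i = b ∨ i = c := by
  revert a b
  decide

theorem exists_pair {J : Set (Fin 3)} (hJ : J ≠ univ) (hne : J.Nonempty) :
    ∃ a b, J = {a, b} := by
  obtain ⟨a, ha⟩ := hne
  by_cases h : ∃ b ∈ J, b ≠ a
  · obtain ⟨b, hb, hba⟩ := h
    obtain ⟨c, -, -, hc⟩ := third hba.symm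
    refine ⟨a, b, Subset.antisymm (fun i hi => ?_) ?_⟩
    · rcases hc i with rfl | rfl | rfl
      · exact Or.inl rfl
      · exact Or.inr rfl
      · exact absurd (eq_univ_of_forall fun j => by
          rcases hc j with rfl | rfl | rfl <;> assumption) hJ
    · rintro i (rfl | rfl) <;> assumption
  · refine ⟨a, a, Subset.antisymm (fun i hi => Or.inl ?_) ?_⟩
    · by_contra hh
      exact h ⟨i, hi, hh⟩
    · rintro i (rfl | rfl) <;> assumption

variable (F : Fr) {x x' z z' : E3} {a b c : Fin 3} {τ : ℝ} {J : Set (Fin 3)}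

theorem l_add_ν (k : Fin 3) (x : E3) (r : ℝ) : F.l k (x + r • F.ν) = F.l k x := by
  rw [aff_add_smul, F.l_ν, mul_zero, add_zero]

theorem s_add_ν (x : E3) (r : ℝ) : F.s (x + r • F.ν) = F.s x + r := by
  rw [aff_add_smul, F.s_ν, mul_one]

theorem ext' (hl : ∀ k, F.l k x = F.l k x') (hs : F.s x = F.s x') : x = x' := by
  rw [F.rep x, F.rep x', hl 0, hl 1, hl 2, hs]

theorem l_self (a : Fin 3) : F.l a (F.y a) = 1 := by rw [F.l_y, if_pos rfl]

theorem l_ne (h : a ≠ b) : F.l a (F.y b) = 0 := by rw [F.l_y, if_neg h]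

theorem l_y_nonneg (a b : Fin 3) : 0 ≤ F.l a (F.y b) := by
  rw [F.l_y]
  split_ifs <;> norm_num

theorem y_injective : Function.Injective F.y := fun a b h => by
  by_contra hab
  have := F.l_ne hab
  rw [← h, F.l_self] at this
  exact one_ne_zero this

theorem sum3 (hab : a ≠ b) (hca : c ≠ a) (hcb : c ≠ b) (x : E3) :
    F.l a x + F.l b x + F.l c x = 1 := by
  have := F.sum x
  fin_cases a <;> fin_cases b <;> fin_cases c <;> simp at hab hca hcb ⊢ <;> linarith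

theorem w_pos (k : Fin 3) : 0 < F.w k := lt_of_lt_of_le one_pos (F.w_mem k).1

/-- the point with given coordinates -/
def pt (u : Fin 3 → ℝ) (σ : ℝ) : E3 := u 0 • F.y 0 + u 1 • F.y 1 + u 2 • F.y 2 + σ • F.ν

theorem aff_pt (f : E3 →ᵃ[ℝ] ℝ) {u : Fin 3 → ℝ} (hu : u 0 + u 1 + u 2 = 1) (σ : ℝ) :
    f (F.pt u σ) = u 0 * f (F.y 0) + u 1 * f (F.y 1) + u 2 * f (F.y 2) + σ * f.linear F.ν := by
  have h0 : u 0 = 1 - u 1 - u 2 := by linarith
  have : F.pt u σ = F.y 0 + u 1 • (F.y 1 - F.y 0) + u 2 • (F.y 2 - F.y 0) + σ • F.ν := by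
    rw [pt, h0]
    module
  rw [this, aff_add_smul, aff_add_smul, aff_add_smul, aff_linear_sub, aff_linear_sub, h0]
  ring

theorem l_pt {u : Fin 3 → ℝ} (hu : u 0 + u 1 + u 2 = 1) (σ : ℝ) (k : Fin 3) :
    F.l k (F.pt u σ) = u k := by
  rw [F.aff_pt _ hu, F.l_ν]
  fin_cases k <;> simp [F.l_y]

theorem s_pt {u : Fin 3 → ℝ} (hu : u 0 + u 1 + u 2 = 1) (σ : ℝ) : F.s (F.pt u σ) = σ := by
  rw [F.aff_pt _ hu, F.s_ν]
  simp [F.s_y]

theorem pt_self (x : E3) : F.pt (fun k => F.l k x) (F.s x) = x := (F.rep x).symm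

/-! ### the functions `m`, `n`, `g` -/

theorem m_le (k : Fin 3) (x : E3) : F.m x ≤ F.l k x := by
  fin_cases k
  · exact min_le_left _ _
  · exact (min_le_right _ _).trans (min_le_left _ _)
  · exact (min_le_right _ _).trans (min_le_right _ _)

theorem exists_m (x : E3) : ∃ k, F.m x = F.l k x := by
  rcases min_choice (F.l 0 x) (min (F.l 1 x) (F.l 2 x)) with h | h
  · exact ⟨0, h⟩
  · rcases min_choice (F.l 1 x) (F.l 2 x) with h' | h'
    · exact ⟨1, h.trans h'⟩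
    · exact ⟨2, h.trans h'⟩

theorem le_m {r : ℝ} : r ≤ F.m x ↔ ∀ k, r ≤ F.l k x :=
  ⟨fun h k => h.trans (F.m_le k x), fun h => by
    obtain ⟨k, hk⟩ := F.exists_m x
    rw [hk]
    exact h k⟩

theorem m_eq_iff {r : ℝ} : F.m x = r ↔ (∀ k, r ≤ F.l k x) ∧ ∃ k, F.l k x = r := by
  constructor
  · rintro rfl
    obtain ⟨k, hk⟩ := F.exists_m x
    exact ⟨fun k => F.m_le k x, k, hk.symm⟩
  · rintro ⟨h, k, hk⟩
    exact le_antisymm (hk ▸ F.m_le k x) (F.le_m.2 h)

theorem m_congr (h : ∀ k, F.l k x = F.l k x') : F.m x = F.m x' := by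
  simp only [m, h]

theorem m_add_ν (x : E3) (r : ℝ) : F.m (x + r • F.ν) = F.m x :=
  F.m_congr fun k => F.l_add_ν k x r

theorem pl_m : PLOn F.m univ :=
  A2.pl_min (pl_aff _) (A2.pl_min (pl_aff _) (pl_aff _))

theorem pl_n : PLOn F.n univ := A2.pl_max (A2.pl_abs F.pl_m) (A2.pl_abs (pl_aff _))

theorem pl_g (τ : ℝ) : PLOn (F.g τ) univ :=
  A2.pl_max (A2.pl_abs (pl_aff _)) (A2.pl_sub (A2.pl_const τ A2.conicalSet_univ) F.pl_m)

theorem continuous_m : Continuous F.m := continuousOn_univ.1 F.pl_m.1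

theorem continuous_n : Continuous F.n := continuousOn_univ.1 F.pl_n.1

theorem continuous_g (τ : ℝ) : Continuous (F.g τ) := continuousOn_univ.1 (F.pl_g τ).1

theorem isClosed_T (τ : ℝ) : IsClosed (F.T τ) := isClosed_eq F.continuous_n continuous_const

theorem n_nonneg (x : E3) : 0 ≤ F.n x := (abs_nonneg _).trans (le_max_left _ _)

theorem n_le_iff {r : ℝ} : F.n x ≤ r ↔ |F.m x| ≤ r ∧ |F.s x| ≤ r := max_le_iff

theorem g_le_iff {r : ℝ} : F.g τ x ≤ r ↔ |F.s x| ≤ r ∧ τ - F.m x ≤ r := max_le_iff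

theorem n_eq_zero : F.n x = 0 ↔ F.m x = 0 ∧ F.s x = 0 := by
  rw [← abs_nonpos_iff (a := F.m x), ← abs_nonpos_iff (a := F.s x), ← n_le_iff]
  exact ⟨fun h => h.le, fun h => le_antisymm h (F.n_nonneg x)⟩

/-- outside the torus the sublevel sets of `g` are the prisms over the inner triangle -/
theorem le_m_of_g {r : ℝ} (hr : r < τ) (hn : τ ≤ F.n x) (hg : F.g τ x ≤ r) : τ ≤ F.m x := by
  obtain ⟨h1, h2⟩ := F.g_le_iff.1 hg
  rcases le_max_iff.1 hn with h | h
  · rwa [abs_of_nonneg (by linarith)] at h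
  · linarith

theorem g_eq_of_le_m (h : τ ≤ F.m x) : F.g τ x = |F.s x| :=
  max_eq_left ((sub_nonpos.2 h).trans (abs_nonneg _))

theorem le_n_of_le_m (h : τ ≤ F.m x) : τ ≤ F.n x :=
  h.trans ((le_abs_self _).trans (le_max_left _ _))

theorem mem_T_iff (h0 : 0 ≤ F.m x) (hs : |F.s x| < τ) : x ∈ F.T τ ↔ F.m x = τ := by
  change max |F.m x| |F.s x| = τ ↔ _
  rw [abs_of_nonneg h0]
  constructor
  · intro h
    rcases max_choice (F.m x) |F.s x| with k | k
    · exact k.symm.trans h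
    · exact absurd (k.symm.trans h) hs.ne
  · intro h
    rw [max_eq_left (h ▸ hs.le), h]

/-! ### the triangle and its faces -/

theorem mem_of_coord {C : Set E3} (hC : Convex ℝ C) {r : ℝ} (hr : 0 ≤ r) (hz : r ≠ 0 → z ∈ C)
    (hs : F.s x = r * F.s z) (h1 : ∀ i, r * F.l i z ≤ F.l i x)
    (h2 : ∀ i, F.l i x ≠ r * F.l i z → F.y i ∈ C) : x ∈ C := by
  classical
  have e : ∑ i : Option (Fin 3), (i.elim r fun k => F.l k x - r * F.l k z) •
      (i.elim z F.y) = x := by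
    rw [Fintype.sum_option, Fin.sum_univ_three]
    simp only [Option.elim]
    conv_rhs => rw [F.rep x, hs]
    conv_lhs => rw [show r • z = r • (F.l 0 z • F.y 0 + F.l 1 z • F.y 1 + F.l 2 z • F.y 2 +
      F.s z • F.ν) by rw [← F.rep z]]
    module
  rw [← e, ← Finset.sum_filter_of_ne (p := fun i : Option (Fin 3) =>
    (i.elim r fun k => F.l k x - r * F.l k z) ≠ 0) fun i _ h h0 => h (by rw [h0, zero_smul])]
  refine hC.sum_mem ?_ ?_ ?_
  · rintro (_ | i) -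
    · exact hr
    · exact sub_nonneg.2 (h1 i)
  · rw [Finset.sum_filter_ne_zero, Fintype.sum_option, Fin.sum_univ_three]
    simp only [Option.elim]
    linear_combination F.sum x - r * F.sum z
  · rintro (_ | i) hi
    · exact hz (Finset.mem_filter.1 hi).2
    · exact h2 i (sub_ne_zero.1 (Finset.mem_filter.1 hi).2)

theorem mem_hull : x ∈ convexHull ℝ (F.y '' J) ↔
    F.s x = 0 ∧ ∀ i, 0 ≤ F.l i x ∧ (i ∉ J → F.l i x = 0) := by
  constructor
  · intro h
    refine convexHull_min (t := {x | F.s x = 0 ∧ ∀ i, 0 ≤ F.l i x ∧ (i ∉ J → F.l i x = 0)})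
      ?_ ?_ h
    · rintro _ ⟨k, hk, rfl⟩
      exact ⟨F.s_y k, fun i => ⟨F.l_y_nonneg i k, fun hi => F.l_ne fun e => hi (e ▸ hk)⟩⟩
    · intro u hu v hv r r' hr hr' e
      refine ⟨by rw [aff_comb _ _ _ e, hu.1, hv.1]; ring, fun i => ?_⟩
      rw [aff_comb _ _ _ e]
      refine ⟨add_nonneg (mul_nonneg hr (hu.2 i).1) (mul_nonneg hr' (hv.2 i).1), fun hi => ?_⟩
      rw [(hu.2 i).2 hi, (hv.2 i).2 hi]
      ring
  · rintro ⟨h1, h2⟩
    refine F.mem_of_coord (z := x) (convex_convexHull ℝ _) le_rfl (fun h => absurd rfl h)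
      (by rw [h1, zero_mul]) (fun i => by rw [zero_mul]; exact (h2 i).1) fun i hi => ?_
    refine subset_convexHull ℝ _ ⟨i, ?_, rfl⟩
    by_contra hJ
    exact hi (by rw [zero_mul]; exact (h2 i).2 hJ)

theorem mem_tri : x ∈ convexHull ℝ (range F.y) ↔ F.s x = 0 ∧ 0 ≤ F.m x := by
  rw [← image_univ, mem_hull, le_m]
  simp

theorem segment_eq_hull (a b : Fin 3) :
    segment ℝ (F.y a) (F.y b) = convexHull ℝ (F.y '' {a, b}) := by
  rw [image_pair, convexHull_pair]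

theorem mem_seg : x ∈ segment ℝ (F.y a) (F.y b) ↔
    F.s x = 0 ∧ ∀ i, 0 ≤ F.l i x ∧ (i ≠ a → i ≠ b → F.l i x = 0) := by
  rw [segment_eq_hull, mem_hull]
  simp

theorem mem_sides : x ∈ sides F.y ↔ F.n x = 0 := by
  have key : ∀ k i : Fin 3, (i ≠ k + 1 ∧ i ≠ k + 2) ↔ i = k := by decide
  rw [n_eq_zero, m_eq_iff, sides, mem_iUnion]
  constructor
  · rintro ⟨k, hk⟩
    obtain ⟨h1, h2⟩ := F.mem_seg.1 hk
    have := (key k k).2 rfl
    exact ⟨⟨fun i => (h2 i).1, k, (h2 k).2 this.1 this.2⟩, h1⟩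
  · rintro ⟨⟨h1, k, hk⟩, h2⟩
    exact ⟨k, F.mem_seg.2 ⟨h2, fun i => ⟨h1 i, fun e e' => (key k i).1 ⟨e, e'⟩ ▸ hk⟩⟩⟩

theorem n_pos (h : x ∉ sides F.y) : 0 < F.n x :=
  lt_of_le_of_ne (F.n_nonneg x) fun e => h (F.mem_sides.2 e.symm)

theorem hull_subset_sides (hJ : J ≠ univ) : convexHull ℝ (F.y '' J) ⊆ sides F.y := by
  intro x hx
  obtain ⟨h1, h2⟩ := F.mem_hull.1 hx
  obtain ⟨k, hk⟩ := (ne_univ_iff_exists_notMem J).1 hJ
  exact F.mem_sides.2 (F.n_eq_zero.2 ⟨F.m_eq_iff.2 ⟨fun i => (h2 i).1, k, (h2 k).2 hk⟩, h1⟩)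

theorem pair_ne_univ (a b : Fin 3) : ({a, b} : Set (Fin 3)) ≠ univ := by
  have : ∀ a b : Fin 3, ∃ c, c ≠ a ∧ c ≠ b := by decide
  obtain ⟨c, h1, h2⟩ := this a b
  exact (ne_univ_iff_exists_notMem _).2 ⟨c, by simp [h1, h2]⟩

theorem segment_subset_sides (a b : Fin 3) : segment ℝ (F.y a) (F.y b) ⊆ sides F.y := by
  rw [segment_eq_hull]
  exact F.hull_subset_sides (pair_ne_univ a b)

theorem y_mem_sides (a : Fin 3) : F.y a ∈ sides F.y :=
  F.segment_subset_sides a a (left_mem_segment _ _ _)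

theorem n_y (a : Fin 3) : F.n (F.y a) = 0 := F.mem_sides.1 (F.y_mem_sides a)

theorem sides_subset_tri : sides F.y ⊆ convexHull ℝ (range F.y) := fun _ hx =>
  have h := F.n_eq_zero.1 (F.mem_sides.1 hx)
  F.mem_tri.2 ⟨h.2, h.1.ge⟩

theorem isClosed_sides : IsClosed (sides F.y) := by
  have : sides F.y = F.T 0 := Set.ext fun _ => F.mem_sides
  rw [this]
  exact F.isClosed_T 0

/-! ### sectors -/

theorem exists_S (x : E3) : ∃ a, x ∈ F.S a := by
  obtain ⟨a, -, ha⟩ := Finset.exists_max_image Finset.univ (fun i => F.w i * F.l i x)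
    Finset.univ_nonempty
  exact ⟨a, fun i => ha i (Finset.mem_univ i)⟩

theorem l_ge_of_S (h : x ∈ F.S a) : 1 / 5 ≤ F.l a x := by
  obtain ⟨b, hb⟩ := exists_ne a
  replace hb := hb.symm
  obtain ⟨c, h1, h2, -⟩ := third hb
  have e := F.sum3 hb h1 h2 x
  have k1 := h b
  have k2 := h c
  have wa := F.w_mem a
  have wb := F.w_mem b
  have wc := F.w_mem c
  have key : ∀ i, F.l i x ≤ 2 * max (F.l a x) 0 := fun i => by
    have j1 := h i
    have j2 := F.w_mem i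
    have j3 : F.w a * F.l a x ≤ 2 * max (F.l a x) 0 := by
      nlinarith [le_max_left (F.l a x) 0, le_max_right (F.l a x) 0, wa.1, wa.2]
    by_contra hc
    have j4 := not_le.1 hc
    nlinarith [le_max_right (F.l a x) 0, j2.1]
  have j1 := key b
  have j2 := key c
  rcases le_total (F.l a x) 0 with h0 | h0
  · rw [max_eq_right h0] at j1 j2
    linarith
  · rw [max_eq_left h0] at j1 j2
    linarith

theorem S_congr (h : ∀ k, F.l k x = F.l k x') : x ∈ F.S a ↔ x' ∈ F.S a := by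
  simp only [S, mem_ofPred_eq, h]

theorem Z_congr (h : ∀ k, F.l k x = F.l k x') : x ∈ F.Z J ↔ x' ∈ F.Z J := by
  simp only [Z, mem_ofPred_eq, F.S_congr h]

theorem isClosed_S (a : Fin 3) : IsClosed (F.S a) := by
  rw [S, ofPred_forall]
  exact isClosed_iInter fun i => isClosed_le (continuous_const.mul (cont_aff _))
    (continuous_const.mul (cont_aff _))

theorem convex_S (a : Fin 3) : Convex ℝ (F.S a) := by
  intro u hu v hv r r' hr hr' e i
  rw [aff_comb _ _ _ e, aff_comb _ _ _ e]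
  nlinarith [mul_le_mul_of_nonneg_left (hu i) hr, mul_le_mul_of_nonneg_left (hv i) hr']

theorem isOpen_Z (J : Set (Fin 3)) : IsOpen (F.Z J) := by
  rw [Z, ofPred_forall]
  refine isOpen_iInter_of_finite fun j => ?_
  by_cases hj : j ∈ J
  · simp [hj]
  · simp only [hj, not_false_eq_true, forall_const]
    exact (F.isClosed_S j).isOpen_compl

theorem Z_mono {J' : Set (Fin 3)} (h : J ⊆ J') : F.Z J ⊆ F.Z J' :=
  fun _ hx j hj => hx j fun hj' => hj (h hj')

theorem mem_of_S_Z (h : x ∈ F.S a) (hZ : x ∈ F.Z J) : a ∈ J := by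
  by_contra ha
  exact hZ a ha h

theorem exists_S_of_Z (h : x ∈ F.Z J) : ∃ a ∈ J, x ∈ F.S a := by
  obtain ⟨a, ha⟩ := F.exists_S x
  exact ⟨a, F.mem_of_S_Z ha h, ha⟩

theorem S_of_Z (h : x ∈ F.Z {a}) : x ∈ F.S a := by
  obtain ⟨b, rfl, hb⟩ := F.exists_S_of_Z h
  exact hb

theorem y_mem_Z (a : Fin 3) : F.y a ∈ F.Z {a} := fun j hj h => by
  have := F.l_ge_of_S h
  rw [F.l_ne hj] at this
  norm_num at this

theorem y_mem_S (a : Fin 3) : F.y a ∈ F.S a := F.S_of_Z (F.y_mem_Z a)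

theorem hull_subset_Z : convexHull ℝ (F.y '' J) ⊆ F.Z J := fun _ hx j hj h => by
  have := F.l_ge_of_S h
  rw [((F.mem_hull.1 hx).2 j).2 hj] at this
  norm_num at this

/-- outside the third sector, the wall between two sectors is a plane -/
theorem wall_iff (hc : ∀ i, i = a ∨ i = b ∨ i = c) (h : x ∉ F.S c) :
    (x ∈ F.S a ∧ x ∈ F.S b) ↔ F.w a * F.l a x = F.w b * F.l b x := by
  refine ⟨fun k => le_antisymm (k.2 a) (k.1 b), fun k => ?_⟩
  obtain ⟨i, hi⟩ := F.exists_S x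
  rcases hc i with rfl | rfl | rfl
  · exact ⟨hi, fun j => k ▸ hi j⟩
  · exact ⟨fun j => k ▸ hi j, hi⟩
  · exact absurd hi h

/-- on a wall near the sides the third coordinate is the least one -/
theorem m_eq_of_wall (hc : ∀ i, i = a ∨ i = b ∨ i = c) (ha : x ∈ F.S a) (hb : x ∈ F.S b)
    (hm : F.m x < 1 / 5) : F.m x = F.l c x := by
  obtain ⟨i, hi⟩ := F.exists_m x
  rcases hc i with rfl | rfl | rfl
  · linarith [F.l_ge_of_S ha]
  · linarith [F.l_ge_of_S hb]
  · exact hi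

/-- a point of a wall near the sides is determined by `m` and `s` -/
theorem wall_unique (hab : a ≠ b) (ha : x ∈ F.S a) (hb : x ∈ F.S b) (ha' : x' ∈ F.S a)
    (hb' : x' ∈ F.S b) (hm : F.m x < 1 / 5) (e : F.m x = F.m x') (e' : F.s x = F.s x') :
    x = x' := by
  obtain ⟨c, h1, h2, hc⟩ := third hab
  have k1 := F.m_eq_of_wall hc ha hb hm
  have k2 := F.m_eq_of_wall hc ha' hb' (e ▸ hm)
  have k3 := F.sum3 hab h1 h2 x
  have k4 := F.sum3 hab h1 h2 x'
  have k5 := le_antisymm (hb a) (ha b)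
  have k6 := le_antisymm (hb' a) (ha' b)
  have k7 : F.l a x = F.l a x' := by
    have : (F.w a + F.w b) * (F.l a x - F.l a x') = 0 := by
      have : F.l b x - F.l b x' = -(F.l a x - F.l a x') := by linarith
      linear_combination k5 - k6 + F.w b * this
    exact sub_eq_zero.1 ((mul_eq_zero.1 this).resolve_left (add_pos (F.w_pos a) (F.w_pos b)).ne')
  refine F.ext' (fun i => ?_) e'
  rcases hc i with rfl | rfl | rfl <;> linarith

end Fr

end P073
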