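import Vale.Agent.P073Z.FLAT.Sk
import Vale.Agent.P073Z.A1

/-!
# A frame with generic walls
-/

open Set Metric Topology Filter

namespace P073

namespace FLF

/-- off finitely many parameters a point of a line is inside or outside a convex set -/
theorem line_bad {σ : Set E3} (hc : Convex ℝ σ) (hcl : IsClosed σ) (a d : E3) :
    ∃ B : Set ℝ, B.Finite ∧ ∀ t, t ∉ B → ∀ᶠ r in 𝓝[>] (0:ℝ),
      (a + t • d - r • d ∈ σ ∧ a + t • d + r • d ∈ σ) ∨ ∀ z ∈ σ, r < dist z (a + t • d) := by
  set I : Set ℝ := {t | a + t • d ∈ σ} with hI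
  have hIc : Convex ℝ I := by
    intro u hu v hv p q hp hq hpq
    have h := hc hu hv hp hq hpq
    have e : p • (a + u • d) + q • (a + v • d) = a + (p • u + q • v) • d := by
      have : a = (p + q) • a := by rw [hpq, one_smul]
      simp only [smul_add, smul_smul, smul_eq_mul, add_smul] at this ⊢
      calc _ = (p • a + q • a) + ((p * u) • d + (q * v) • d) := by abel
        _ = _ := by rw [← this]
    rw [e] at h
    exact h
  have hIo : I.OrdConnected := hIc.ordConnected
  refine ⟨{t | IsLeast I t} ∪ {t | IsGreatest I t}, ?_, fun t ht => ?_⟩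
  · refine Set.Finite.union (Set.Subsingleton.finite ?_) (Set.Subsingleton.finite ?_)
    · exact fun u hu v hv => hu.unique hv
    · exact fun u hu v hv => hu.unique hv
  by_cases htI : t ∈ I
  · have h1 : ∃ u ∈ I, u < t := by
      by_contra h
      push Not at h
      exact ht (Or.inl ⟨htI, fun u hu => h u hu⟩)
    have h2 : ∃ u ∈ I, t < u := by
      by_contra h
      push Not at h
      exact ht (Or.inr ⟨htI, fun u hu => h u hu⟩)
    obtain ⟨u, hu, hut⟩ := h1
    obtain ⟨v, hv, htv⟩ := h2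
    have hpos : 0 < min (t - u) (v - t) := lt_min (by linarith) (by linarith)
    filter_upwards [Ioo_mem_nhdsGT hpos] with r hr
    have hr1 : r < t - u := lt_of_lt_of_le hr.2 (min_le_left _ _)
    have hr2 : r < v - t := lt_of_lt_of_le hr.2 (min_le_right _ _)
    left
    have m1 : t - r ∈ I := hIo.out hu hv ⟨by linarith, by linarith [hr.1]⟩
    have m2 : t + r ∈ I := hIo.out hu hv ⟨by linarith [hr.1], by linarith⟩
    constructor
    · have e : a + t • d - r • d = a + (t - r) • d := by rw [sub_smul]; abel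
      rw [e]; exact m1
    · have e : a + t • d + r • d = a + (t + r) • d := by rw [add_smul]; abel
      rw [e]; exact m2
  · obtain ⟨ε, hε, hb⟩ := Metric.isOpen_iff.1 hcl.isOpen_compl _ htI
    filter_upwards [Ioo_mem_nhdsGT hε] with r hr
    right
    intro z hz
    by_contra h
    push Not at h
    exact hb (mem_ball.2 (lt_of_le_of_lt h hr.2)) hz

/-- off finitely many parameters a compact polyhedron is a product along a line -/
theorem poly_bad {X : Set E3} (hX : IsCompact X) (hL : LocCone X) (a d : E3) :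
    ∃ B : Set ℝ, B.Finite ∧ ∀ t, t ∉ B → ∃ r > 0, ∀ z ∈ X, dist z (a + t • d) ≤ r →
      convexHull ℝ {a + t • d - r • d, a + t • d + r • d, z} ⊆ X := by
  obtain ⟨𝒮, -, hS⟩ := st hX hL
  have h : ∀ σ : Finset E3, _ := fun σ => line_bad (convex_convexHull ℝ (σ : Set E3))
    (σ.finite_toSet.isCompact_convexHull ℝ).isClosed a d
  choose B hB hB' using h
  refine ⟨⋃ σ ∈ 𝒮, B σ, 𝒮.finite_toSet.biUnion fun σ _ => hB σ, fun t ht => ?_⟩
  have hev := (eventually_all_finset 𝒮).2 fun σ hσ =>
    hB' σ t (fun h => ht (mem_biUnion hσ h))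
  obtain ⟨r, hr, hr0⟩ := (hev.and self_mem_nhdsWithin).exists
  refine ⟨r, hr0, fun z hz hzr => ?_⟩
  rw [hS] at hz
  obtain ⟨σ, hσ, hzσ⟩ := mem_iUnion₂.1 hz
  rcases hr σ hσ with h | h
  · refine Subset.trans (convexHull_min ?_ (convex_convexHull ℝ (σ : Set E3))) ?_
    · rintro x (rfl | rfl | rfl)
      · exact h.1
      · exact h.2
      · exact hzσ
    · rw [hS]; exact subset_biUnion_of_mem (u := fun s : Finset E3 => convexHull ℝ (s : Set E3)) hσ
  · exact absurd hzr (not_le.2 (h z hzσ))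

/-- the values of a weight to be avoided -/
theorem avoid {B B' : Set ℝ} (hB : B.Finite) (hB' : B'.Finite) {c : ℝ} (hc : 0 < c) :
    ∃ Z : Set ℝ, Z.Finite ∧ ∀ u, 0 < u → u ∉ Z → c / (c + u) ∉ B ∧ u / (u + c) ∉ B' := by
  refine ⟨(fun t => c / t - c) '' B ∪ (fun t => c * t / (1 - t)) '' B',
    (hB.image _).union (hB'.image _), fun u hu hZ => ⟨fun h => hZ (Or.inl ⟨_, h, ?_⟩),
      fun h => hZ (Or.inr ⟨_, h, ?_⟩)⟩⟩
  · have : c + u ≠ 0 := by positivity
    field_simp
    ring
  · have h1 : u + c ≠ 0 := by positivity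
    have h2 : 1 - u / (u + c) = c / (u + c) := by field_simp; ring
    simp only [h2]
    field_simp

/-- generic weights -/
theorem exists_weights (B : Fin 3 → Fin 3 → Set ℝ) (hB : ∀ a b, (B a b).Finite) :
    ∃ w : Fin 3 → ℝ, (∀ k, w k ∈ Icc (1:ℝ) 2) ∧ ∀ a b, a ≠ b → w a / (w a + w b) ∉ B a b := by
  have hinf : (Icc (1:ℝ) 2).Infinite := Icc_infinite (by norm_num)
  obtain ⟨Z1, hZ1, h1⟩ := avoid (hB 0 1) (hB 1 0) one_pos
  obtain ⟨u, hu, huZ⟩ := (hinf.sdiff hZ1).nonempty
  have hu0 : 0 < u := by linarith [hu.1]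
  obtain ⟨Z2, hZ2, h2⟩ := avoid (hB 0 2) (hB 2 0) one_pos
  obtain ⟨Z3, hZ3, h3⟩ := avoid (hB 1 2) (hB 2 1) hu0
  obtain ⟨v, hv, hvZ⟩ := (hinf.sdiff (hZ2.union hZ3)).nonempty
  have hv0 : 0 < v := by linarith [hv.1]
  have k1 := h1 u hu0 huZ
  have k2 := h2 v hv0 (fun h => hvZ (Or.inl h))
  have k3 := h3 v hv0 (fun h => hvZ (Or.inr h))
  refine ⟨![1, u, v], fun k => ?_, fun a b hab => ?_⟩
  · fin_cases k
    · exact ⟨le_rfl, by norm_num⟩
    · exact hu
    · exact hv
  · fin_cases a <;> fin_cases b <;> first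
      | exact absurd rfl hab
      | exact k1.1 | exact k1.2 | exact k2.1 | exact k2.2 | exact k3.1 | exact k3.2

/-- a frame with any admissible weights -/
theorem exists_frame {y : Fin 3 → E3} (hy : AffineIndependent ℝ y) (w : Fin 3 → ℝ)
    (hw : ∀ k, w k ∈ Icc (1:ℝ) 2) : ∃ F : Fr, F.y = y ∧ F.w = w := by
  have hli : LinearIndependent ℝ ![y 1 - y 0, y 2 - y 0] := by
    rw [LinearIndependent.pair_iff]
    intro p q hpq
    have h := (affineIndependent_iff_of_fintype ℝ y).1 hy ![-(p + q), p, q]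
      (by simp [Fin.sum_univ_three]) (by
        rw [Finset.weightedVSub_eq_linear_combination _ (by simp [Fin.sum_univ_three])]
        rw [← hpq]
        simp only [Fin.sum_univ_three, Matrix.cons_val_zero, Matrix.cons_val_one,
          Matrix.cons_val_two, Matrix.tail_cons, Matrix.head_cons, smul_sub, neg_smul, add_smul]
        abel)
    exact ⟨h 1, h 2⟩
  obtain ⟨ν, hν⟩ := exists_linearIndependent_cons_of_lt_finrank hli (by simp)
  let b := basisOfLinearIndependentOfCardEqFinrank hν (by simp)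
  have b0 : b 0 = ν := by simp [b]
  have b1 : b 1 = y 1 - y 0 := by simp [b]
  have b2 : b 2 = y 2 - y 0 := by
    simp only [b, coe_basisOfLinearIndependentOfCardEqFinrank]; rfl
  let c : Fin 3 → E3 →ᵃ[ℝ] ℝ := fun i =>
    (b.coord i).toAffineMap - AffineMap.const ℝ E3 (b.coord i (y 0))
  have hc : ∀ i x, c i x = b.repr (x - y 0) i := by
    intro i x
    simp [c]
  have hcl : ∀ i v, (c i).linear v = b.repr v i := by
    intro i v
    simp [c]
  have hy0 : ∀ i, c i (y 0) = 0 := by intro i; rw [hc]; simp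
  have hy1 : ∀ i, c i (y 1) = if i = 1 then 1 else 0 := by
    intro i; rw [hc, ← b1, b.repr_self, Finsupp.single_apply]; simp [eq_comm]
  have hy2 : ∀ i, c i (y 2) = if i = 2 then 1 else 0 := by
    intro i; rw [hc, ← b2, b.repr_self, Finsupp.single_apply]; simp [eq_comm]
  have hν' : ∀ i, (c i).linear ν = if i = 0 then 1 else 0 := by
    intro i; rw [hcl, ← b0, b.repr_self, Finsupp.single_apply]; simp [eq_comm]
  refine ⟨⟨y, ν, ![AffineMap.const ℝ E3 1 - c 1 - c 2, c 1, c 2], c 0, w, ?_, ?_, ?_, ?_, ?_, ?_,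
    hw⟩, rfl, rfl⟩
  · intro x
    simp
    ring
  · intro x
    have h := b.sum_repr (x - y 0)
    rw [Fin.sum_univ_three, b0, b1, b2, ← hc, ← hc, ← hc] at h
    have e : x = y 0 + (x - y 0) := by abel
    simp only [Matrix.cons_val_zero, Matrix.cons_val_one, Matrix.cons_val_two, Matrix.tail_cons,
      Matrix.head_cons, AffineMap.coe_sub, Pi.sub_apply, AffineMap.const_apply]
    conv_lhs => rw [e, ← h]
    simp only [smul_sub, sub_smul, one_smul]
    abel
  · intro j k
    fin_cases j <;> fin_cases k <;> simp [hy0, hy1, hy2]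
  · intro k
    fin_cases k <;> simp [hy0, hy1, hy2]
  · intro k
    fin_cases k <;> simp [hν']
  · simp [hν']

theorem aff_seg (f : E3 →ᵃ[ℝ] ℝ) (p q : E3) (u v : ℝ) (huv : u + v = 1) :
    f (u • p + v • q) = u * f p + v * f q := by
  have e : u • p + v • q = AffineMap.lineMap p q v := by
    rw [AffineMap.lineMap_apply_module]
    congr 2
    linarith
  rw [e, f.apply_lineMap, AffineMap.lineMap_apply_module, smul_eq_mul, smul_eq_mul]
  congr 2
  linarith

/-- the point of the sides on a wall -/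
theorem wall_point (F : Fr) {a b : Fin 3} (hab : a ≠ b) {x : E3} (hx : x ∈ sides F.y)
    (ha : x ∈ F.S a) (hb : x ∈ F.S b) :
    x = F.y a + (F.w a / (F.w a + F.w b)) • (F.y b - F.y a) := by
  obtain ⟨k, u, v, hu, hv, huv, rfl⟩ := mem_iUnion.1 hx
  have hw : ∀ i, 1 ≤ F.w i := fun i => (F.w_mem i).1
  have hl : ∀ i, F.l i (u • F.y (k + 1) + v • F.y (k + 2)) =
      u * (if i = k + 1 then 1 else 0) + v * (if i = k + 2 then 1 else 0) := by
    intro i
    rw [aff_seg _ _ _ _ _ huv, F.l_y, F.l_y]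
  have key : ∀ c, u • F.y (k + 1) + v • F.y (k + 2) ∈ F.S c → c ≠ k := by
    rintro c hc rfl
    have h1 := hc (c + 1)
    have h2 := hc (c + 2)
    rw [hl, hl] at h1 h2
    have n1 : ¬ c = c + 1 := by fin_cases c <;> decide
    have n2 : ¬ c = c + 2 := by fin_cases c <;> decide
    have n3 : ¬ c + 1 = c + 2 := by fin_cases c <;> decide
    have n4 : ¬ c + 2 = c + 1 := by fin_cases c <;> decide
    simp only [n1, n2, n3, n4, if_true, if_false, mul_one, mul_zero, add_zero, zero_add] at h1 h2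
    nlinarith [hw (c + 1), hw (c + 2)]
  have hak := key a ha
  have hbk := key b hb
  have e : F.w a * F.l a (u • F.y (k + 1) + v • F.y (k + 2)) =
      F.w b * F.l b (u • F.y (k + 1) + v • F.y (k + 2)) := le_antisymm (hb a) (ha b)
  rw [hl, hl] at e
  have hpos : F.w a + F.w b ≠ 0 := by linarith [hw a, hw b]
  have hcase : (a = k + 1 ∧ b = k + 2) ∨ (a = k + 2 ∧ b = k + 1) := by
    revert hab hak hbk
    fin_cases a <;> fin_cases b <;> fin_cases k <;> decide
  have n3 : ¬ k + 1 = k + 2 := by fin_cases k <;> decide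
  have n4 : ¬ k + 2 = k + 1 := by fin_cases k <;> decide
  rcases hcase with ⟨rfl, rfl⟩ | ⟨rfl, rfl⟩
  · simp only [n3, n4, if_true, if_false, mul_one, mul_zero, add_zero, zero_add] at e
    have hv' : F.w (k + 1) / (F.w (k + 1) + F.w (k + 2)) = v := by
      rw [div_eq_iff hpos]
      linear_combination (-F.w (k + 1)) * huv + e
    have hu' : u = 1 - v := by linarith
    rw [hv', hu', smul_sub, sub_smul, one_smul]
    abel
  · simp only [n3, n4, if_true, if_false, mul_one, mul_zero, add_zero, zero_add] at e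
    have hu' : F.w (k + 2) / (F.w (k + 2) + F.w (k + 1)) = u := by
      rw [div_eq_iff hpos]
      linear_combination (-F.w (k + 2)) * huv + e
    have hv' : v = 1 - u := by linarith
    rw [hu', hv', smul_sub, sub_smul, one_smul]
    abel

end FLF

theorem flframe : FLFRAME := by
  intro y ι s X hy hX
  classical
  have h : ∀ a b : Fin 3, ∀ i, ∃ B : Set ℝ, B.Finite ∧ (i ∈ s → ∀ t, t ∉ B →
      ∃ r > 0, ∀ z ∈ X i, dist z (y a + t • (y b - y a)) ≤ r →
      convexHull ℝ {y a + t • (y b - y a) - r • (y b - y a),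
        y a + t • (y b - y a) + r • (y b - y a), z} ⊆ X i) := by
    intro a b i
    by_cases hi : i ∈ s
    · obtain ⟨B, hB, hB'⟩ := FLF.poly_bad (hX i hi).1 (hX i hi).2 (y a) (y b - y a)
      exact ⟨B, hB, fun _ => hB'⟩
    · exact ⟨∅, finite_empty, fun h => absurd h hi⟩
  choose B hB hB' using h
  obtain ⟨w, hw, hwB⟩ := FLF.exists_weights (fun a b => ⋃ i ∈ s, B a b i)
    (fun a b => s.finite_toSet.biUnion fun i _ => hB a b i)
  obtain ⟨F, rfl, rfl⟩ := FLF.exists_frame hy w hw
  refine ⟨F, rfl, fun i hi a b hab x hx ha hb => ?_⟩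
  rw [FLF.wall_point F hab hx ha hb]
  exact hB' a b i hi _ (fun h => hwB a b hab (mem_biUnion hi h))

end P073
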