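import Vale.Agent.P073Z.Sk2

/-!
# Pieces of the flattening of a triangle
-/

open Set Metric Topology Filter

namespace P073

/-- affine coordinates adapted to a triangle, with weights -/
structure Fr where
  /-- the vertices -/
  y : Fin 3 → E3
  /-- a transversal direction -/
  ν : E3
  /-- barycentric coordinates of the projection along `ν` -/
  l : Fin 3 → E3 →ᵃ[ℝ] ℝ
  /-- the height -/
  s : E3 →ᵃ[ℝ] ℝ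
  /-- the weights -/
  w : Fin 3 → ℝ
  sum : ∀ x, l 0 x + l 1 x + l 2 x = 1
  rep : ∀ x, x = l 0 x • y 0 + l 1 x • y 1 + l 2 x • y 2 + s x • ν
  l_y : ∀ j k, l j (y k) = if j = k then 1 else 0
  s_y : ∀ k, s (y k) = 0
  l_ν : ∀ k, (l k).linear ν = 0
  s_ν : s.linear ν = 1
  w_mem : ∀ k, w k ∈ Icc (1:ℝ) 2

/-- the three sides of a triangle -/
def sides (y : Fin 3 → E3) : Set E3 := ⋃ k, segment ℝ (y (k + 1)) (y (k + 2))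

namespace Fr

variable (F : Fr)

/-- the least barycentric coordinate -/
def m (x : E3) : ℝ := min (F.l 0 x) (min (F.l 1 x) (F.l 2 x))

/-- the distance to the sides -/
def n (x : E3) : ℝ := max |F.m x| |F.s x|

/-- the distance to the inner triangle -/
def g (τ : ℝ) (x : E3) : ℝ := max |F.s x| (τ - F.m x)

/-- the torus around the sides -/
def T (τ : ℝ) : Set E3 := {x | F.n x = τ}

/-- the sector of a vertex -/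
def S (a : Fin 3) : Set E3 := {x | ∀ i, F.w i * F.l i x ≤ F.w a * F.l a x}

/-- the points which are only in sectors of vertices of `J` -/
def Z (J : Set (Fin 3)) : Set E3 := {x | ∀ j, j ∉ J → x ∉ F.S j}

/-- the join of `z` with the vertices of its sectors -/
def Kz (z : E3) : Set E3 := {x | ∃ r ∈ Icc (0:ℝ) 1, F.s x = r * F.s z ∧
  ∀ i, r * F.l i z ≤ F.l i x ∧ (z ∉ F.S i → F.l i x = r * F.l i z)}

/-- the filling of a subset of the torus -/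
def K (c : Set E3) : Set E3 := ⋃ z ∈ c, F.Kz z

/-- `c` meets each wall between two sectors at most once -/
def Once (c : Set E3) : Prop := ∀ a b, a ≠ b → (c ∩ F.S a ∩ F.S b).Subsingleton

/-- `X` is a product along each side, near the point of the side on the wall -/
def Flat (X : Set E3) : Prop := ∀ a b, a ≠ b → ∀ x ∈ sides F.y, x ∈ F.S a → x ∈ F.S b →
  ∃ r > 0, ∀ z ∈ X, dist z x ≤ r →
    convexHull ℝ {x - r • (F.y b - F.y a), x + r • (F.y b - F.y a), z} ⊆ X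

end Fr

/-- existence of a frame with generic walls -/
def FLFRAME : Prop := ∀ (y : Fin 3 → E3) {ι : Type} (s : Finset ι) (X : ι → Set E3),
  AffineIndependent ℝ y → (∀ i ∈ s, IsCompact (X i) ∧ LocCone (X i)) →
  ∃ F : Fr, F.y = y ∧ ∀ i ∈ s, F.Flat (X i)

/-- a polyhedron which meets the sides only in vertices is a cone near the sides -/
def FLY : Prop := ∀ (F : Fr) {Y : Set E3}, IsCompact Y → LocCone Y →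
  Y ∩ sides F.y ⊆ range F.y → ∀ᶠ τ in 𝓝[>] (0:ℝ),
    (∀ z ∈ Y ∩ F.T τ, ∃ a, z ∈ F.Z {a} ∧ segment ℝ (F.y a) z ⊆ Y) ∧
    ∀ x ∈ Y, F.n x ≤ τ → x ∈ sides F.y ∨ ∃ z ∈ Y ∩ F.T τ, x ∈ F.Kz z

/-- cutting a face along the torus -/
def FLCUT : Prop := ∀ (F : Fr) {D B : Set E3} {a b : Fin 3}, ConBall 2 D B →
  D ∩ sides F.y = segment ℝ (F.y a) (F.y b) → D ∩ sides F.y ⊆ B → F.Flat D →
  ∀ᶠ τ in 𝓝[>] (0:ℝ), ∃ p q, IsArc (D ∩ F.T τ) p q ∧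
    ConBall 2 {x ∈ D | τ ≤ F.n x} ((D ∩ F.T τ) ∪ {x ∈ B | τ ≤ F.n x}) ∧
    IsPreconnected {x ∈ B | τ ≤ F.n x} ∧ B ∩ F.T τ = {p, q} ∧ p ∈ F.Z {a} ∧ q ∈ F.Z {b} ∧
    {x ∈ B | F.n x ≤ τ} =
      segment ℝ (F.y a) p ∪ segment ℝ (F.y a) (F.y b) ∪ segment ℝ (F.y b) q ∧
    D ∩ F.T τ ⊆ F.Z {a, b} ∧ F.Once (D ∩ F.T τ)

/-- the piece of a disc cut off by a curve, away from a connected part of the boundary;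
two pieces missing a common point are nested or disjoint -/
def FLPC : Prop := ∀ {E : Type} [NormedAddCommGroup E] [NormedSpace ℝ E] {ι : Type}
  (s : Finset ι) {D B : Set E} (A Γ : ι → Set E), ConBall 2 D B →
  (∀ i ∈ s, A i ⊆ D ∧ Γ i ⊆ B ∧ IsPreconnected (Γ i) ∧ Disjoint (A i) (Γ i) ∧
    ((IsCircle (A i) ∧ Disjoint (A i) B) ∨ ∃ p q, IsArc (A i) p q ∧ A i ∩ B = {p, q})) →
  (∀ i ∈ s, ∀ j ∈ s, i ≠ j → Disjoint (A i) (A j) ∧ (Γ i ∩ Γ j).Nonempty) →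
  ∃ Δ J : ι → Set E, (∀ i ∈ s, ConBall 2 (Δ i) (J i) ∧ Δ i ⊆ D ∧ Disjoint (Δ i) (Γ i) ∧
      ((IsCircle (A i) ∧ J i = A i ∧ Disjoint (Δ i) B) ∨
        ∃ p q, IsArc (A i) p q ∧ A i ∩ B = {p, q} ∧ IsArc (Δ i ∩ B) p q ∧
          J i = A i ∪ (Δ i ∩ B))) ∧
    ∀ i ∈ s, ∀ j ∈ s, i ≠ j → Δ i ⊆ Δ j \ A j ∨ Δ j ⊆ Δ i \ A i ∨ Disjoint (Δ i) (Δ j)

/-- surgery in one face: the level set consists of circles and cross-cuts -/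
def FLFACE : Prop := ∀ {E : Type} [NormedAddCommGroup E] [NormedSpace ℝ E]
  {D B Γ : Set E} {G : E → ℝ} {t : ℝ} (𝒞 : Finset (Set E)) (C L : Set E → Set E),
  ConBall 2 D B → ContinuousOn G D → {x ∈ D | G x = t} = ⋃ c ∈ 𝒞, c →
  (∀ c ∈ 𝒞, ∀ c' ∈ 𝒞, c ≠ c' → Disjoint c c' ∧ Disjoint (C c) (C c')) →
  (∀ c ∈ 𝒞, ConBall 2 (C c) (L c) ∧ c ⊆ L c ∧ ∀ y ∈ C c, G y ≤ t ∧ (G y = t → y ∈ c)) →
  Γ ⊆ B → IsPreconnected Γ → Γ.Nonempty → (∀ y ∈ Γ, t < G y) →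
  (∀ c ∈ 𝒞, (IsCircle c ∧ Disjoint c B ∧ L c = c) ∨ ∃ p q, IsArc c p q ∧ c ∩ B = {p, q}) →
  ∃ (𝒪 : Finset (Set E)) (β : Set E → Set E) (D' : Set E) (Φ : ConHomeo D D'), 𝒪 ⊆ 𝒞 ∧
    (∀ y ∈ D', (y ∈ D ∧ t ≤ G y ∧ Φ.toFun y = y) ∨ ∃ c ∈ 𝒪, y ∈ C c) ∧
    (𝒞 = ∅ → D' = D) ∧ (∀ x ∈ Γ, Φ.toFun x = x) ∧
    (∀ c ∈ 𝒪, (∀ x ∈ c, Φ.toFun x = x) ∧ β c ⊆ B \ Γ ∧ IsPreconnected (β c) ∧ c ∩ B ⊆ β c ∧
      Φ.toFun '' (β c \ c) = L c \ c) ∧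
    (∀ c ∈ 𝒪, ∀ c' ∈ 𝒪, c ≠ c' → Disjoint (β c) (β c')) ∧
    ∀ x ∈ B, (∀ c ∈ 𝒪, x ∉ β c \ c) → Φ.toFun x = x

/-- disjoint caps over disjoint curves in the two parallel copies of the inner triangle -/
def FLCAP : Prop := ∀ (F : Fr) {ι : Type} (s : Finset ι) (A : ι → Set E3) (J : ι → Set (Fin 3))
  {τ t : ℝ}, 0 < t → t < τ → τ ≤ 1 / 20 →
  (∀ i ∈ s, (∀ x ∈ A i, τ ≤ F.m x ∧ |F.s x| = t) ∧ J i ≠ univ ∧ A i ∩ F.T τ ⊆ F.Z (J i) ∧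
    ((IsCircle (A i) ∧ Disjoint (A i) (F.T τ)) ∨
      ∃ p q, IsArc (A i) p q ∧ A i ∩ F.T τ = {p, q})) →
  (∀ i ∈ s, ∀ j ∈ s, i ≠ j → Disjoint (A i) (A j)) →
  ∃ C L : ι → Set E3, (∀ i ∈ s, ConBall 2 (C i) (L i) ∧ A i ⊆ L i ∧
      (IsCircle (A i) → L i = A i) ∧
      (∀ x ∈ C i, τ ≤ F.m x ∧ 0 < |F.s x| ∧ |F.s x| ≤ t ∧ (|F.s x| = t → x ∈ A i)) ∧
      C i ∩ F.T τ ⊆ L i ∧ L i \ A i ⊆ F.T τ ∩ F.Z (J i) ∧ F.Once (L i \ A i) ∧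
      ∀ a b, a ≠ b → ((L i \ A i) ∩ F.S a ∩ F.S b).Nonempty → ∃ p q, A i ∩ F.T τ = {p, q} ∧
        F.w a * F.l a p < F.w b * F.l b p ∧ F.w b * F.l b q < F.w a * F.l a q) ∧
    ∀ i ∈ s, ∀ j ∈ s, i ≠ j → Disjoint (C i) (C j)

/-- moving the outer parts of the faces off the inner triangle -/
def FLSURG : Prop := ∀ (F : Fr) {ι : Type} (s : Finset ι) (D B' : ι → Set E3)
  (J : ι → Set (Fin 3)) {τ h : ℝ}, 0 < h → h ≤ τ → τ ≤ 1 / 20 →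
  (∀ φ ∈ s, ConBall 2 (D φ) ((D φ ∩ F.T τ) ∪ B' φ) ∧ (∀ x ∈ D φ, τ ≤ F.n x) ∧
    IsPreconnected (B' φ) ∧ (B' φ).Nonempty ∧ (∀ x ∈ B' φ, h < F.g τ x) ∧ J φ ≠ univ ∧
    D φ ∩ F.T τ ⊆ F.Z (J φ) ∧ F.Once (D φ ∩ F.T τ)) →
  (∀ φ ∈ s, ∀ φ' ∈ s, φ ≠ φ' → ∀ x ∈ D φ ∩ D φ', h < F.g τ x) →
  ∃ D' : ι → Set E3, (∀ φ ∈ s,
      (∃ Φ : ConHomeo (D φ) (D' φ), (∀ x ∈ B' φ, Φ.toFun x = x) ∧
        Φ.toFun '' (D φ ∩ F.T τ) = D' φ ∩ F.T τ) ∧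
      (∀ x ∈ D' φ, τ ≤ F.n x ∧ 0 < F.g τ x ∧ (x ∈ D φ ∨ F.g τ x ≤ h)) ∧
      D' φ ∩ F.T τ ⊆ F.Z (J φ) ∧ F.Once (D' φ ∩ F.T τ) ∧
      ((∀ x ∈ D φ, h < F.g τ x) → D' φ = D φ)) ∧
    ∀ φ ∈ s, ∀ φ' ∈ s, φ ≠ φ' → D' φ ∩ D' φ' ⊆ D φ ∩ D φ'

/-- the filling of an arc on the torus is a disc -/
def FLFILL : Prop := ∀ (F : Fr) {c : Set E3} {p q : E3} {a b : Fin 3} {τ : ℝ}, 0 < τ →
  τ ≤ 1 / 20 → IsArc c p q → c ⊆ F.T τ → p ∈ F.Z {a} → q ∈ F.Z {b} → c ⊆ F.Z {a, b} →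
  F.Once c → ConBall 2 (F.K c)
    (c ∪ (segment ℝ (F.y a) p ∪ segment ℝ (F.y a) (F.y b) ∪ segment ℝ (F.y b) q))

/-- flattening, without the complex -/
def FLCORE : Prop := ∀ (y : Fin 3 → E3) {ι κ : Type} (s : Finset ι) (D B : ι → Set E3)
  (J : ι → Set (Fin 3)) {Y U : Set E3} (t : Finset κ) (X : κ → Set E3),
  AffineIndependent ℝ y → IsCompact Y → LocCone Y → Y ∩ convexHull ℝ (range y) ⊆ range y →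
  IsOpen U → convexHull ℝ (range y) ⊆ U →
  (∀ k ∈ t, IsClosed (X k) ∧ ∃ J' : Set (Fin 3), J' ≠ univ ∧
    X k ∩ convexHull ℝ (range y) = convexHull ℝ (y '' J')) →
  (∀ φ ∈ s, ConBall 2 (D φ) (B φ) ∧ B φ ⊆ sides y ∪ Y ∧ D φ ∩ (sides y ∪ Y) ⊆ B φ ∧
    J φ ≠ univ ∧ D φ ∩ sides y = convexHull ℝ (y '' J φ)) →
  (∀ φ ∈ s, ∀ φ' ∈ s, φ ≠ φ' → D φ ∩ D φ' ⊆ sides y ∪ Y) →
  ConBall 2 (convexHull ℝ (range y)) (sides y) ∧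
  ∃ D' : ι → Set E3, (∀ φ ∈ s, ConBall 2 (D' φ) (B φ) ∧ D' φ ∩ (sides y ∪ Y) ⊆ B φ ∧
      D' φ ∩ convexHull ℝ (range y) ⊆ sides y ∧ D' φ ⊆ D φ ∪ U ∧
      (Disjoint (D φ) (convexHull ℝ (range y)) → D' φ = D φ) ∧
      (Convex ℝ (D φ) → D φ ∩ convexHull ℝ (range y) ⊆ sides y → D' φ = D φ) ∧
      ∀ k ∈ t, (D' φ ∩ X k).Nonempty → (D φ ∩ X k).Nonempty) ∧
    ∀ φ ∈ s, ∀ φ' ∈ s, φ ≠ φ' → D' φ ∩ D' φ' ⊆ sides y ∪ Y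

end P073
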